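import Vale.Agent.P137.Centred.Outer.Excess

/-!
P137, centred operator, outer part: a cube anywhere in a window is a union of cubes of the grids
of the window, and the levels of these cubes are geometrically rare.
-/

open MeasureTheory Metric Set Filter
open scoped ENNReal Topology RealInnerProductSpace

noncomputable section

namespace Vale.Agent.P137.Centred

variable {d : ℕ}

/-- A cube with corner `c` and side `s` lies in the cube with corner `y` and side `u`. -/
def Fits (y : X d) (u : ℝ) (c : X d) (s : ℝ) : Prop := ∀ i, y i ≤ c i ∧ c i + s ≤ y i + u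

lemma Fits.cube_subset {y c : X d} {u s : ℝ} (h : Fits y u c s) : cube c s ⊆ cube y u :=
  fun _ hp i => ⟨(h i).1.trans (hp i).1, (hp i).2.trans_le (h i).2⟩

lemma setOf_fits (u : ℝ) (c : X d) (s : ℝ) : {y : X d | Fits y u c s} =
    (WithLp.ofLp : X d → Fin d → ℝ) ⁻¹' univ.pi fun i => Icc (c i + s - u) (c i) := by
  ext y
  simp only [Fits, mem_ofPred_eq, mem_preimage, mem_univ_pi, mem_Icc]
  exact forall_congr' fun i => ⟨fun h => ⟨by linarith [h.2], h.1⟩, fun h => ⟨h.2, by linarith [h.1]⟩⟩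

lemma measurableSet_fits (u : ℝ) (c : X d) (s : ℝ) : MeasurableSet {y : X d | Fits y u c s} := by
  rw [setOf_fits]
  exact (MeasurableSet.univ_pi fun i => measurableSet_Icc).preimage
    (PiLp.volume_preserving_ofLp (Fin d)).measurable

lemma volume_fits {u s : ℝ} (hs : s ≤ u) (c : X d) :
    volume {y : X d | Fits y u c s} = ENNReal.ofReal ((u - s) ^ d) := by
  rw [setOf_fits, (PiLp.volume_preserving_ofLp (Fin d)).measure_preimage
    (MeasurableSet.univ_pi fun i => measurableSet_Icc).nullMeasurableSet, volume_pi_pi]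
  rw [Finset.prod_congr rfl fun i _ => show volume (Icc (c i + s - u) (c i)) =
      ENNReal.ofReal (u - s) by rw [Real.volume_Icc]; congr 1; ring]
  simp [ENNReal.ofReal_pow (sub_nonneg.2 hs)]

lemma ae_coord_ne (i : Fin d) (c : ℝ) : ∀ᵐ p : X d, p i ≠ c := by
  have h : ∀ᵐ q : Fin d → ℝ, q i ≠ c :=
    measure_mono_null (fun q hq => by simpa using hq) (Measure.pi_hyperplane (fun _ => volume) i c)
  exact (PiLp.volume_preserving_ofLp (Fin d)).quasiMeasurePreserving.ae h

lemma pow_sub_pow_le {a b : ℝ} (hb : 0 ≤ b) (hab : b ≤ a) {u : ℝ} (hau : a ≤ u) :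
    ∀ d : ℕ, (a ^ d - b ^ d) * u ≤ d * u ^ d * (a - b)
  | 0 => by simp
  | d + 1 => by
    have ih := pow_sub_pow_le hb hab hau d
    have hu : 0 ≤ u := by linarith
    have hbu : b ^ d ≤ u ^ d := pow_le_pow_left₀ hb (hab.trans hau) d
    have e : (a ^ (d + 1) - b ^ (d + 1)) * u =
        a * ((a ^ d - b ^ d) * u) + b ^ d * ((a - b) * u) := by ring
    have h1 : a * ((a ^ d - b ^ d) * u) ≤ u * (d * u ^ d * (a - b)) :=
      mul_le_mul hau ih (mul_nonneg (sub_nonneg.2 (pow_le_pow_left₀ hb hab d)) hu) hu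
    have h2 : b ^ d * ((a - b) * u) ≤ u ^ d * ((a - b) * u) :=
      mul_le_mul_of_nonneg_right hbu (mul_nonneg (by linarith) hu)
    rw [e, pow_succ]
    push_cast
    linarith

section Decomp

open Classical

variable (z y : X d) (u : ℝ) (n : ℕ)

/-- The corner of a cube of level `k` in the window. -/
def wc (k : ℕ) (o : Fin d → ℤ) : X d := z + (u / 2 ^ k) • iv o

/-- The cubes of level `k` inside the cube. -/
def ins (k : ℕ) : Finset (Fin d → ℤ) :=
  (off d (n + k)).filter fun o => Fits y u (wc z u k o) (u / 2 ^ k)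

/-- The index of the parent. -/
def par (o : Fin d → ℤ) : Fin d → ℤ := fun i => o i / 2

/-- The cube of level `k` is inside and its parent is not. -/
def Fresh (k : ℕ) (o : Fin d → ℤ) : Prop :=
  Fits y u (wc z u k o) (u / 2 ^ k) ∧
    (0 < k → ¬ Fits y u (wc z u (k - 1) (par o)) (u / 2 ^ (k - 1)))

variable {z y u n}

lemma wc_par_le (k : ℕ) (hu : 0 < u) (o : Fin d → ℤ) (i : Fin d) :
    wc z u k (par o) i ≤ wc z u (k + 1) o i ∧
      wc z u (k + 1) o i + u / 2 ^ (k + 1) ≤ wc z u k (par o) i + u / 2 ^ k := by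
  simp only [wc, grid_apply, par, pow_succ]
  have h1 : 2 * (o i / 2) ≤ o i := by omega
  have h2 : o i + 1 ≤ 2 * (o i / 2) + 2 := by omega
  have h1' : 2 * ((o i / 2 : ℤ) : ℝ) ≤ o i := by exact_mod_cast h1
  have h2' : (o i : ℝ) + 1 ≤ 2 * ((o i / 2 : ℤ) : ℝ) + 2 := by exact_mod_cast h2
  have hs : 0 < u / (2 ^ k * 2) := by positivity
  have e : u / 2 ^ k = 2 * (u / (2 ^ k * 2)) := by field_simp
  constructor
  · rw [e]; nlinarith [mul_le_mul_of_nonneg_left h1' hs.le]
  · rw [e]; nlinarith [mul_le_mul_of_nonneg_left h2' hs.le]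

lemma fits_child (k : ℕ) (hu : 0 < u) (o : Fin d → ℤ)
    (h : Fits y u (wc z u k (par o)) (u / 2 ^ k)) :
    Fits y u (wc z u (k + 1) o) (u / 2 ^ (k + 1)) := fun i =>
  ⟨(h i).1.trans (wc_par_le k hu o i).1, (wc_par_le k hu o i).2.trans (h i).2⟩

variable {v : X d → X d}

lemma sum_ins_succ (hv : Integrable v) (hu : 0 < u) (k : ℕ) :
    ∑ o ∈ (ins z y u n (k + 1)).filter (fun o => Fits y u (wc z u k (par o)) (u / 2 ^ k)),
        cint v (wc z u (k + 1) o) (u / 2 ^ (k + 1)) =
      ∑ o ∈ ins z y u n k, cint v (wc z u k o) (u / 2 ^ k) := by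
  have hs : 0 < u / 2 ^ (k + 1) := by positivity
  have e : ∀ o, cint v (wc z u k o) (u / 2 ^ k) = ∑ q ∈ off d 1,
      cint v (wc z u (k + 1) (fun i => 2 * o i + q i)) (u / 2 ^ (k + 1)) := fun o => by
    have e2 : u / 2 ^ k = 2 ^ 1 * (u / 2 ^ (k + 1)) := by rw [pow_succ]; field_simp; ring
    rw [show cint v (wc z u k o) (u / 2 ^ k) = cint v (wc z u k o) (2 ^ 1 * (u / 2 ^ (k + 1))) by
      rw [← e2], cint_split _ hs 1 hv.integrableOn]
    refine Finset.sum_congr rfl fun q _ => ?_
    congr 1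
    ext i
    simp only [wc, PiLp.add_apply, PiLp.smul_apply, iv, smul_eq_mul]
    rw [e2]
    push_cast
    ring
  simp only [e]
  rw [← Finset.sum_product']
  refine Finset.sum_nbij' (fun o => (par o, fun i => o i % 2))
    (fun p i => 2 * p.1 i + p.2 i) ?_ ?_ ?_ ?_ ?_
  · intro o ho
    simp only [ins, Finset.mem_filter] at ho
    simp only [Finset.mem_product, ins, Finset.mem_filter, mem_off, par]
    refine ⟨⟨fun i => ?_, ho.2⟩, fun i => by omega⟩
    have := mem_off.1 ho.1.1 i
    rw [show n + (k + 1) = (n + k) + 1 by omega, pow_succ] at this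
    omega
  · rintro ⟨o, q⟩ hp
    simp only [Finset.mem_product, ins, Finset.mem_filter, mem_off] at hp
    have hpar : par (fun i => 2 * o i + q i) = o := funext fun i => by
      have := hp.2 i
      simp only [par]; omega
    simp only [ins, Finset.mem_filter, mem_off, hpar]
    refine ⟨⟨fun i => ?_, fits_child k hu _ (by rw [hpar]; exact hp.1.2)⟩, hp.1.2⟩
    have h1 := hp.1.1 i
    have h2 := hp.2 i
    rw [show n + (k + 1) = (n + k) + 1 by omega, pow_succ]
    omega
  · intro o _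
    funext i
    simp only [par]; omega
  · rintro ⟨o, q⟩ hp
    simp only [Finset.mem_product, mem_off] at hp
    ext i <;> have := hp.2 i <;> simp only [par] <;> omega
  · intro o _
    congr 2
    funext i
    simp only [par]
    omega

lemma excess_ins_le (hv : Integrable v) (hu : 0 < u) (e : X d) :
    ∀ k, ENNReal.ofReal (excess e (∑ o ∈ ins z y u n k, cint v (wc z u k o) (u / 2 ^ k))) ≤
      ∑ j ∈ Finset.range (k + 1), ∑ o ∈ (off d (n + j)).filter (Fresh z y u j),
        ENNReal.ofReal (excess e (cint v (wc z u j o) (u / 2 ^ j)))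
  | 0 => by
    rw [Finset.sum_range_one]
    refine (ofReal_excess_sum_le e _ _).trans (le_of_eq ?_)
    refine Finset.sum_congr ?_ fun _ _ => rfl
    ext o
    simp [ins, Fresh]
  | k + 1 => by
    rw [Finset.sum_range_succ, ← Finset.sum_filter_add_sum_filter_not (ins z y u n (k + 1))
      (fun o => Fits y u (wc z u k (par o)) (u / 2 ^ k)), sum_ins_succ hv hu k]
    refine ((ENNReal.ofReal_le_ofReal (excess_add_le e _ _)).trans ENNReal.ofReal_add_le).trans
      (add_le_add (excess_ins_le hv hu e k) ((ofReal_excess_sum_le e _ _).trans (le_of_eq ?_)))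
    refine Finset.sum_congr ?_ fun _ _ => rfl
    ext o
    simp [ins, Fresh, and_assoc]

lemma tendsto_ins (hv : Integrable v) (hu : 0 < u) (hsub : cube y u ⊆ cube z (u * 2 ^ n)) :
    Tendsto (fun k => ∑ o ∈ ins z y u n k, cint v (wc z u k o) (u / 2 ^ k)) atTop
      (𝓝 (cint v y u)) := by
  have e : ∀ k, ∑ o ∈ ins z y u n k, cint v (wc z u k o) (u / 2 ^ k) =
      ∫ p, (⋃ o ∈ ins z y u n k, cube (wc z u k o) (u / 2 ^ k)).indicator v p := fun k => by
    rw [integral_indicator (Finset.measurableSet_biUnion _ fun o _ => measurableSet_cube _ _),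
      integral_biUnion_finset (s := fun o => cube (wc z u k o) (u / 2 ^ k)) _
        (fun o _ => measurableSet_cube _ _)
        (fun o _ o' _ h => disjoint_grid z (by positivity) h) fun o _ => hv.integrableOn]
    rfl
  simp only [e]
  rw [cint, ← integral_indicator (measurableSet_cube y u)]
  refine tendsto_integral_of_dominated_convergence (fun p => ‖v p‖)
    (fun k => hv.1.indicator (Finset.measurableSet_biUnion _ fun o _ => measurableSet_cube _ _))
    hv.norm (fun k => Eventually.of_forall fun p => norm_indicator_le_norm_self _ _) ?_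
  filter_upwards [ae_all_iff.2 fun i => ae_coord_ne i (y i)] with p hp
  by_cases hpQ : p ∈ cube y u
  · have hlim : Tendsto (fun k : ℕ => u / 2 ^ k) atTop (𝓝 0) := by
      simpa [div_eq_mul_inv] using
        ((tendsto_inv_atTop_zero.comp (tendsto_pow_atTop_atTop_of_one_lt one_lt_two)).const_mul u)
    have hev : ∀ᶠ k : ℕ in atTop, ∀ i, u / 2 ^ k < p i - y i ∧ u / 2 ^ k < y i + u - p i :=
      eventually_all.2 fun i =>
        (hlim.eventually_lt_const (sub_pos.2 (lt_of_le_of_ne (hpQ i).1 (hp i).symm))).and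
          (hlim.eventually_lt_const (sub_pos.2 (hpQ i).2))
    refine tendsto_const_nhds.congr' ?_
    filter_upwards [hev] with k hk
    rw [indicator_of_mem hpQ, indicator_of_mem]
    have hs : 0 < u / 2 ^ k := by positivity
    set o := gidx z (u / 2 ^ k) p
    have hm : p ∈ cube (z + (u / 2 ^ k) • iv o) (u / 2 ^ k) := mem_grid_self z p hs
    refine mem_iUnion₂.2 ⟨o, Finset.mem_filter.2 ⟨?_, fun i => ?_⟩, hm⟩
    · have hz : p ∈ cube z (2 ^ (n + k) * (u / 2 ^ k)) := by
        rw [show (2:ℝ) ^ (n + k) * (u / 2 ^ k) = u * 2 ^ n by rw [pow_add]; field_simp]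
        exact hsub hpQ
      rw [cube_split z hs (n + k)] at hz
      obtain ⟨o', ho', hp'⟩ := mem_iUnion₂.1 hz
      rwa [show o = o' from (mem_grid hs).1 hp']
    · have h1 := hm i
      simp only [wc]
      constructor <;> linarith [(hk i).1, (hk i).2, h1.1, h1.2]
  · refine tendsto_const_nhds.congr fun k => ?_
    rw [indicator_of_notMem hpQ, indicator_of_notMem]
    intro h
    obtain ⟨o, ho, hpo⟩ := mem_iUnion₂.1 h
    exact hpQ ((Finset.mem_filter.1 ho).2.cube_subset hpo)

lemma excess_le_fresh (hv : Integrable v) (hu : 0 < u) (hsub : cube y u ⊆ cube z (u * 2 ^ n))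
    (e : X d) :
    ENNReal.ofReal (excess e (cint v y u)) ≤
      ∑' j, ∑ o ∈ (off d (n + j)).filter (Fresh z y u j),
        ENNReal.ofReal (excess e (cint v (wc z u j o) (u / 2 ^ j))) :=
  le_of_tendsto
    (((ENNReal.continuous_ofReal.comp (continuous_excess e)).tendsto _).comp
      (tendsto_ins hv hu hsub))
    (Eventually.of_forall fun k => (excess_ins_le hv hu e k).trans (ENNReal.sum_le_tsum _))

lemma measurableSet_fresh (z : X d) (u : ℝ) (k : ℕ) (o : Fin d → ℤ) :
    MeasurableSet {y : X d | Fresh z y u k o} := by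
  by_cases hk : 0 < k
  · simp only [Fresh, hk, forall_const]
    exact (measurableSet_fits _ _ _).inter (measurableSet_fits _ _ _).compl
  · simp only [Fresh, hk, false_imp_iff, and_true]
    exact measurableSet_fits _ _ _

lemma volume_fresh_le (hu : 0 < u) (z : X d) (k : ℕ) (o : Fin d → ℤ) :
    volume {y : X d | Fresh z y u k o} ≤
      ENNReal.ofReal (((d:ℝ) + 1) * u ^ d) * ((2:ℝ≥0∞) ^ k)⁻¹ := by
  rcases k with _ | k
  · refine (measure_mono (t := {y | Fits y u (wc z u 0 o) (u / 2 ^ 0)}) fun y hy => hy.1).trans ?_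
    rw [volume_fits (by simp) _]
    simp only [pow_zero, div_one, sub_self, inv_one, mul_one]
    refine ENNReal.ofReal_le_ofReal ?_
    rcases d with _ | d
    · simp
    · simp only [zero_pow (Nat.succ_ne_zero _)]; positivity
  · have hs : 0 < u / 2 ^ (k + 1) := by positivity
    have e : u / 2 ^ k = 2 * (u / 2 ^ (k + 1)) := by rw [pow_succ]; field_simp
    have h2 : u / 2 ^ k ≤ u := div_le_self hu.le (one_le_pow₀ one_le_two)
    have hset : {y : X d | Fresh z y u (k + 1) o} =
        {y | Fits y u (wc z u (k + 1) o) (u / 2 ^ (k + 1))} \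
          {y | Fits y u (wc z u k (par o)) (u / 2 ^ k)} := by
      ext y; simp [Fresh]
    have hsub : {y | Fits y u (wc z u k (par o)) (u / 2 ^ k)} ⊆
        {y | Fits y u (wc z u (k + 1) o) (u / 2 ^ (k + 1))} := fun y hy => fits_child k hu o hy
    rw [hset, measure_sdiff hsub
      (measurableSet_fits _ _ _).nullMeasurableSet (by rw [volume_fits h2]; simp),
      volume_fits (by linarith) _, volume_fits h2 _, ← ENNReal.ofReal_sub _ (by
        exact pow_nonneg (by linarith) _),
      show ((2:ℝ≥0∞) ^ (k + 1))⁻¹ = ENNReal.ofReal (((2:ℝ) ^ (k + 1))⁻¹) by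
        rw [ENNReal.ofReal_inv_of_pos (by positivity), ENNReal.ofReal_pow zero_le_two]; norm_num,
      ← ENNReal.ofReal_mul (by positivity)]
    refine ENNReal.ofReal_le_ofReal ?_
    have h := pow_sub_pow_le (a := u - u / 2 ^ (k + 1)) (b := u - u / 2 ^ k) (u := u)
      (by linarith) (by linarith) (by linarith) d
    refine le_of_mul_le_mul_right (h.trans ?_) hu
    rw [show (u - u / 2 ^ (k + 1) - (u - u / 2 ^ k)) = u / 2 ^ (k + 1) by rw [e]; ring]
    have : 0 ≤ u ^ d * (u / 2 ^ (k + 1)) := by positivity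
    calc (d:ℝ) * u ^ d * (u / 2 ^ (k + 1)) ≤ ((d:ℝ) + 1) * u ^ d * (u / 2 ^ (k + 1)) := by
          linarith
      _ = ((d:ℝ) + 1) * u ^ d * ((2:ℝ) ^ (k + 1))⁻¹ * u := by ring

end Decomp

variable {v : X d → X d}

lemma sum_excess_eq (hv : Integrable v) (z : X d) {s : ℝ} (hs : 0 < s) (m : ℕ) :
    ∑ o ∈ off d m, ENNReal.ofReal (excess (edir v z (2 ^ m * s)) (cint v (z + s • iv o) s)) =
      (∑ o ∈ off d m, ‖cint v (z + s • iv o) s‖ₑ) - ‖cint v z (2 ^ m * s)‖ₑ := by
  rw [← ENNReal.ofReal_sum_of_nonneg fun o _ => excess_nonneg (norm_edir_le _ _ _) _]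
  simp only [excess, Finset.sum_sub_distrib, ← inner_sum, ← cint_split z hs m hv.integrableOn,
    inner_edir_self]
  rw [ENNReal.ofReal_sub _ (norm_nonneg _), ENNReal.ofReal_sum_of_nonneg fun o _ => norm_nonneg _]
  simp only [ofReal_norm]

theorem window_le (hv : Integrable v) {u : ℝ} (hu : 0 < u) (n : ℕ) (z : X d) :
    ∫⁻ y, {y | cube y u ⊆ cube z (u * 2 ^ n)}.indicator
        (fun y => ENNReal.ofReal (excess (edir v z (u * 2 ^ n)) (cint v y u))) y ≤
      ENNReal.ofReal (((d:ℝ) + 1) * u ^ d) * ∑' k, ((2:ℝ≥0∞) ^ k)⁻¹ *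
        ((∑ o ∈ off d (n + k), ‖cint v (z + (u / 2 ^ k) • iv o) (u / 2 ^ k)‖ₑ) -
          ‖cint v z (u * 2 ^ n)‖ₑ) := by
  classical
  set e := edir v z (u * 2 ^ n) with he
  have hpt : ∀ y, {y | cube y u ⊆ cube z (u * 2 ^ n)}.indicator
      (fun y => ENNReal.ofReal (excess e (cint v y u))) y ≤
      ∑' k, ∑ o ∈ off d (n + k), {y | Fresh z y u k o}.indicator
        (fun _ => ENNReal.ofReal (excess e (cint v (wc z u k o) (u / 2 ^ k)))) y := by
    intro y
    by_cases hy : cube y u ⊆ cube z (u * 2 ^ n)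
    · rw [indicator_of_mem (show y ∈ {y | cube y u ⊆ cube z (u * 2 ^ n)} from hy)]
      refine (excess_le_fresh hv hu hy e).trans (le_of_eq (tsum_congr fun k => ?_))
      rw [Finset.sum_filter]
      exact Finset.sum_congr rfl fun o _ => by simp [Set.indicator]
    · rw [indicator_of_notMem (show y ∉ {y | cube y u ⊆ cube z (u * 2 ^ n)} from hy)]
      exact zero_le
  refine (lintegral_mono hpt).trans ?_
  rw [lintegral_tsum fun k => (Finset.measurable_sum _ fun o _ =>
    measurable_const.indicator (measurableSet_fresh z u k o)).aemeasurable, ← ENNReal.tsum_mul_left]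
  refine ENNReal.tsum_le_tsum fun k => ?_
  rw [lintegral_finsetSum _ fun o _ => measurable_const.indicator (measurableSet_fresh z u k o)]
  simp only [lintegral_indicator_const (measurableSet_fresh z u k _)]
  refine (Finset.sum_le_sum fun o _ => mul_le_mul_right (volume_fresh_le hu z k o) _).trans
    (le_of_eq ?_)
  have hW : (2:ℝ) ^ (n + k) * (u / 2 ^ k) = u * 2 ^ n := by rw [pow_add]; field_simp
  have hS := sum_excess_eq hv z (show 0 < u / 2 ^ k by positivity) (n + k)
  rw [hW] at hS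
  rw [← Finset.sum_mul, ← hS]
  simp only [wc, ← he]
  ring

theorem whitneyEst (d : ℕ) : WhitneyEst d := by
  refine ⟨(d:ℝ) + 1, by positivity, fun v _ hv u hu n => ?_⟩
  set W : ℝ := u * 2 ^ n with hW
  have hWp : 0 < W := by positivity
  have hint : ∀ s, 0 < s → ∫⁻ z, ‖cint v z s‖ₑ ≠ ⊤ := fun s hs =>
    ne_top_of_le_ne_top (ENNReal.mul_ne_top ENNReal.ofReal_ne_top hv.2.ne)
      (lintegral_cint_le hv hs.le)
  have hk : ∀ k, ∫⁻ z, ((∑ o ∈ off d (n + k), ‖cint v (z + (u / 2 ^ k) • iv o) (u / 2 ^ k)‖ₑ) -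
      ‖cint v z W‖ₑ) = ENNReal.ofReal (W ^ d) * (cmass v (u / 2 ^ k) - cmass v W) := fun k => by
    have hs : 0 < u / 2 ^ k := by positivity
    have hme : ∀ o : Fin d → ℤ,
        Measurable fun z => ‖cint v (z + (u / 2 ^ k) • iv o) (u / 2 ^ k)‖ₑ := fun o =>
      ((measurable_cint hv.1 _).fun_comp (measurable_add_const _)).enorm
    have hle : ∀ z, ‖cint v z W‖ₑ ≤
        ∑ o ∈ off d (n + k), ‖cint v (z + (u / 2 ^ k) • iv o) (u / 2 ^ k)‖ₑ := fun z => by
      rw [show W = 2 ^ (n + k) * (u / 2 ^ k) by rw [hW, pow_add]; field_simp,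
        cint_split z hs (n + k) hv.integrableOn]
      exact enorm_sum_le _ _
    rw [lintegral_sub (measurable_cint hv.1 W).enorm (hint W hWp) (Eventually.of_forall hle),
      lintegral_finsetSum _ fun o _ => hme o,
      Finset.sum_congr rfl fun o _ => lintegral_add_right_eq_self
        (fun z => ‖cint v z (u / 2 ^ k)‖ₑ) ((u / 2 ^ k) • iv o),
      Finset.sum_const, card_off, nsmul_eq_mul, cmass, cmass,
      ENNReal.mul_sub fun _ _ => ENNReal.ofReal_ne_top]
    congr 1
    · have e : W ^ d = (2 ^ ((n + k) * d)) * (u / 2 ^ k) ^ d := by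
        rw [pow_mul, ← mul_pow, hW, pow_add]; field_simp
      rw [e, ENNReal.ofReal_mul (by positivity), ENNReal.ofReal_pow zero_le_two]
      rw [show ∀ a b c : ℝ≥0∞, a * b * (b⁻¹ * c) = a * (b * b⁻¹) * c from fun _ _ _ => by ring,
        ENNReal.mul_inv_cancel (ne_of_gt (ENNReal.ofReal_pos.2 (by positivity)))
          ENNReal.ofReal_ne_top, mul_one]
      norm_num
    · rw [← mul_assoc, ENNReal.mul_inv_cancel (ne_of_gt (ENNReal.ofReal_pos.2 (by positivity)))
        ENNReal.ofReal_ne_top, one_mul]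
  unfold excMass
  refine (mul_le_mul_right (lintegral_mono fun z => window_le hv hu n z) _).trans (le_of_eq ?_)
  have hm : ∀ k : ℕ, Measurable fun z => ((2:ℝ≥0∞) ^ k)⁻¹ *
      ((∑ o ∈ off d (n + k), ‖cint v (z + (u / 2 ^ k) • iv o) (u / 2 ^ k)‖ₑ) - ‖cint v z W‖ₑ) :=
    fun k => ((Finset.measurable_sum _ fun o _ =>
      ((measurable_cint hv.1 _).fun_comp (measurable_add_const _)).enorm).sub
      (measurable_cint hv.1 W).enorm).const_mul _
  rw [lintegral_const_mul' _ _ ENNReal.ofReal_ne_top, lintegral_tsum fun k => (hm k).aemeasurable]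
  simp only [lintegral_const_mul' _ _ (ENNReal.inv_ne_top.2 (by positivity : ((2:ℝ≥0∞) ^ _) ≠ 0)),
    ← hW, hk, ← mul_assoc, mul_comm _ (ENNReal.ofReal (W ^ d))]
  simp only [mul_assoc, ENNReal.tsum_mul_left]
  rw [ENNReal.ofReal_mul (by positivity), ENNReal.ofReal_mul (by positivity)]
  have hA : ENNReal.ofReal (W ^ d) ≠ 0 := ne_of_gt (ENNReal.ofReal_pos.2 (by positivity))
  have hB : ENNReal.ofReal (u ^ d) ≠ 0 := ne_of_gt (ENNReal.ofReal_pos.2 (by positivity))
  rw [ENNReal.mul_inv (Or.inl hA) (Or.inl ENNReal.ofReal_ne_top)]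
  set S := ∑' k, ((2:ℝ≥0∞) ^ k)⁻¹ * (cmass v (u / 2 ^ k) - cmass v W)
  rw [show ∀ a b c p q : ℝ≥0∞, a * b * (c * p * (q * S)) = (a * q) * (b * p) * (c * S) from
    fun _ _ _ _ _ => by ring, ENNReal.inv_mul_cancel hA ENNReal.ofReal_ne_top,
    ENNReal.inv_mul_cancel hB ENNReal.ofReal_ne_top, one_mul, one_mul]

end Vale.Agent.P137.Centred
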