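import Vale.Agent.P137.Centred.Outer.Near
import Vale.Agent.P137.Centred.Outer.Whitney

/-!
P137, centred operator, outer part: the error sums, averaged over the translations of the grid.
-/

open MeasureTheory Metric Set Filter
open scoped ENNReal Topology RealInnerProductSpace

noncomputable section

namespace Vale.Agent.P137.Centred

variable {d : ℕ}

lemma lintegral_level {L : ℝ} (hL : 0 < L) (n : ℕ) {F : X d → ℝ≥0∞} (hF : Measurable F) :
    ∫⁻ a in cube (0 : X d) L, ∑' k : Fin d → ℤ, F (a + lev L n • iv k) =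
      ENNReal.ofReal (L ^ d) * ((ENNReal.ofReal (lev L n ^ d))⁻¹ * ∫⁻ z, F z) := by
  have hl := lev_pos hL n
  have eL : L = 2 ^ n * lev L n := by
    have := lev_add L 0 n
    simpa [lev] using this
  have h := avg_grid hl n hF
  rw [← eL] at h
  rw [h, ← mul_assoc, ← ENNReal.ofReal_inv_of_pos (by positivity), ← ENNReal.ofReal_mul (by positivity)]
  congr 1
  rw [show L ^ d * (lev L n ^ d)⁻¹ = (2:ℝ) ^ (n * d) by
    nth_rw 1 [eL]
    rw [mul_pow, ← pow_mul, mul_assoc, mul_inv_cancel₀ (by positivity), mul_one],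
    ENNReal.ofReal_pow zero_le_two, ENNReal.ofReal_ofNat]

lemma measurable_ofReal_excess {α : Type*} [MeasurableSpace α] {f g : α → X d} (hf : Measurable f)
    (hg : Measurable g) : Measurable fun a => ENNReal.ofReal (excess (f a) (g a)) := by
  unfold excess
  exact (hg.norm.sub (hf.inner hg)).ennreal_ofReal

lemma measurable_excess_ebar {v : X d → X d} (hv : AEStronglyMeasurable v volume) (l : ℝ) (w : X d)
    (s : ℝ) : Measurable fun z => ENNReal.ofReal (excess (ebar v z l) (cint v (z + w) s)) := by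
  have h2 : Measurable fun z => cint v (z + w) s :=
    (measurable_cint hv s).fun_comp (measurable_add_const w)
  exact measurable_ofReal_excess (measurable_ebar hv l) h2

/-- The excess of a sub-cube over the direction of its ancestor, integrated over positions. -/
theorem lintegral_excess_ebar_le {v : X d → X d} (hv : Integrable v) {s : ℝ} (hs : 0 < s) (J : ℕ)
    {o : Fin d → ℤ} (ho : o ∈ off d J) :
    ∫⁻ z, ENNReal.ofReal (excess (ebar v z (2 ^ J * s)) (cint v (z + s • iv o) s)) ≤
      ENNReal.ofReal (2 ^ d * s ^ d) * excMass v s (J + 1) := by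
  set l : ℝ := 2 ^ J * s with hl'
  have hl : 0 < l := by positivity
  set w : X d := s • iv o with hw
  set G : X d → X d → ℝ≥0∞ := fun p y =>
    ENNReal.ofReal (excess (edir v p (2 * l)) (cint v y s)) with hG
  set S : Set (X d × X d) := {q | cube q.2 s ⊆ cube q.1 (2 * l)} with hS
  have hG1 : Measurable fun q : X d × X d => edir v q.1 (2 * l) :=
    (measurable_edir hv.1 (2 * l)).fun_comp measurable_fst
  have hG2 : Measurable fun q : X d × X d => cint v q.2 s :=
    (measurable_cint hv.1 s).fun_comp measurable_snd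
  have hGm : Measurable fun q : X d × X d => G q.1 q.2 :=
    measurable_ofReal_excess hG1 hG2
  set T : Set (X d × X d) := {q | ∀ i, q.1 i ≤ q.2 i ∧ q.2 i + s ≤ q.1 i + 2 * l} with hT
  have hTm : MeasurableSet T := by
    have e : T = ⋂ i, {q : X d × X d | q.1 i ≤ q.2 i} ∩ {q | q.2 i + s ≤ q.1 i + 2 * l} := by
      ext q; simp [hT, Set.mem_iInter, forall_and]
    rw [e]
    exact MeasurableSet.iInter fun i =>
      (isClosed_le (by fun_prop) (by fun_prop)).measurableSet.inter
        (isClosed_le (by fun_prop) (by fun_prop)).measurableSet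
  have hTS : T ⊆ S := fun q hq y hy i =>
    ⟨(hq i).1.trans (hy i).1, (hy i).2.trans_le (hq i).2⟩
  have hpt : ∀ z, ENNReal.ofReal (excess (ebar v z l) (cint v (z + w) s)) ≤
      (ENNReal.ofReal (l ^ d))⁻¹ *
        ∫⁻ p, T.indicator (fun q => G q.1 q.2) (p, z + w) := by
    intro z
    rw [ofReal_excess_ebar hv.1 z hl]
    refine mul_le_mul_right ?_ _
    have e := lintegral_shift_cube z (-(l • onev d)) l (fun p => G p (z + w))
    simp only [← sub_eq_add_neg] at e
    change ∫⁻ c in cube z l, G (c - l • onev d) (z + w) ≤ _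
    rw [e, ← lintegral_indicator (measurableSet_cube _ _)]
    refine lintegral_mono fun p => ?_
    by_cases hp : p ∈ cube (z - l • onev d) l
    · rw [indicator_of_mem hp, indicator_of_mem]
      intro i
      have h1 := hp i
      have ho1 : (0 : ℝ) ≤ o i := by exact_mod_cast (mem_off.1 ho i).1
      have ho2 : (o i : ℝ) + 1 ≤ 2 ^ J := by exact_mod_cast (mem_off.1 ho i).2
      simp only [hw, onev, PiLp.sub_apply, PiLp.add_apply, PiLp.smul_apply, iv, smul_eq_mul,
        Int.cast_one, mul_one] at h1 ⊢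
      have := mul_le_mul_of_nonneg_left ho2 hs.le
      have := mul_nonneg hs.le ho1
      rw [hl'] at h1 ⊢
      constructor <;> linarith [h1.1, h1.2]
    · rw [indicator_of_notMem hp]; exact zero_le
  have hTGm : Measurable (T.indicator fun q : X d × X d => G q.1 q.2) := hGm.indicator hTm
  have hTs : AEMeasurable (Function.uncurry fun y p => T.indicator (fun q => G q.1 q.2) (p, y))
      ((volume : Measure (X d)).prod volume) :=
    (hTGm.fun_comp (f := fun q : X d × X d => (q.2, q.1)) (measurable_snd.prodMk measurable_fst)).aemeasurable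
  refine (lintegral_mono hpt).trans ?_
  rw [lintegral_const_mul' _ _ (ENNReal.inv_ne_top.2 (ne_of_gt (ENNReal.ofReal_pos.2 (by positivity)))),
    lintegral_add_right_eq_self (fun y => ∫⁻ p, T.indicator (fun q => G q.1 q.2) (p, y)) w,
    lintegral_lintegral_swap hTs]
  have e2l : s * 2 ^ (J + 1) = 2 * l := by rw [hl', pow_succ]; ring
  have hle : ∫⁻ p, ∫⁻ y, T.indicator (fun q => G q.1 q.2) (p, y) ≤
      ENNReal.ofReal ((2 * l) ^ d * s ^ d) * excMass v s (J + 1) := by
    rw [excMass, e2l, ← mul_assoc, ENNReal.mul_inv_cancel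
      (ne_of_gt (ENNReal.ofReal_pos.2 (by positivity))) ENNReal.ofReal_ne_top, one_mul]
    refine lintegral_mono fun p => lintegral_mono fun y => ?_
    by_cases hq : (p, y) ∈ T
    · rw [indicator_of_mem hq, indicator_of_mem (show y ∈ {y | cube y s ⊆ cube p (2 * l)} from hTS hq)]
    · rw [indicator_of_notMem hq]; exact zero_le
  refine (mul_le_mul_right hle _).trans (le_of_eq ?_)
  rw [← mul_assoc, ← ENNReal.ofReal_inv_of_pos (by positivity), ← ENNReal.ofReal_mul (by positivity)]
  congr 2
  field_simp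
  rw [mul_pow]
  ring

/-- The excesses of the sub-cubes with one offset over the directions of the cubes of a level. -/
theorem lintegral_level_excess {v : X d → X d} (hv : Integrable v) {L : ℝ} (hL : 0 < L)
    (n J : ℕ) {o : Fin d → ℤ} (ho : o ∈ off d J) :
    ∫⁻ a in cube (0 : X d) L, ∑' P : Fin d → ℤ,
        ENNReal.ofReal (excess (gdir v a L n P) (gint v a L (n + J) (sub2 J P o))) ≤
      ENNReal.ofReal (L ^ d) * ((2:ℝ≥0∞) ^ d * ((2:ℝ≥0∞) ^ (J * d))⁻¹ *
        excMass v (lev L (n + J)) (J + 1)) := by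
  have hl := lev_pos hL (n + J)
  set s := lev L (n + J) with hs
  have e : lev L n = 2 ^ J * s := lev_add L n J
  have e1 : ∀ (a : X d) (P : Fin d → ℤ),
      ENNReal.ofReal (excess (gdir v a L n P) (gint v a L (n + J) (sub2 J P o))) =
        (fun z => ENNReal.ofReal (excess (ebar v z (2 ^ J * s)) (cint v (z + s • iv o) s)))
          (a + lev L n • iv P) := fun a P => by
    simp only [gdir, gint, ← hs, ← e]
    congr 3
    ext c
    simp only [grid_apply, sub2]
    rw [e]
    push_cast
    ring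
  simp only [e1]
  rw [lintegral_level hL n (measurable_excess_ebar hv.1 _ _ _), e]
  refine mul_le_mul_right ((mul_le_mul_right (lintegral_excess_ebar_le hv hl J ho) _).trans
    (le_of_eq ?_)) _
  rw [← mul_assoc, ← ENNReal.ofReal_inv_of_pos (by positivity), ← ENNReal.ofReal_mul (by positivity)]
  congr 1
  rw [show ((2 ^ J * s) ^ d)⁻¹ * (2 ^ d * s ^ d) = (2:ℝ) ^ d * ((2:ℝ) ^ (J * d))⁻¹ by
      rw [mul_pow, ← pow_mul]; field_simp,
    ENNReal.ofReal_mul (by positivity), ENNReal.ofReal_inv_of_pos (by positivity),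
    ENNReal.ofReal_pow zero_le_two, ENNReal.ofReal_pow zero_le_two, ENNReal.ofReal_ofNat]

/-- The loss of mass from cubes of side `2 ^ i * s` to cubes of side `s`. -/
theorem lintegral_children_sub {v : X d → X d} (hv : Integrable v) {s : ℝ} (hs : 0 < s) (i : ℕ) :
    ∫⁻ z, ((∑ o ∈ off d i, ‖cint v (z + s • iv o) s‖ₑ) - ‖cint v z (2 ^ i * s)‖ₑ) =
      ENNReal.ofReal ((2 ^ i * s) ^ d) * (cmass v s - cmass v (2 ^ i * s)) := by
  have hme : ∀ o : Fin d → ℤ, Measurable fun z => ‖cint v (z + s • iv o) s‖ₑ := fun o =>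
    ((measurable_cint hv.1 _).fun_comp (measurable_add_const _)).enorm
  have hfin : ∫⁻ z, ‖cint v z (2 ^ i * s)‖ₑ ≠ ⊤ :=
    ne_top_of_le_ne_top (ENNReal.mul_ne_top ENNReal.ofReal_ne_top hv.2.ne)
      (lintegral_cint_le hv (by positivity))
  rw [lintegral_sub (measurable_cint hv.1 _).enorm hfin (Eventually.of_forall fun z => by
      show ‖cint v z (2 ^ i * s)‖ₑ ≤ _
      rw [cint_split z hs i hv.integrableOn]; exact enorm_sum_le _ _),
    lintegral_finsetSum _ fun o _ => hme o,
    Finset.sum_congr rfl fun o _ => lintegral_add_right_eq_self (fun z => ‖cint v z s‖ₑ) (s • iv o),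
    Finset.sum_const, card_off, nsmul_eq_mul, cmass, cmass,
    ENNReal.mul_sub fun _ _ => ENNReal.ofReal_ne_top]
  congr 1
  · rw [mul_pow, ENNReal.ofReal_mul (by positivity), ← pow_mul, ENNReal.ofReal_pow zero_le_two,
      show ∀ a b c : ℝ≥0∞, a * b * (b⁻¹ * c) = a * (b * b⁻¹) * c from fun _ _ _ => by ring,
      ENNReal.mul_inv_cancel (ne_of_gt (ENNReal.ofReal_pos.2 (by positivity)))
        ENNReal.ofReal_ne_top, mul_one]
    norm_num
  · rw [← mul_assoc, ENNReal.mul_inv_cancel (ne_of_gt (ENNReal.ofReal_pos.2 (by positivity)))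
      ENNReal.ofReal_ne_top, one_mul]

open Classical in
lemma drop_eq {v : X d → X d} (a : X d) (L : ℝ) (n : ℕ) (P : Fin d → ℤ) :
    drop v a L n P = (∑ o ∈ off d 1, ‖cint v ((a + lev L n • iv P) + lev L (n + 1) • iv o)
      (lev L (n + 1))‖ₑ) - ‖cint v (a + lev L n • iv P) (2 ^ 1 * lev L (n + 1))‖ₑ := by
  unfold drop gint
  rw [← lev_add L n 1, kids, cells, Finset.singleton_biUnion, Finset.sum_image fun o _ o' _ h =>
    funext fun c => add_left_cancel (congrFun h c)]
  congr 1
  refine Finset.sum_congr rfl fun o _ => ?_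
  congr 2
  ext c
  simp only [grid_apply]
  rw [lev_add L n 1]
  push_cast
  ring

theorem lintegral_drop {v : X d → X d} (hv : Integrable v) {L : ℝ} (hL : 0 < L) (n : ℕ) :
    ∫⁻ a in cube (0 : X d) L, ∑' P : Fin d → ℤ, drop v a L n P =
      ENNReal.ofReal (L ^ d) * (cmass v (lev L (n + 1)) - cmass v (lev L n)) := by
  have hl := lev_pos hL (n + 1)
  simp only [drop_eq]
  rw [lintegral_level hL n (F := fun z => (∑ o ∈ off d 1, ‖cint v (z + lev L (n + 1) • iv o)
      (lev L (n + 1))‖ₑ) - ‖cint v z (2 ^ 1 * lev L (n + 1))‖ₑ)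
    ((Finset.measurable_sum _ fun o _ => ((measurable_cint hv.1 _).fun_comp
      (measurable_add_const _)).enorm).sub (measurable_cint hv.1 _).enorm),
    lintegral_children_sub hv hl 1, ← lev_add L n 1, ← mul_assoc (ENNReal.ofReal (lev L n ^ d))⁻¹,
    ENNReal.inv_mul_cancel (ne_of_gt (ENNReal.ofReal_pos.2 (by have := lev_pos hL n; positivity)))
      ENNReal.ofReal_ne_top, one_mul]

/-- The loss of mass of a cube from its scale to zero. -/
def loss (v : X d → X d) (l : ℝ) (z : X d) : ℝ≥0∞ :=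
  (∫⁻ y in cube z l, ‖v y‖ₑ) - ‖cint v z l‖ₑ

lemma lintegral_cube_eq (v : X d → X d) (z : X d) (l : ℝ) :
    ∫⁻ y in cube z l, ‖v y‖ₑ = ∫⁻ y in cube (0 : X d) l, ‖v (y + z)‖ₑ := by
  rw [lintegral_shift_cube 0 z l fun y => ‖v y‖ₑ, zero_add]

lemma measurable_lintegral_cube {v : X d → X d} (hv : Continuous v) (l : ℝ) :
    Measurable fun z => ∫⁻ y in cube z l, ‖v y‖ₑ := by
  have hc : Continuous fun p : X d × X d => v (p.2 + p.1) := hv.comp (by fun_prop)
  rw [show (fun z => ∫⁻ y in cube z l, ‖v y‖ₑ) = fun z => ∫⁻ y in cube (0 : X d) l, ‖v (y + z)‖ₑ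
    from funext fun z => lintegral_cube_eq v z l]
  exact hc.enorm.measurable.lintegral_prod_right'

lemma measurable_loss {v : X d → X d} (hv : Continuous v) (l : ℝ) : Measurable (loss v l) :=
  (measurable_lintegral_cube hv l).sub (measurable_cint hv.aestronglyMeasurable l).enorm

theorem lintegral_loss {v : X d → X d} (hv : Continuous v) (hvi : Integrable v) {l : ℝ}
    (hl : 0 < l) :
    ∫⁻ z, loss v l z = ENNReal.ofReal (l ^ d) * ((∫⁻ y, ‖v y‖ₑ) - cmass v l) := by
  have hI : ∫⁻ z, ∫⁻ y in cube z l, ‖v y‖ₑ = ENNReal.ofReal (l ^ d) * ∫⁻ y, ‖v y‖ₑ := by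
    have hc : Continuous fun p : X d × X d => v (p.2 + p.1) := hv.comp (by fun_prop)
    rw [show (fun z => ∫⁻ y in cube z l, ‖v y‖ₑ) = fun z => ∫⁻ y in cube (0 : X d) l, ‖v (y + z)‖ₑ
      from funext fun z => lintegral_cube_eq v z l, lintegral_lintegral_swap hc.enorm.measurable.aemeasurable]
    simp only [lintegral_add_left_eq_self (fun z => ‖v z‖ₑ)]
    rw [setLIntegral_const, volume_cube _ hl.le, mul_comm]
  unfold loss
  rw [lintegral_sub (measurable_cint hvi.1 l).enorm
      (ne_top_of_le_ne_top (ENNReal.mul_ne_top ENNReal.ofReal_ne_top hvi.2.ne)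
        (lintegral_cint_le hvi hl.le)) (Eventually.of_forall fun z => enorm_cint_le v z l),
    hI, cmass, ENNReal.mul_sub fun _ _ => ENNReal.ofReal_ne_top, ← mul_assoc,
    ENNReal.mul_inv_cancel (ne_of_gt (ENNReal.ofReal_pos.2 (by positivity)))
      ENNReal.ofReal_ne_top, one_mul]

end Vale.Agent.P137.Centred
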