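import Vale.Agent.P137.Centred.Outer.Local

/-!
P137, centred operator, outer part: the maximal function of one tree, by the size of the
maximising radius.
-/

open MeasureTheory Metric Set Filter
open scoped ENNReal Topology RealInnerProductSpace NNReal

noncomputable section

namespace Vale.Agent.P137.Centred

variable {d : ℕ} {P : Par d} {f : X d → ℝ} {a : X d} {L : ℝ} {N nQ : ℕ} {kQ : Fin d → ℤ}

lemma bad_nonneg (η : ℝ) (e Y : X d) : 0 ≤ bad η e Y := by
  unfold bad; split_ifs <;> simp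

/-- The excess of a field in a cube. -/
lemma lintegral_excess_cell {v : X d → X d} (hv : Integrable v) {e : X d} (he : ‖e‖ ≤ 1) (z : X d)
    (l : ℝ) : ∫⁻ y in cube z l, ENNReal.ofReal (excess e (v y)) =
      loss v l z + ENNReal.ofReal (excess e (cint v z l)) := by
  have hi : IntegrableOn v (cube z l) := hv.integrableOn
  have hI : IntegrableOn (fun y => excess e (v y)) (cube z l) := hi.norm.sub (hi.const_inner e)
  unfold loss
  rw [show cint v z l = ∫ y in cube z l, v y from rfl,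
    ← ofReal_integral_eq_lintegral_ofReal hI (Eventually.of_forall fun y => excess_nonneg he _),
    ← ofReal_integral_norm_eq_lintegral_enorm hi, ← ofReal_norm,
    ← ENNReal.ofReal_sub _ (norm_nonneg _), ← ENNReal.ofReal_add
      (sub_nonneg.2 (norm_integral_le_integral_norm v)) (excess_nonneg he _)]
  congr 1
  unfold excess
  rw [integral_sub hi.norm (hi.const_inner e), integral_inner hi]
  ring

lemma gidx_anc_of_mem (hL : 0 < L) {n m : ℕ} (h : n ≤ m) {k kk : Fin d → ℤ} {y : X d}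
    (hy : y ∈ gcell a L m k) (hy' : y ∈ gcell a L n kk) : anc (m - n) k = kk := by
  rw [gcell, mem_grid (lev_pos hL _)] at hy hy'
  rw [← hy, gidx_anc a y hL h, hy']

lemma exists_band (_hL : 0 < L) {r : ℝ} (h1 : lev L N ≤ r) (h2 : r < L) :
    ∃ m ∈ Finset.range (N + 1), lev L m ≤ r ∧ r < 2 * lev L m := by
  classical
  have hex : ∃ m, lev L m ≤ r := ⟨N, h1⟩
  refine ⟨Nat.find hex, Finset.mem_range.2 (Nat.lt_succ_of_le (Nat.find_min' hex h1)),
    Nat.find_spec hex, ?_⟩
  rcases Nat.eq_zero_or_pos (Nat.find hex) with h | h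
  · have := Nat.find_spec hex
    rw [h] at this
    simp [lev] at this
    linarith
  · have h3 := Nat.find_min hex (Nat.sub_lt h one_pos)
    push Not at h3
    rwa [lev_add L (Nat.find hex - 1) 1, Nat.sub_add_cancel h, pow_one] at h3

variable (P f a L N nQ kQ) in
/-- The integrand of the error of a tree. -/
def coneQ (x : X d) : ℝ≥0∞ :=
  ENNReal.ofReal (‖vgrad (MQ P f a L N nQ kQ) x‖ -
    P.C1 * ⟪gdir (vgrad f) a L nQ kQ, vgrad (MQ P f a L N nQ kQ) x⟫)

section Bands

variable (hd : 1 ≤ d) (hL : 0 < L) (hf : RegFun f) (hnQ : nQ ≤ N)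
  (hQ : topl (vgrad f) a L (P.η / 2) nQ kQ = nQ)
include hd hL hf hnQ hQ

omit hnQ in
/-- Radii of the size of the cubes of level `m`. -/
theorem band_le {m : ℕ} (hmN : m ≤ N) (kA : Fin d → ℤ) :
    ∫⁻ x in gcell a L m kA ∩ (gcell a L nQ kQ ∩
        {x | lev L m ≤ rQ P f a L N nQ kQ x ∧ rQ P f a L N nQ kQ x < 2 * lev L m}),
      coneQ P f a L N nQ kQ x ≤
    ENNReal.ofReal ((1 + P.C1) * P.C' * (2 / P.η)) *
      ∑' j : ℕ, ENNReal.ofReal (P.q ^ j) *
        ∑ δ ∈ dbox d 8 0, GQ P f a L nQ kQ m j (kA + δ) := by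
  have hl := lev_pos hL m
  set e := gdir (vgrad f) a L nQ kQ with he
  set ρ := rQ P f a L N nQ kQ with hρ
  set Ω := gcell a L m kA ∩ (gcell a L nQ kQ ∩ {x | lev L m ≤ ρ x ∧ ρ x < 2 * lev L m}) with hΩ
  rcases Ω.eq_empty_or_nonempty with h0 | ⟨x0, hx0⟩
  · simp [h0]
  have hρm : Measurable ρ := measurable_radStar hf lipschitzWith_loQ lipschitzWith_upQ
  have hΩm : MeasurableSet Ω :=
    (measurableSet_cube _ _).inter ((measurableSet_cube _ _).inter
      ((measurableSet_le measurable_const hρm).inter (measurableSet_lt hρm measurable_const)))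
  have hC1 : 0 ≤ 1 + P.C1 := by linarith [P.C1_spec.2.2]
  have hlip : ∀ {g : X d → ℝ}, LipschitzWith P.θ g → ∀ x y, |g x - g y| ≤ P.lam * ‖x - y‖ :=
    fun hg x y => by
      have h := hg.dist_le_mul x y
      rw [Real.dist_eq, dist_eq_norm] at h
      exact h.trans (mul_le_mul_of_nonneg_right P.θ_le.1 (norm_nonneg _))
  have h1 : ∫⁻ x in Ω, coneQ P f a L N nQ kQ x ≤ ENNReal.ofReal (1 + P.C1) *
      ∫⁻ x in Ω, ENNReal.ofReal (‖gradA f x (ρ x)‖ + |slopeA f x (ρ x)| -
        P.C * (⟪e, gradA f x (ρ x)⟫ - P.lam * |slopeA f x (ρ x)|)) := by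
    rw [← lintegral_const_mul' _ _ ENNReal.ofReal_ne_top]
    refine lintegral_mono_ae (ae_restrict_of_ae ?_)
    filter_upwards [cone_ae (P := P) (f := f) (a := a) (L := L) (N := N) (nQ := nQ) (kQ := kQ) hf]
      with x hx
    exact hx.resolve_right (not_le.2 hL)
  have h2 := core_scaled (z := a + lev L m • iv kA) P.core hf.1
    (norm_gdir_le (vgrad f) a hL nQ kQ) hl (hlip (lipschitzWith_loQ (P := P) (f := f) (a := a)
      (L := L) (N := N) (nQ := nQ) (kQ := kQ))) (hlip (lipschitzWith_upQ (P := P) (a := a) (L := L)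
      (nQ := nQ) (kQ := kQ))) hρm hΩm inter_subset_left fun x hx => by
      obtain ⟨h3, h4⟩ := hx.2.2
      obtain ⟨h5, h6⟩ := rQ_mem (P := P) (a := a) (N := N) (nQ := nQ) (kQ := kQ) hd hL hf x
      refine ⟨h3, h4.le, h5, h6, fun t ht ht' => ?_⟩
      exact (cavg_le_rMax_of_mem hf lipschitzWith_loQ lipschitzWith_upQ x ht ht').trans_eq
        (tstar_spec hf lipschitzWith_loQ lipschitzWith_upQ x).2.symm
  have hbad : ∀ j, ENNReal.ofReal (badNear P.η e f (a + lev L m • iv kA) (lev L m) j) ≤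
      ENNReal.ofReal (2 / P.η) * ∑ δ ∈ dbox d 8 0, GQ P f a L nQ kQ m j (kA + δ) := by
    intro j
    rw [badNear, ENNReal.ofReal_sum_of_nonneg fun k _ => bad_nonneg _ _ _, dbox_split,
      Finset.mul_sum]
    refine Finset.sum_le_sum fun δ hδ => ?_
    obtain ⟨hA, hQ0, hr1, hr2⟩ := hx0
    obtain ⟨h5, h6⟩ := rQ_mem (P := P) (a := a) (N := N) (nQ := nQ) (kQ := kQ) hd hL hf x0
    set y := a + lev L m • iv (kA + δ) with hy
    have hyc : y ∈ gcell a L m (kA + δ) := fun i => ⟨le_rfl, by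
      show y i < y i + lev L m; linarith⟩
    have hxy : ‖y - x0‖ ≤ 16 * ((d:ℝ) + 1) * lev L m := by
      refine (norm_le_sqrt_mul (c := 9 * lev L m) (by positivity) fun i => ?_).trans ?_
      · obtain ⟨h7, h8⟩ := hA i
        simp only [dbox, Fintype.mem_piFinset, Finset.mem_Ico] at hδ
        obtain ⟨h9, h10⟩ := hδ i
        have h9' : (-8 : ℝ) ≤ δ i := by exact_mod_cast (by simpa using h9 : (-8 : ℤ) ≤ δ i)
        have h10' : (δ i : ℝ) < 8 := by exact_mod_cast (by simpa using h10 : δ i < 8)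
        rw [PiLp.sub_apply, hy, grid_apply, Pi.add_apply, Int.cast_add, abs_le]
        rw [grid_apply] at h7 h8
        have := mul_le_mul_of_nonneg_left h9' hl.le
        have := mul_le_mul_of_nonneg_left h10'.le hl.le
        constructor <;> linarith
      · have h7 : Real.sqrt d ≤ (d:ℝ) + 1 := by
          rw [Real.sqrt_le_iff]; constructor <;> nlinarith [Nat.cast_nonneg (α := ℝ) d]
        calc Real.sqrt d * (9 * lev L m) ≤ ((d:ℝ) + 1) * (16 * lev L m) :=
              mul_le_mul h7 (by linarith) (by positivity) (by positivity)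
          _ = _ := by ring
    have hup : lev L m ≤ P.θ * infDist x0 (gcell a L nQ kQ)ᶜ := hr1.trans h6
    have hyQ : y ∈ gcell a L nQ kQ := by
      by_contra hne
      have h7 := infDist_le_dist_of_mem (x := x0) (show y ∈ (gcell a L nQ kQ)ᶜ from hne)
      rw [dist_comm, dist_eq_norm] at h7
      have h8 : (P.θ : ℝ) * (32 * ((d:ℝ) + 1)) ≤ 1 := by
        have := P.θ_le.2.1
        rwa [le_div_iff₀ (by positivity)] at this
      have h9 := mul_le_mul_of_nonneg_left (h7.trans hxy) P.θ.2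
      have h10 := mul_le_mul_of_nonneg_right h8 hl.le
      nlinarith
    have hm : nQ ≤ m := by
      by_contra hlt
      push Not at hlt
      have h7 : infDist x0 (gcell a L nQ kQ)ᶜ ≤ lev L nQ := infDist_compl_le hd hL nQ kQ x0
      have h8 : lev L nQ ≤ lev L m := by unfold lev; gcongr; norm_num
      have h9 := mul_le_mul_of_nonneg_left (h7.trans h8) P.θ.2
      nlinarith [P.θ_le.2.2]
    obtain ⟨n, hn, hown, hnear⟩ := exists_own_near (P := P) (f := f) hd hL hm hmN hQ
      (gidx_anc_of_mem hL hm hyc hyQ) hyc hxy (h5.trans hr2.le)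
    rw [GQ, Finset.mul_sum]
    refine le_trans ?_ (Finset.single_le_sum (fun _ _ => zero_le) hn)
    rw [if_pos ⟨hown, hnear⟩, Finset.mul_sum]
    refine Finset.sum_le_sum fun o _ => ?_
    have hc : cint (vgrad f) (a + lev L m • iv kA + (lev L m / 2 ^ j) • iv (sub2 j δ o))
        (lev L m / 2 ^ j) = gint (vgrad f) a L (m + j) (sub2 j (kA + δ) o) := by
      have e1 : lev L m / 2 ^ j = lev L (m + j) := by
        unfold lev; rw [pow_add, div_div]
      rw [gint, e1]
      congr 1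
      ext i
      simp only [PiLp.add_apply, PiLp.smul_apply, smul_eq_mul, iv, sub2, Pi.add_apply]
      rw [← e1]
      push_cast
      field_simp
      ring
    rw [hc, ← ENNReal.ofReal_mul (div_nonneg zero_le_two P.η_pos.le)]
    exact ENNReal.ofReal_le_ofReal (bad_le_excess P.η_pos (norm_gdir_le _ _ hL _ _)
      (norm_sub_gdir_le hown) _)
  refine h1.trans ((mul_le_mul_right h2 _).trans ?_)
  rw [← mul_assoc, ← ENNReal.ofReal_mul hC1, ← ENNReal.tsum_mul_left, ← ENNReal.tsum_mul_left]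
  refine ENNReal.tsum_le_tsum fun j => ?_
  rw [ENNReal.ofReal_mul (pow_nonneg P.q_pos.le j), ENNReal.ofReal_mul (mul_nonneg hC1 P.C'_nonneg)]
  refine le_trans (mul_le_mul_right (mul_le_mul_right (hbad j) _) _) (le_of_eq ?_)
  ring

/-- Tiny radii. -/
theorem tiny_le {ω : ℝ}
    (hω : ∀ x y : X d, ‖y - x‖ ≤ lev L N → ‖vgrad f y - vgrad f x‖ ≤ ω) (k : Fin d → ℤ) :
    ∫⁻ x in gcell a L N k ∩ (gcell a L nQ kQ ∩ {x | rQ P f a L N nQ kQ x < lev L N}),
      coneQ P f a L N nQ kQ x ≤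
    ENNReal.ofReal ((1 + P.C1) * (2 / P.η)) *
        (GQ P f a L nQ kQ N 0 k + HQ P f a L N nQ kQ k *
          loss (vgrad f) (lev L N) (a + lev L N • iv k)) +
      ENNReal.ofReal ((2 + 2 * P.C1) * (1 + P.C1) * ω) * ENNReal.ofReal (lev L N ^ d) *
        HQ P f a L N nQ kQ k := by
  classical
  have hl := lev_pos hL N
  set e := gdir (vgrad f) a L nQ kQ with he
  set ρ := rQ P f a L N nQ kQ with hρ
  set Ω := gcell a L N k ∩ (gcell a L nQ kQ ∩ {x | ρ x < lev L N}) with hΩ
  rcases Ω.eq_empty_or_nonempty with h0 | ⟨x0, hx0⟩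
  · simp [h0]
  obtain ⟨h5, -⟩ := rQ_mem (P := P) (a := a) (N := N) (nQ := nQ) (kQ := kQ) hd hL hf x0
  obtain ⟨n, hn, hown, hnear⟩ := exists_own_near (P := P) (f := f) hd hL hnQ le_rfl hQ
    (gidx_anc_of_mem hL hnQ hx0.1 hx0.2.1) hx0.1
    (show ‖x0 - x0‖ ≤ 16 * ((d:ℝ) + 1) * lev L N by
      rw [sub_self, norm_zero]; positivity)
    (by have h3 : ρ x0 < lev L N := hx0.2.2
        linarith)
  obtain ⟨hC1a, -, hC1b⟩ := P.C1_spec
  have hω0 : 0 ≤ ω := (norm_nonneg _).trans (hω x0 x0 (by simp [hl.le]))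
  have he1 := norm_gdir_le (vgrad f) a hL nQ kQ
  set ē := gdir (vgrad f) a L n (anc (N - n) k) with hē
  have hē1 : ‖ē‖ ≤ 1 := norm_gdir_le (vgrad f) a hL n _
  have hpt : ∀ᵐ x ∂volume.restrict Ω, coneQ P f a L N nQ kQ x ≤
      ENNReal.ofReal ((1 + P.C1) * (2 / P.η)) * ENNReal.ofReal (excess ē (vgrad f x)) +
        ENNReal.ofReal ((2 + 2 * P.C1) * (1 + P.C1) * ω) := by
    have hρm : Measurable ρ := measurable_radStar hf lipschitzWith_loQ lipschitzWith_upQ
    have hΩm : MeasurableSet Ω := (measurableSet_cube _ _).inter ((measurableSet_cube _ _).inter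
      (measurableSet_lt hρm measurable_const))
    obtain ⟨V, hV⟩ := exists_vgrad_bound hf
    filter_upwards [ae_restrict_mem hΩm, ae_restrict_of_ae (lipschitzWith_rMax hf
        (lipschitzWith_loQ (P := P) (f := f) (a := a) (L := L) (N := N) (nQ := nQ) (kQ := kQ))
        lipschitzWith_upQ hV).ae_differentiableAt,
      ae_restrict_of_ae (lipschitzWith_loQ (P := P) (f := f) (a := a) (L := L) (N := N) (nQ := nQ)
        (kQ := kQ)).ae_differentiableAt,
      ae_restrict_of_ae (lipschitzWith_upQ (P := P) (a := a) (L := L) (nQ := nQ)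
        (kQ := kQ)).ae_differentiableAt] with x hx h1 h2 h3
    obtain ⟨w, hw, e'⟩ := vgrad_rMax hf lipschitzWith_loQ lipschitzWith_upQ h1 h2 h3
    have hr : ρ x < lev L N := hx.2.2
    have hr0 : 0 ≤ ρ x := le_trans (loQ_nonneg (P := P) (f := f) (a := a) (L := L) (N := N)
      (nQ := nQ) (kQ := kQ) x) (rQ_mem hd hL hf x).1
    obtain ⟨g1, g2⟩ := gradA_small hf.1 x hr0 (fun y hy => hω x y (hy.trans hr.le))
    set G := vgrad (MQ P f a L N nQ kQ) x with hG
    have hGe : G = gradA f x (ρ x) + slopeA f x (ρ x) • w := e'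
    have hsw : ‖slopeA f x (ρ x) • w‖ ≤ ω := by
      rw [norm_smul, Real.norm_eq_abs]
      refine le_trans (mul_le_mul g2 (hw.trans P.θ_le.2.2.le) (norm_nonneg _) hω0) (by simp)
    have hdiff : ‖G - vgrad f x‖ ≤ 2 * ω := by
      rw [hGe, show gradA f x (ρ x) + slopeA f x (ρ x) • w - vgrad f x =
        (gradA f x (ρ x) - vgrad f x) + slopeA f x (ρ x) • w by abel]
      exact (norm_add_le _ _).trans (by linarith)
    have k1 : ‖G‖ ≤ ‖vgrad f x‖ + 2 * ω := by
      have := norm_sub_norm_le G (vgrad f x); linarith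
    have k2 : ⟪e, vgrad f x⟫ - 2 * ω ≤ ⟪e, G⟫ := by
      have := (abs_le.1 (abs_inner_le he1 (G - vgrad f x))).1
      rw [inner_sub_right] at this; linarith
    have k3 := sub_inner_le_bad hC1a (by linarith) he1 (vgrad f x)
    have k4 := mul_le_mul_of_nonneg_left
      (bad_le_excess P.η_pos hē1 (norm_sub_gdir_le hown) (vgrad f x))
      (show 0 ≤ 1 + P.C1 by linarith)
    have k5 : (2 + 2 * P.C1) * ω ≤ (2 + 2 * P.C1) * (1 + P.C1) * ω := by
      rw [mul_right_comm]
      exact le_mul_of_one_le_right (by positivity) (by linarith)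
    have k6 := mul_le_mul_of_nonneg_left k2 (show 0 ≤ P.C1 by linarith)
    rw [coneQ, ← hG, ← he, ← ENNReal.ofReal_mul (mul_nonneg (by linarith)
      (div_nonneg zero_le_two P.η_pos.le))]
    refine (ENNReal.ofReal_le_ofReal ?_).trans ENNReal.ofReal_add_le
    linarith
  refine (lintegral_mono_ae hpt).trans ((lintegral_mono_set inter_subset_left).trans ?_)
  rw [lintegral_add_right _ measurable_const, lintegral_const_mul' _ _ ENNReal.ofReal_ne_top,
    setLIntegral_const, gcell, volume_cube _ hl.le,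
    lintegral_excess_cell (integrable_vgrad hf) hē1]
  have hH : (1 : ℝ≥0∞) ≤ HQ P f a L N nQ kQ k := by
    rw [HQ]
    exact le_trans (le_of_eq (by rw [if_pos ⟨hown, hnear⟩])) (Finset.single_le_sum
      (f := fun n => if Own P f a L nQ kQ n (anc (N - n) k) ∧ nearAt P.Cn (N - n) k then (1:ℝ≥0∞)
        else 0) (fun _ _ => zero_le) hn)
  refine add_le_add (mul_le_mul_right ?_ _) (le_mul_of_one_le_right zero_le hH)
  rw [add_comm]
  refine add_le_add ?_ (le_mul_of_one_le_left zero_le hH)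
  rw [GQ]
  refine le_trans ?_ (Finset.single_le_sum (fun _ _ => zero_le) hn)
  rw [if_pos ⟨hown, hnear⟩]
  have h0 : (fun _ : Fin d => (0 : ℤ)) ∈ off d 0 := mem_off.2 fun _ => by simp
  refine le_trans (le_of_eq ?_) (Finset.single_le_sum (fun _ _ => zero_le) h0)
  rw [show sub2 0 k (fun _ => 0) = k from funext fun c => by simp [sub2]]
  simp [gint, ← hē]

/-- The error of the maximal function of a tree. -/
theorem coneQ_le {ω : ℝ}
    (hω : ∀ x y : X d, ‖y - x‖ ≤ lev L N → ‖vgrad f y - vgrad f x‖ ≤ ω) :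
    ∫⁻ x in gcell a L nQ kQ, coneQ P f a L N nQ kQ x ≤
      (∑ m ∈ Finset.range (N + 1),
        ENNReal.ofReal ((1 + P.C1) * P.C' * (2 / P.η)) * ((dbox d 8 0).card : ℝ≥0∞) *
          ∑' j : ℕ, ENNReal.ofReal (P.q ^ j) * ∑' k : Fin d → ℤ, GQ P f a L nQ kQ m j k) +
      ∑' k : Fin d → ℤ,
        (ENNReal.ofReal ((1 + P.C1) * (2 / P.η)) *
          (GQ P f a L nQ kQ N 0 k + HQ P f a L N nQ kQ k *
            loss (vgrad f) (lev L N) (a + lev L N • iv k)) +
        ENNReal.ofReal ((2 + 2 * P.C1) * (1 + P.C1) * ω) * ENNReal.ofReal (lev L N ^ d) *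
          HQ P f a L N nQ kQ k) := by
  set ρ := rQ P f a L N nQ kQ with hρ
  have hcover : gcell a L nQ kQ ⊆
      (⋃ m : {m // m ∈ Finset.range (N + 1)}, ⋃ kA : Fin d → ℤ, gcell a L m.1 kA ∩
        (gcell a L nQ kQ ∩ {x | lev L m.1 ≤ ρ x ∧ ρ x < 2 * lev L m.1})) ∪
      ⋃ k : Fin d → ℤ, gcell a L N k ∩ (gcell a L nQ kQ ∩ {x | ρ x < lev L N}) := by
    intro x hx
    rcases lt_or_ge (ρ x) (lev L N) with h | h
    · exact Or.inr (mem_iUnion.2 ⟨_, mem_grid_self a x (lev_pos hL N), hx, h⟩)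
    · obtain ⟨-, h6⟩ := rQ_mem (P := P) (a := a) (N := N) (nQ := nQ) (kQ := kQ) hd hL hf x
      have h7 : ρ x < L := by
        refine h6.trans_lt ?_
        have h8 : infDist x (gcell a L nQ kQ)ᶜ ≤ L :=
          (infDist_compl_le hd hL nQ kQ x).trans (by
            unfold lev; exact div_le_self hL.le (one_le_pow₀ one_le_two))
        unfold upQ
        nlinarith [P.θ_le.2.2, P.θ_pos, mul_le_mul_of_nonneg_left h8 P.θ.2]
      obtain ⟨m, hm, h1, h2⟩ := exists_band hL h h7
      exact Or.inl (mem_iUnion.2 ⟨⟨m, hm⟩, mem_iUnion.2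
        ⟨_, mem_grid_self a x (lev_pos hL m), hx, h1, h2⟩⟩)
  refine (lintegral_mono_set hcover).trans ((lintegral_union_le _ _ _).trans (add_le_add ?_ ?_))
  · refine (lintegral_iUnion_le _ _).trans ?_
    rw [tsum_fintype, Finset.univ_eq_attach, Finset.sum_attach (Finset.range (N + 1))
      (fun m => ∫⁻ x in ⋃ kA : Fin d → ℤ, gcell a L m kA ∩
        (gcell a L nQ kQ ∩ {x | lev L m ≤ ρ x ∧ ρ x < 2 * lev L m}), coneQ P f a L N nQ kQ x)]
    refine Finset.sum_le_sum fun m hm => ?_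
    refine (lintegral_iUnion_le _ _).trans ((ENNReal.tsum_le_tsum fun kA =>
      band_le hd hL hf hQ (Nat.lt_succ_iff.1 (Finset.mem_range.1 hm)) kA).trans (le_of_eq ?_))
    rw [ENNReal.tsum_mul_left, mul_assoc (ENNReal.ofReal _)]
    congr 1
    rw [ENNReal.tsum_comm, ← ENNReal.tsum_mul_left]
    refine tsum_congr fun j => ?_
    rw [ENNReal.tsum_mul_left, mul_left_comm]
    congr 1
    rw [Summable.tsum_finsetSum fun _ _ => ENNReal.summable,
      Finset.sum_congr rfl fun δ _ => show ∑' k : Fin d → ℤ, GQ P f a L nQ kQ m j (k + δ) =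
        ∑' k : Fin d → ℤ, GQ P f a L nQ kQ m j k from
          (Equiv.addRight δ).tsum_eq (GQ P f a L nQ kQ m j),
      Finset.sum_const, nsmul_eq_mul]
  · exact (lintegral_iUnion_le _ _).trans
      (ENNReal.tsum_le_tsum fun k => tiny_le hd hL hf hnQ hQ hω k)

end Bands

end Vale.Agent.P137.Centred
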