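import Vale.Agent.P137.Centred.Defs

/-!
P137, centred operator: interfaces of the multiscale (outer) part.
-/

open MeasureTheory Metric Set Filter
open scoped ENNReal Topology RealInnerProductSpace

noncomputable section

namespace Vale.Agent.P137.Centred

variable {d : ℕ}

/-- The direction of a field on a cube (zero if its integral vanishes). -/
def edir (v : X d → X d) (z : X d) (s : ℝ) : X d := ‖cint v z s‖⁻¹ • cint v z s

/-- The excess of the cubes of side `u` in a window of side `u * 2 ^ n` over the direction of the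
window, averaged over the positions of both. -/
def excMass (v : X d → X d) (u : ℝ) (n : ℕ) : ℝ≥0∞ :=
  (ENNReal.ofReal ((u * 2 ^ n) ^ d * u ^ d))⁻¹ *
    ∫⁻ z, ∫⁻ y, {y | cube y u ⊆ cube z (u * 2 ^ n)}.indicator
      (fun y => ENNReal.ofReal (excess (edir v z (u * 2 ^ n)) (cint v y u))) y

/-- A cube anywhere in a window splits into cubes of the window's grids, of geometrically rare
levels: the excess is a sum of losses of mass between scales. -/
def WhitneyEst (d : ℕ) : Prop :=
  ∃ C : ℝ, 0 ≤ C ∧ ∀ (v : X d → X d), Continuous v → Integrable v →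
    ∀ (u : ℝ), 0 < u → ∀ n : ℕ,
      excMass v u n ≤ ENNReal.ofReal C *
        ∑' k : ℕ, ((2:ℝ≥0∞) ^ k)⁻¹ * (cmass v (u / 2 ^ k) - cmass v (u * 2 ^ n))

/-- The mass decreases with the scale, does not exceed the integral, and its loss below a scale
is controlled by the modulus of continuity. -/
def CmassFacts (d : ℕ) : Prop :=
  (∀ (v : X d → X d), Integrable v → ∀ s : ℝ, 0 < s →
    cmass v (2 * s) ≤ cmass v s ∧ cmass v s ≤ ∫⁻ y, ‖v y‖ₑ) ∧
  ∀ (v : X d → X d), Integrable v → ∀ s : ℝ, 0 < s → ∀ b : ℝ≥0∞,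
    (∀ h : X d, ‖h‖ ≤ ((d:ℝ) + 1) * s → ∫⁻ y, ‖v (y + h) - v y‖ₑ ≤ b) →
      (∫⁻ y, ‖v y‖ₑ) ≤ cmass v s + b

end Vale.Agent.P137.Centred
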