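import Vale.Agent.P137.Centred.Outer.Grid
import Vale.Agent.P137.Centred.Outer.Defs

/-!
P137, centred operator, outer part: the mass of a field at a scale.
-/

open MeasureTheory Metric Set Filter
open scoped ENNReal Topology RealInnerProductSpace

noncomputable section

namespace Vale.Agent.P137.Centred

variable {d : ℕ}

lemma cint_congr {v w : X d → X d} (h : v =ᵐ[volume] w) (z : X d) (s : ℝ) :
    cint v z s = cint w z s :=
  integral_congr_ae (ae_restrict_of_ae h)

lemma cint_eq (v : X d → X d) (z : X d) (s : ℝ) :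
    cint v z s = ∫ y in cube (0 : X d) s, v (z + y) := by
  rw [cint, show cube (0 : X d) s = (fun y => z + y) ⁻¹' cube z s from ?_,
    (measurePreserving_add_left volume z).setIntegral_preimage_emb (measurableEmbedding_addLeft z)]
  ext y
  simp only [mem_preimage, mem_cube, PiLp.add_apply]
  exact forall_congr' fun c => by simp

lemma stronglyMeasurable_cint {v : X d → X d} (hv : AEStronglyMeasurable v volume) (s : ℝ) :
    StronglyMeasurable fun z => cint v z s := by
  have hm := hv.stronglyMeasurable_mk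
  have e : (fun z => cint v z s) = fun z => ∫ y in cube (0 : X d) s, hv.mk v (z + y) :=
    funext fun z => (cint_congr hv.ae_eq_mk z s).trans (cint_eq _ z s)
  rw [e]
  exact StronglyMeasurable.integral_prod_right'
    (f := fun p : X d × X d => hv.mk v (p.1 + p.2)) (hm.comp_measurable (by fun_prop))

lemma measurable_cint {v : X d → X d} (hv : AEStronglyMeasurable v volume) (s : ℝ) :
    Measurable fun z => cint v z s := (stronglyMeasurable_cint hv s).measurable

lemma enorm_cint_le (v : X d → X d) (z : X d) (s : ℝ) :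
    ‖cint v z s‖ₑ ≤ ∫⁻ y in cube z s, ‖v y‖ₑ := enorm_integral_le_lintegral_enorm _

lemma norm_cint_le {v : X d → X d} (hv : Integrable v) (z : X d) (s : ℝ) :
    ‖cint v z s‖ ≤ ∫ y, ‖v y‖ :=
  (norm_integral_le_integral_norm _).trans
    (setIntegral_le_integral hv.norm (Eventually.of_forall fun _ => norm_nonneg _))

lemma ofReal_two_pow_mul {s : ℝ} (_hs : 0 ≤ s) (d : ℕ) :
    ENNReal.ofReal ((2 * s) ^ d) = (2:ℝ≥0∞) ^ d * ENNReal.ofReal (s ^ d) := by
  rw [mul_pow, ENNReal.ofReal_mul (by positivity), ENNReal.ofReal_pow zero_le_two]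
  norm_num

theorem cmass_two_mul {v : X d → X d} (hv : Integrable v) {s : ℝ} (hs : 0 < s) :
    cmass v (2 * s) ≤ cmass v s := by
  have h : ∫⁻ z, ‖cint v z (2 * s)‖ₑ ≤ (2:ℝ≥0∞) ^ d * ∫⁻ z, ‖cint v z s‖ₑ := by
    have hsum : ∀ z, ‖cint v z (2 * s)‖ₑ ≤ ∑ o ∈ off d 1, ‖cint v (z + s • iv o) s‖ₑ := fun z => by
      rw [show (2:ℝ) * s = 2 ^ 1 * s by ring, cint_split z hs 1 hv.integrableOn]
      exact enorm_sum_le _ _
    refine (lintegral_mono hsum).trans (le_of_eq ?_)
    have hme : ∀ o : Fin d → ℤ, Measurable fun z => ‖cint v (z + s • iv o) s‖ₑ := fun o =>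
      ((measurable_cint hv.1 s).fun_comp (measurable_add_const (s • iv o))).enorm
    rw [lintegral_finsetSum _ fun o _ => hme o]
    rw [Finset.sum_congr rfl fun o _ => lintegral_add_right_eq_self (fun z => ‖cint v z s‖ₑ)
      (s • iv o), Finset.sum_const, card_off, nsmul_eq_mul, one_mul, Nat.cast_pow, Nat.cast_ofNat]
  unfold cmass
  rw [ofReal_two_pow_mul hs.le]
  refine (mul_le_mul_right h _).trans (le_of_eq ?_)
  rw [ENNReal.mul_inv (Or.inl (by positivity)) (Or.inl (ENNReal.pow_ne_top (by norm_num))),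
    mul_mul_mul_comm, ENNReal.inv_mul_cancel (by positivity) (ENNReal.pow_ne_top (by norm_num)),
    one_mul]

theorem lintegral_cint_le {v : X d → X d} (hv : Integrable v) {s : ℝ} (hs : 0 ≤ s) :
    ∫⁻ z, ‖cint v z s‖ₑ ≤ ENNReal.ofReal (s ^ d) * ∫⁻ y, ‖v y‖ₑ := by
  have hm := hv.1.stronglyMeasurable_mk
  have h : ∀ z, ‖cint v z s‖ₑ ≤ ∫⁻ y in cube (0 : X d) s, ‖hv.1.mk v (z + y)‖ₑ := fun z => by
    rw [cint_congr hv.1.ae_eq_mk, cint_eq]
    exact enorm_integral_le_lintegral_enorm _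
  refine (lintegral_mono h).trans (le_of_eq ?_)
  rw [lintegral_lintegral_swap ((hm.comp_measurable (g := fun p : X d × X d => p.1 + p.2)
    (by fun_prop)).enorm.aemeasurable)]
  simp only [lintegral_add_right_eq_self (fun z => ‖hv.1.mk v z‖ₑ)]
  rw [setLIntegral_const, volume_cube _ hs, mul_comm]
  congr 1
  exact lintegral_congr_ae (hv.1.ae_eq_mk.symm.fun_comp _)

theorem cmass_le {v : X d → X d} (hv : Integrable v) {s : ℝ} (hs : 0 < s) :
    cmass v s ≤ ∫⁻ y, ‖v y‖ₑ := by
  refine (mul_le_mul_right (lintegral_cint_le hv hs.le) _).trans (le_of_eq ?_)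
  rw [← mul_assoc, ENNReal.inv_mul_cancel (ne_of_gt (ENNReal.ofReal_pos.2 (by positivity)))
    ENNReal.ofReal_ne_top, one_mul]

theorem cmass_lt_top {v : X d → X d} (hv : Integrable v) {s : ℝ} (hs : 0 < s) :
    cmass v s < ⊤ := (cmass_le hv hs).trans_lt hv.2

theorem cmass_pow_le {v : X d → X d} (hv : Integrable v) {s : ℝ} (hs : 0 < s) (i : ℕ) :
    cmass v (2 ^ i * s) ≤ cmass v s := by
  induction i with
  | zero => simp
  | succ i ih =>
    refine le_trans ?_ ih
    rw [pow_succ', mul_assoc]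
    exact cmass_two_mul hv (by positivity)

theorem cmass_loss {v : X d → X d} (hv : Integrable v) {s : ℝ} (hs : 0 < s) {b : ℝ≥0∞}
    (hb : ∀ h : X d, ‖h‖ ≤ ((d:ℝ) + 1) * s → ∫⁻ y, ‖v (y + h) - v y‖ₑ ≤ b) :
    (∫⁻ y, ‖v y‖ₑ) ≤ cmass v s + b := by
  set w := hv.1.mk v with hw
  have hm : StronglyMeasurable w := hv.1.stronglyMeasurable_mk
  have hwi : Integrable w := hv.congr hv.1.ae_eq_mk
  have htr : ∀ h : X d, (fun y => v (y + h)) =ᵐ[volume] fun y => w (y + h) := fun h =>
    (measurePreserving_add_right volume h).quasiMeasurePreserving.ae_eq_comp hv.1.ae_eq_mk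
  have hb' : ∀ h : X d, ‖h‖ ≤ ((d:ℝ) + 1) * s → ∫⁻ y, ‖w (y + h) - w y‖ₑ ≤ b := fun h hh =>
    (le_of_eq (lintegral_congr_ae (((htr h).sub hv.1.ae_eq_mk).symm.fun_comp _))).trans (hb h hh)
  have eI : ∫⁻ y, ‖v y‖ₑ = ∫⁻ y, ‖w y‖ₑ := lintegral_congr_ae (hv.1.ae_eq_mk.fun_comp _)
  have eC : ∀ z, cint v z s = cint w z s := fun z => cint_congr hv.1.ae_eq_mk z s
  set V : ℝ≥0∞ := ENNReal.ofReal (s ^ d) with hV
  have hV0 : V ≠ 0 := ne_of_gt (ENNReal.ofReal_pos.2 (by positivity))
  have hVt : V ≠ ⊤ := ENNReal.ofReal_ne_top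
  set C0 : Set (X d) := cube 0 s with hC0
  have hvol : volume C0 = V := volume_cube _ hs.le
  have hpt : ∀ z a, V * ‖w (z + a)‖ₑ ≤
      ‖cint w z s‖ₑ + ∫⁻ c in C0, ‖w (z + a) - w (z + c)‖ₑ := fun z a => by
    have hi : IntegrableOn (fun c => w (z + c)) C0 :=
      ((measurePreserving_add_left volume z).integrable_comp_of_integrable hwi).integrableOn
    have hfin : volume C0 ≠ ⊤ := hvol ▸ hVt
    have e : ∫ c in C0, (w (z + a) - w (z + c)) = (s ^ d) • w (z + a) - cint w z s := by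
      rw [integral_sub (integrableOn_const hfin : IntegrableOn (fun _ => w (z + a)) C0 volume) hi, setIntegral_const, measureReal_cube _ hs.le,
        cint_eq]
    calc V * ‖w (z + a)‖ₑ = ‖(s ^ d) • w (z + a)‖ₑ := by
          rw [enorm_smul, hV, Real.enorm_eq_ofReal (by positivity)]
      _ = ‖cint w z s + ∫ c in C0, (w (z + a) - w (z + c))‖ₑ := by rw [e]; congr 1; abel
      _ ≤ _ := (enorm_add_le _ _).trans (add_le_add le_rfl (enorm_integral_le_lintegral_enorm _))
  have hm2 : Measurable fun p : X d × X d => ‖w (p.1 + p.2)‖ₑ :=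
    (hm.comp_measurable (by fun_prop)).enorm
  have hmain : V * (V * ∫⁻ y, ‖w y‖ₑ) ≤
      V * (V * cmass w s) + V * (V * b) := by
    have h1 : V * (V * ∫⁻ y, ‖w y‖ₑ) = ∫⁻ z, ∫⁻ a in C0, V * ‖w (z + a)‖ₑ := by
      rw [lintegral_lintegral_swap (hm2.const_mul V).aemeasurable]
      simp only [lintegral_const_mul' _ _ hVt,
        lintegral_add_right_eq_self (fun z => ‖w z‖ₑ), setLIntegral_const, hvol]
      ring
    have h2 : ∀ z, ∫⁻ a in C0, V * ‖w (z + a)‖ₑ ≤ V * ‖cint w z s‖ₑ +
        ∫⁻ a in C0, ∫⁻ c in C0, ‖w (z + a) - w (z + c)‖ₑ := fun z => by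
      refine (lintegral_mono fun a => hpt z a).trans (le_of_eq ?_)
      rw [lintegral_add_left measurable_const, setLIntegral_const, hvol, mul_comm]
    have hm3 : Measurable fun p : (X d × X d) × X d => ‖w (p.1.1 + p.1.2) - w (p.1.1 + p.2)‖ₑ :=
      ((hm.comp_measurable (by fun_prop)).sub (hm.comp_measurable (by fun_prop))).enorm
    rw [h1]
    refine (lintegral_mono h2).trans ?_
    rw [lintegral_add_left ((measurable_cint hwi.1 s).enorm.const_mul V)]
    refine add_le_add (le_of_eq ?_) ?_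
    · rw [lintegral_const_mul' _ _ hVt, cmass, ← hV]
      congr 1
      rw [← mul_assoc, ENNReal.mul_inv_cancel hV0 hVt, one_mul]
    rw [lintegral_lintegral_swap (hm3.lintegral_prod_right'.aemeasurable)]
    calc ∫⁻ a in C0, ∫⁻ z, ∫⁻ c in C0, ‖w (z + a) - w (z + c)‖ₑ
        ≤ ∫⁻ _a in C0, V * b := setLIntegral_mono measurable_const fun a ha => by
          have hm4 : Measurable fun p : X d × X d => ‖w (p.1 + a) - w (p.1 + p.2)‖ₑ :=
            hm3.fun_comp (f := fun p : X d × X d => ((p.1, a), p.2)) (by fun_prop)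
          rw [lintegral_lintegral_swap hm4.aemeasurable]
          refine (setLIntegral_mono measurable_const fun c hc => ?_).trans
            (le_of_eq (by rw [setLIntegral_const, hvol, mul_comm]))
          rw [show (fun z => ‖w (z + a) - w (z + c)‖ₑ) =
            fun z => (fun y => ‖w (y + (a - c)) - w y‖ₑ) (z + c) from funext fun z => by
              simp only [add_assoc, add_sub_cancel],
            lintegral_add_right_eq_self (fun y => ‖w (y + (a - c)) - w y‖ₑ) c]
          exact hb' _ (dist_cube_le hs.le ha hc)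
      _ = V * (V * b) := by rw [setLIntegral_const, hvol]; ring
  rw [← mul_add, ← mul_add, ENNReal.mul_le_mul_iff_right hV0 hVt,
    ENNReal.mul_le_mul_iff_right hV0 hVt] at hmain
  unfold cmass
  simpa only [eI, eC, cmass] using hmain

theorem cmassFacts (d : ℕ) : CmassFacts d :=
  ⟨fun _ hv _ hs => ⟨cmass_two_mul hv hs, cmass_le hv hs⟩,
    fun _ hv _ hs _ hb => cmass_loss hv hs hb⟩

end Vale.Agent.P137.Centred
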