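import Vale.Agent.P137.Centred.Outer.Forest

/-!
P137, centred operator, outer part: with probability at least three quarters a maximising radius
is admissible in the tree of a cube of comparable size.
-/

open MeasureTheory Metric Set Filter
open scoped ENNReal Topology RealInnerProductSpace NNReal

noncomputable section

namespace Vale.Agent.P137.Centred

variable {d : ℕ}

/-- The ratio of the sides of the cubes and the radii. -/
def Par.Kr (P : Par d) : ℝ := 8 * ((d:ℝ) + 1) / (P.θ : ℝ)

lemma Par.Kr_spec (P : Par d) : 0 < P.Kr ∧ 8 * (d:ℝ) ≤ P.θ * P.Kr ∧ (P.θ' : ℝ) * P.Kr ≤ 1 := by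
  have h := P.θ_pos
  refine ⟨div_pos (by positivity) h, ?_, ?_⟩
  · rw [Par.Kr, mul_div_cancel₀ _ h.ne']; linarith
  · rw [Par.Kr, P.θ'_eq]
    field_simp
    linarith [Nat.cast_nonneg (α := ℝ) d]

/-- The inner cube with margins. -/
def inner8 (l : ℝ) (z : X d) : Set (X d) :=
  cube (z + (l / (8 * (d:ℝ))) • onev d) (l - l / (4 * (d:ℝ)))

/-- Number of inner cubes of level `m` containing the point. -/
def deepAt (L : ℝ) (m : ℕ) (a x : X d) : ℝ≥0∞ :=
  ∑' k : Fin d → ℤ, (inner8 (lev L m) (a + lev L m • iv k)).indicator (fun _ => 1) x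

lemma inner8_subset (hd : 1 ≤ d) {l : ℝ} (hl : 0 < l) (z : X d) : inner8 l z ⊆ cube z l := by
  have hd' : (1:ℝ) ≤ d := by exact_mod_cast hd
  intro x hx i
  have h := hx i
  simp only [PiLp.add_apply, PiLp.smul_apply, onev, iv, Int.cast_one, smul_eq_mul, mul_one] at h
  have e : l / (4 * (d:ℝ)) = 2 * (l / (8 * (d:ℝ))) := by field_simp; ring
  have : 0 < l / (8 * (d:ℝ)) := by positivity
  constructor <;> linarith

lemma le_infDist_inner8 (hd : 1 ≤ d) {l : ℝ} (hl : 0 < l) (z : X d) {x : X d}
    (hx : x ∈ inner8 l z) : l / (8 * (d:ℝ)) ≤ infDist x (cube z l)ᶜ := by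
  have hd' : (1:ℝ) ≤ d := by exact_mod_cast hd
  have e : l / (4 * (d:ℝ)) = 2 * (l / (8 * (d:ℝ))) := by field_simp; ring
  refine (le_infDist ⟨z + l • onev d, fun h => ?_⟩).2 fun y hy => ?_
  · have := (h ⟨0, hd⟩).2
    simp [onev, iv] at this
  · by_contra hlt
    push Not at hlt
    refine hy fun i => ?_
    have h := hx i
    simp only [PiLp.add_apply, PiLp.smul_apply, onev, iv, Int.cast_one, smul_eq_mul, mul_one] at h
    have h2 : |x i - y i| < l / (8 * (d:ℝ)) := by
      refine lt_of_le_of_lt ?_ hlt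
      rw [dist_eq_norm]
      simpa using PiLp.norm_apply_le (x - y) i
    obtain ⟨h3, h4⟩ := abs_lt.1 h2
    constructor <;> linarith

lemma deepAt_cases (hd : 1 ≤ d) {L : ℝ} (hL : 0 < L) (m : ℕ) (a x : X d) :
    deepAt L m a x = 0 ∨ (deepAt L m a x = 1 ∧
      x ∈ inner8 (lev L m) (a + lev L m • iv (gidx a (lev L m) x))) := by
  classical
  have hl := lev_pos hL m
  have h : deepAt L m a x =
      (inner8 (lev L m) (a + lev L m • iv (gidx a (lev L m) x))).indicator (fun _ => 1) x := by
    refine tsum_eq_single _ fun k hk => indicator_of_notMem (fun hx => hk ?_) _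
    exact ((mem_grid hl).1 (inner8_subset hd hl _ hx)).symm
  by_cases hx : x ∈ inner8 (lev L m) (a + lev L m • iv (gidx a (lev L m) x))
  · exact Or.inr ⟨h.trans (indicator_of_mem hx _), hx⟩
  · exact Or.inl (h.trans (indicator_of_notMem hx _))

lemma measurable_deepAt (L : ℝ) (m : ℕ) :
    Measurable fun p : X d × X d => deepAt L m p.1 p.2 := by
  refine Measurable.tsum fun k => ?_
  simp only [inner8]
  set w : X d := lev L m • iv k + (lev L m / (8 * (d:ℝ))) • onev d with hw
  have e : ∀ p : X d × X d, (cube (p.1 + lev L m • iv k + (lev L m / (8 * (d:ℝ))) • onev d)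
      (lev L m - lev L m / (4 * (d:ℝ)))).indicator (fun _ => (1:ℝ≥0∞)) p.2 =
      (cube w (lev L m - lev L m / (4 * (d:ℝ)))).indicator (fun _ => (1:ℝ≥0∞)) (p.2 - p.1) := by
    intro p
    classical
    simp only [Set.indicator_apply, mem_cube, hw, PiLp.add_apply, PiLp.sub_apply]
    refine if_congr (forall_congr' fun i => ⟨fun h => ⟨by linarith [h.1], by linarith [h.2]⟩,
      fun h => ⟨by linarith [h.1], by linarith [h.2]⟩⟩) rfl rfl
  simp only [e]
  exact (measurable_const.indicator (measurableSet_cube _ _)).comp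
    (measurable_snd.sub measurable_fst)

/-- The points are deep with probability at least three quarters. -/
theorem lintegral_deepAt (hd : 1 ≤ d) {L : ℝ} (hL : 0 < L) (m : ℕ) (x : X d) :
    ENNReal.ofReal (3 / 4) * ENNReal.ofReal (L ^ d) ≤
      ∫⁻ a in cube (0 : X d) L, deepAt L m a x := by
  classical
  have hl := lev_pos hL m
  have hd' : (1:ℝ) ≤ d := by exact_mod_cast hd
  set l := lev L m with hl'
  set s : ℝ := l - l / (4 * (d:ℝ)) with hs'
  have hs : 0 ≤ s := sub_nonneg.2 (div_le_self hl.le (by linarith))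
  have e : ∀ z, (inner8 l z).indicator (fun _ => (1:ℝ≥0∞)) x =
      (cube ((l / (8 * (d:ℝ))) • onev d) s).indicator (fun _ => (1:ℝ≥0∞)) (x - z) := fun z => by
    simp only [Set.indicator_apply, inner8, mem_cube, PiLp.add_apply, PiLp.sub_apply]
    exact if_congr (forall_congr' fun i => ⟨fun h => ⟨by linarith [h.1], by linarith [h.2]⟩,
      fun h => ⟨by linarith [h.1], by linarith [h.2]⟩⟩) rfl rfl
  have hI : Measurable fun z => (inner8 l z).indicator (fun _ => (1:ℝ≥0∞)) x := by
    simp only [e]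
    exact (measurable_const.indicator (measurableSet_cube _ _)).comp (measurable_const_sub x)
  unfold deepAt
  rw [← hl', lintegral_level hL m (F := fun z => (inner8 l z).indicator (fun _ => 1) x) hI]
  simp only [e]
  rw [lintegral_sub_left_eq_self (fun y => (cube ((l / (8 * (d:ℝ))) • onev d) s).indicator
      (fun _ => (1:ℝ≥0∞)) y) x,
    lintegral_indicator_const (measurableSet_cube _ _), one_mul, volume_cube _ hs,
    mul_comm (ENNReal.ofReal (3 / 4))]
  refine mul_le_mul_right ?_ _
  rw [← ENNReal.ofReal_inv_of_pos (by positivity), ← ENNReal.ofReal_mul (by positivity)]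
  refine ENNReal.ofReal_le_ofReal ?_
  have h := one_add_mul_le_pow (a := -(1 / (4 * (d:ℝ)))) (by
    have : 1 / (4 * (d:ℝ)) ≤ 1 := by rw [div_le_one (by positivity)]; linarith
    linarith) d
  calc (3 / 4 : ℝ) = 1 + d * -(1 / (4 * (d:ℝ))) := by field_simp; ring
    _ ≤ (1 + -(1 / (4 * (d:ℝ)))) ^ d := h
    _ = (l ^ d)⁻¹ * s ^ d := by
        rw [hs', show l - l / (4 * (d:ℝ)) = l * (1 + -(1 / (4 * (d:ℝ)))) by ring, mul_pow,
          ← mul_assoc, inv_mul_cancel₀ (by positivity), one_mul]

/-- A top bounds the top level of the cubes below it. -/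
lemma top_le_topl {v : X d → X d} {a : X d} {L thr : ℝ} {n : ℕ} :
    ∀ (m : ℕ) (k : Fin d → ℤ), n ≤ m → topl v a L thr n (anc (m - n) k) = n →
      n ≤ topl v a L thr m k
  | 0, k, h, _ => by omega
  | m + 1, k, h, ht => by
    rcases Nat.eq_or_lt_of_le h with rfl | h'
    · rw [Nat.sub_self, anc_zero] at ht; omega
    · rcases topl_succ (v := v) (a := a) (L := L) (thr := thr) m k with ⟨h1, -⟩ | ⟨h1, -⟩
      · omega
      · rw [h1]
        refine top_le_topl m (anc 1 k) (by omega) ?_
        rw [anc_anc, show m - n + 1 = m + 1 - n by omega]; exact ht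

variable {P : Par d} {f : X d → ℝ} {a : X d} {L : ℝ} {N : ℕ}

/-- At a deep point the radius is admissible in the tree of the cube. -/
lemma deep_admissible (hd : 1 ≤ d) (hL : 0 < L) {m : ℕ} {x : X d}
    (hx : x ∈ inner8 (lev L m) (a + lev L m • iv (gidx a (lev L m) x))) {r : ℝ}
    (h1 : lev L m / (2 * P.Kr) ≤ r) (h2 : r ≤ lev L m / P.Kr) :
    ∀ nQ kQ, topl (vgrad f) a L (P.η / 2) m (gidx a (lev L m) x) = nQ →
      anc (m - nQ) (gidx a (lev L m) x) = kQ →
      x ∈ gcell a L nQ kQ ∧ loQ P f a L N nQ kQ x ≤ r ∧ r ≤ upQ P a L nQ kQ x := by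
  intro nQ kQ hnQ hkQ
  obtain ⟨hK, hK1, hK2⟩ := P.Kr_spec
  have hl := lev_pos hL m
  have hle : nQ ≤ m := hnQ ▸ topl_le m _
  set k := gidx a (lev L m) x with hk
  have hxk : x ∈ gcell a L m k := mem_grid_self a x hl
  have hsub : gcell a L m k ⊆ gcell a L nQ kQ := hkQ ▸ gcell_subset a hL hle k
  refine ⟨hsub hxk, ?_, ?_⟩
  · have hsd : (stopDist P f a L N nQ kQ x : ℝ) ≤ lev L m / 2 := by
      rw [← Real.coe_toNNReal (lev L m / 2) (by linarith), NNReal.coe_le_coe]
      refine Finset.sup_le fun n _ => Finset.sup_le fun c hc => Real.toNNReal_le_toNNReal ?_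
      by_cases hxc : x ∈ gcell a L (n + 1) c
      · have hnm : m ≤ n := by
          by_contra hlt
          push Not at hlt
          classical
          simp only [stopsAt, Finset.mem_filter] at hc
          have e : anc (m - (n + 1)) k = c := gidx_anc_of_mem hL hlt hxk hxc
          have := top_le_topl (v := vgrad f) (a := a) (L := L) (thr := P.η / 2) m k hlt
            (by rw [e]; exact hc.2.2)
          have h3 : nQ ≤ n := hc.2.1 ▸ topl_le n (anc 1 c)
          omega
        refine (infDist_compl_le hd hL (n + 1) c x).trans ?_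
        unfold lev
        rw [div_div, ← pow_succ]
        gcongr
        norm_num
      · rw [infDist_zero_of_mem hxc]; linarith
    have h3 := mul_le_mul_of_nonneg_left hsd P.θ'.2
    unfold loQ
    refine (h3.trans ?_).trans h1
    rw [le_div_iff₀ (by positivity)]
    calc (P.θ' : ℝ) * (lev L m / 2) * (2 * P.Kr) = (P.θ' : ℝ) * P.Kr * lev L m := by ring
      _ ≤ lev L m := mul_le_of_le_one_left hl.le hK2
  · have h3 : lev L m / (8 * (d:ℝ)) ≤ infDist x (gcell a L nQ kQ)ᶜ :=
      (le_infDist_inner8 hd hl _ hx).trans (infDist_le_infDist_of_subset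
        (compl_subset_compl.2 hsub) (compl_gcell_nonempty hd hL _ _))
    refine (h2.trans ?_).trans (mul_le_mul_of_nonneg_left h3 P.θ.2)
    have hd' : (1:ℝ) ≤ d := by exact_mod_cast hd
    rw [div_le_iff₀ hK]
    calc lev L m = 8 * (d:ℝ) * (lev L m / (8 * (d:ℝ))) := by field_simp
      _ ≤ (P.θ : ℝ) * P.Kr * (lev L m / (8 * (d:ℝ))) :=
          mul_le_mul_of_nonneg_right hK1 (by positivity)
      _ = (P.θ : ℝ) * (lev L m / (8 * (d:ℝ))) * P.Kr := by ring

end Vale.Agent.P137.Centred
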