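import Vale.Agent.P137.Centred.Outer.Cmass

/-!
P137, centred operator, outer part: excesses over directions, and the direction of a cube.
-/

open MeasureTheory Metric Set Filter
open scoped ENNReal Topology RealInnerProductSpace

noncomputable section

namespace Vale.Agent.P137.Centred

variable {d : ℕ}

lemma abs_inner_le {e : X d} (he : ‖e‖ ≤ 1) (Y : X d) : |⟪e, Y⟫| ≤ ‖Y‖ :=
  (abs_real_inner_le_norm e Y).trans (by nlinarith [norm_nonneg Y])

lemma excess_nonneg {e : X d} (he : ‖e‖ ≤ 1) (Y : X d) : 0 ≤ excess e Y := by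
  have := (abs_le.1 (abs_inner_le he Y)).2
  unfold excess; linarith

lemma excess_add_le (e Y Z : X d) : excess e (Y + Z) ≤ excess e Y + excess e Z := by
  unfold excess
  rw [inner_add_right]
  linarith [norm_add_le Y Z]

lemma excess_zero (e : X d) : excess e 0 = 0 := by simp [excess]

lemma ofReal_excess_sum_le (e : X d) {ι : Type*} (S : Finset ι) (Y : ι → X d) :
    ENNReal.ofReal (excess e (∑ i ∈ S, Y i)) ≤ ∑ i ∈ S, ENNReal.ofReal (excess e (Y i)) := by
  classical
  induction S using Finset.induction_on with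
  | empty => simp [excess_zero]
  | insert i S hi ih =>
    rw [Finset.sum_insert hi, Finset.sum_insert hi]
    exact ((ENNReal.ofReal_le_ofReal (excess_add_le e _ _)).trans ENNReal.ofReal_add_le).trans
      (add_le_add le_rfl ih)

lemma continuous_excess (e : X d) : Continuous (excess e) := by
  unfold excess; fun_prop

lemma continuous_excess₂ : Continuous fun p : X d × X d => excess p.1 p.2 := by
  unfold excess; fun_prop

lemma norm_edir_le (v : X d → X d) (z : X d) (s : ℝ) : ‖edir v z s‖ ≤ 1 := by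
  unfold edir
  rw [norm_smul, norm_inv, norm_norm]
  rcases eq_or_ne ‖cint v z s‖ 0 with h | h
  · simp [h]
  · rw [inv_mul_cancel₀ h]

lemma inner_edir_self (v : X d → X d) (z : X d) (s : ℝ) :
    ⟪edir v z s, cint v z s⟫ = ‖cint v z s‖ := by
  unfold edir
  rw [real_inner_smul_left, real_inner_self_eq_norm_sq]
  rcases eq_or_ne ‖cint v z s‖ 0 with h | h
  · simp [h]
  · field_simp

lemma excess_edir_self (v : X d → X d) (z : X d) (s : ℝ) :
    excess (edir v z s) (cint v z s) = 0 := by
  simp [excess, inner_edir_self]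

lemma measurable_edir {v : X d → X d} (hv : AEStronglyMeasurable v volume) (s : ℝ) :
    Measurable fun z => edir v z s :=
  ((measurable_cint hv s).norm.inv).smul (measurable_cint hv s)

/-! ### Comparisons -/

lemma bad_le_excess {η : ℝ} (hη : 0 < η) {e ē : X d} (hē : ‖ē‖ ≤ 1) (h : ‖e - ē‖ ≤ η / 2)
    (Y : X d) : bad η e Y ≤ 2 / η * excess ē Y := by
  unfold bad
  split_ifs with hb
  · have h1 : ⟪ē, Y⟫ - ⟪e, Y⟫ ≤ η / 2 * ‖Y‖ := by
      rw [← inner_sub_left]
      exact (real_inner_le_norm _ _).trans (mul_le_mul_of_nonneg_right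
        (by rwa [norm_sub_rev]) (norm_nonneg _))
    have h2 : η / 2 * ‖Y‖ ≤ excess ē Y := by unfold excess at hb ⊢; linarith
    rw [div_mul_eq_mul_div, le_div_iff₀ hη]
    linarith
  · exact mul_nonneg (by positivity) (excess_nonneg hē Y)

lemma norm_le_excess {θ : ℝ} (hθ : 0 < θ) {e ē : X d} (he : ‖e‖ ≤ 1) (hē : ‖ē‖ ≤ 1)
    (h : θ ≤ ‖e - ē‖) (Y : X d) : ‖Y‖ ≤ 4 / θ ^ 2 * (excess e Y + excess ē Y) := by
  rcases eq_or_ne Y 0 with rfl | hY
  · simp [excess_zero]
  have hn : 0 < ‖Y‖ := norm_pos_iff.2 hY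
  have key : ∀ {u : X d}, ‖u‖ ≤ 1 → ‖Y - ‖Y‖ • u‖ ^ 2 ≤ 2 * (‖Y‖ * excess u Y) := fun {u} hu => by
    rw [norm_sub_sq_real, real_inner_smul_right, norm_smul, norm_norm, excess, real_inner_comm]
    have : (‖Y‖ * ‖u‖) ^ 2 ≤ ‖Y‖ ^ 2 := by
      rw [mul_pow]
      exact mul_le_of_le_one_right (sq_nonneg _) (pow_le_one₀ (norm_nonneg _) hu)
    linarith
  have tri : ‖Y‖ * θ ≤ ‖Y - ‖Y‖ • ē‖ + ‖Y - ‖Y‖ • e‖ := by
    calc ‖Y‖ * θ ≤ ‖Y‖ * ‖e - ē‖ := mul_le_mul_of_nonneg_left h hn.le
      _ = ‖(Y - ‖Y‖ • ē) - (Y - ‖Y‖ • e)‖ := by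
        rw [sub_sub_sub_cancel_left, ← smul_sub, norm_smul, norm_norm]
      _ ≤ _ := norm_sub_le _ _
  have hsq := pow_le_pow_left₀ (by positivity) tri 2
  have k1 := key he
  have k2 := key hē
  rw [div_mul_eq_mul_div, le_div_iff₀ (by positivity)]
  refine le_of_mul_le_mul_left ?_ hn
  nlinarith [sq_nonneg (‖Y - ‖Y‖ • ē‖ - ‖Y - ‖Y‖ • e‖)]

lemma sub_inner_le_bad {η C : ℝ} (hC : 1 ≤ C * (1 - η)) (hC0 : 0 ≤ C) {e : X d} (he : ‖e‖ ≤ 1)
    (Y : X d) : ‖Y‖ - C * ⟪e, Y⟫ ≤ (1 + C) * bad η e Y := by
  unfold bad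
  have hn := norm_nonneg Y
  have := (abs_le.1 (abs_inner_le he Y)).1
  split_ifs with h
  · nlinarith
  · unfold excess at h
    push Not at h
    nlinarith [mul_le_mul_of_nonneg_left h hC0, mul_le_mul_of_nonneg_right hC hn]

/-! ### The direction of a cube -/

/-- The vector with all coordinates one. -/
def onev (d : ℕ) : X d := iv fun _ => 1

/-- The direction of a cube: the average of the directions of the windows of twice the side
centred in the cube. -/
def ebar (v : X d → X d) (z : X d) (l : ℝ) : X d :=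
  (l ^ d)⁻¹ • ∫ c in cube z l, edir v (c - l • onev d) (2 * l)

lemma norm_ebar_le (v : X d → X d) (z : X d) {l : ℝ} (hl : 0 < l) : ‖ebar v z l‖ ≤ 1 := by
  have h := norm_setIntegral_le_of_norm_le_const (μ := volume) (s := cube z l)
    (f := fun c => edir v (c - l • onev d) (2 * l)) (volume_cube_lt_top z hl.le)
    fun c _ => norm_edir_le v _ _
  rw [one_mul, measureReal_cube z hl.le] at h
  rw [ebar, norm_smul, norm_inv, Real.norm_of_nonneg (by positivity), inv_mul_le_one₀ (by positivity)]
  exact h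

lemma integrableOn_edir {v : X d → X d} (hv : AEStronglyMeasurable v volume) (z : X d) {l : ℝ}
    (hl : 0 < l) : IntegrableOn (fun c => edir v (c - l • onev d) (2 * l)) (cube z l) :=
  Measure.integrableOn_of_bounded (volume_cube_lt_top z hl.le).ne
    ((measurable_edir hv _).comp (measurable_sub_const _)).aestronglyMeasurable
    (Eventually.of_forall fun _ => norm_edir_le v _ _)

lemma excess_ebar_eq {v : X d → X d} (hv : AEStronglyMeasurable v volume) (z : X d) {l : ℝ}
    (hl : 0 < l) (Y : X d) :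
    excess (ebar v z l) Y =
      (l ^ d)⁻¹ * ∫ c in cube z l, excess (edir v (c - l • onev d) (2 * l)) Y := by
  have hi := integrableOn_edir hv z hl
  have hfin := (volume_cube_lt_top z hl.le).ne
  unfold excess ebar
  rw [integral_sub (integrableOn_const hfin : IntegrableOn (fun _ => ‖Y‖) (cube z l) volume)
      (hi.inner_const Y), setIntegral_const,
    measureReal_cube z hl.le, smul_eq_mul, mul_sub, ← mul_assoc, inv_mul_cancel₀ (by positivity),
    one_mul, real_inner_smul_left]
  congr 2
  rw [real_inner_comm, ← integral_inner hi]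
  exact integral_congr_ae (Eventually.of_forall fun c => real_inner_comm _ _)

lemma ofReal_excess_ebar {v : X d → X d} (hv : AEStronglyMeasurable v volume) (z : X d) {l : ℝ}
    (hl : 0 < l) (Y : X d) :
    ENNReal.ofReal (excess (ebar v z l) Y) = (ENNReal.ofReal (l ^ d))⁻¹ *
      ∫⁻ c in cube z l, ENNReal.ofReal (excess (edir v (c - l • onev d) (2 * l)) Y) := by
  have hfin := (volume_cube_lt_top z hl.le).ne
  rw [excess_ebar_eq hv z hl, ENNReal.ofReal_mul (by positivity),
    ENNReal.ofReal_inv_of_pos (by positivity)]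
  have hI : IntegrableOn (fun c => excess (edir v (c - l • onev d) (2 * l)) Y) (cube z l) volume :=
    (integrableOn_const hfin : IntegrableOn (fun _ => ‖Y‖) (cube z l) volume).sub
      ((integrableOn_edir hv z hl).inner_const Y)
  rw [ofReal_integral_eq_lintegral_ofReal hI
      (Eventually.of_forall fun c => excess_nonneg (norm_edir_le v _ _) _)]

lemma measurable_ebar {v : X d → X d} (hv : AEStronglyMeasurable v volume) (l : ℝ) :
    Measurable fun z => ebar v z l := by
  have h : (fun z => ∫ c in cube z l, edir v (c - l • onev d) (2 * l)) =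
      fun z => cint (fun c => edir v (c - l • onev d) (2 * l)) z l := rfl
  unfold ebar
  refine (show Measurable (fun z => ∫ c in cube z l, edir v (c - l • onev d) (2 * l)) from ?_).const_smul ((l ^ d)⁻¹)
  rw [h]
  exact measurable_cint ((measurable_edir hv _).comp (measurable_sub_const _)).aestronglyMeasurable l

end Vale.Agent.P137.Centred
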