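import Vale.Agent.P137.Centred.Outer.Band

/-!
P137, centred operator, outer part: the gradients of the maximal functions of all the trees under
a finite set of roots.
-/

open MeasureTheory Metric Set Filter
open scoped ENNReal Topology RealInnerProductSpace NNReal

noncomputable section

namespace Vale.Agent.P137.Centred

variable {d : ℕ}

lemma sub2_assoc (i j : ℕ) (Q o o' : Fin d → ℤ) :
    sub2 j (sub2 i Q o) o' = sub2 (i + j) Q (sub2 j o o') := by
  funext c
  simp only [sub2, pow_add]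
  ring

lemma tsum_near {Cn i : ℕ} [DecidablePred (nearAt (d := d) Cn i)] (W : (Fin d → ℤ) → ℝ≥0∞) :
    ∑' k : Fin d → ℤ, (if nearAt Cn i k then W k else 0) =
      ∑' Q : Fin d → ℤ, ∑ o ∈ nearOff d Cn i, W (sub2 i Q o) := by
  classical
  rw [tsum_split i]
  refine tsum_congr fun Q => ?_
  rw [nearOff, Finset.sum_filter]
  refine Finset.sum_congr rfl fun o _ => ?_
  simp only [nearAt_sub2]
  split_ifs <;> rfl

lemma sum_triangle (F : ℕ → ℕ → ℝ≥0∞) : ∀ N,
    ∑ m ∈ Finset.range (N + 1), ∑ n ∈ Finset.range (m + 1), F n (m - n) =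
      ∑ i ∈ Finset.range (N + 1), ∑ n ∈ Finset.range (N + 1 - i), F n i
  | 0 => by simp
  | N + 1 => by
    have h1 : ∑ i ∈ Finset.range (N + 1 + 1), ∑ n ∈ Finset.range (N + 1 + 1 - i), F n i =
        (∑ i ∈ Finset.range (N + 1), ∑ n ∈ Finset.range (N + 1 - i), F n i) +
          ∑ i ∈ Finset.range (N + 1 + 1), F (N + 1 - i) i := by
      rw [Finset.sum_range_succ _ (N + 1), Finset.sum_range_succ (fun i => F (N + 1 - i) i) (N + 1),
        ← add_assoc, ← Finset.sum_add_distrib]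
      refine congrArg₂ (· + ·) (Finset.sum_congr rfl fun i hi => ?_) (by simp)
      rw [show N + 1 + 1 - i = N + 1 - i + 1 by have := Finset.mem_range.1 hi; omega,
        Finset.sum_range_succ]
    rw [Finset.sum_range_succ _ (N + 1), sum_triangle F N, h1]
    congr 1
    rw [← Finset.sum_range_reflect (fun n => F n (N + 1 - n)) (N + 1 + 1)]
    refine Finset.sum_congr rfl fun i hi => ?_
    have := Finset.mem_range.1 hi
    congr 1; omega

open Classical in
lemma card_cells_le (R : Finset (Fin d → ℤ)) (n : ℕ) :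
    (cells R n).card ≤ R.card * 2 ^ (n * d) := by
  refine Finset.card_biUnion_le.trans ?_
  refine (Finset.sum_le_card_nsmul _ _ (2 ^ (n * d)) fun r _ =>
    Finset.card_image_le.trans (card_off d n).le).trans (le_of_eq ?_)
  rw [smul_eq_mul]

section Forest

variable {P : Par d} {f : X d → ℝ} {a : X d} {L : ℝ} {N : ℕ} {R : Finset (Fin d → ℤ)}

open Classical in
/-- Each cube is owned by one tree. -/
lemma sum_own_le {n : ℕ} (k : Fin d → ℤ) (near : Prop) (W : ℝ≥0∞) :
    ∑ nQ ∈ Finset.range (N + 1), ∑ kQ ∈ tops (vgrad f) a L (P.η / 2) R nQ,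
      (if Own P f a L nQ kQ n k ∧ near then W else 0) ≤
    if near ∧ k ∈ cells R n then W else 0 := by
  set t := topl (vgrad f) a L (P.η / 2) n k with ht
  calc ∑ nQ ∈ Finset.range (N + 1), ∑ kQ ∈ tops (vgrad f) a L (P.η / 2) R nQ,
        (if Own P f a L nQ kQ n k ∧ near then W else 0)
      ≤ ∑ nQ ∈ Finset.range (N + 1), if nQ = t then (∑ kQ ∈ tops (vgrad f) a L (P.η / 2) R nQ,
          if kQ = anc (n - t) k then (if near ∧ k ∈ cells R n then W else 0) else 0) else 0 := by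
        refine Finset.sum_le_sum fun nQ _ => ?_
        by_cases h : nQ = t
        · rw [if_pos h]
          refine Finset.sum_le_sum fun kQ hkQ => ?_
          by_cases h1 : Own P f a L nQ kQ n k ∧ near
          · have hk : k ∈ cells R n := by
              have h2 := (Finset.mem_filter.1 hkQ).1
              rw [mem_cells] at h2 ⊢
              rw [← h1.1.2, anc_anc] at h2
              rwa [Nat.add_sub_cancel' (h1.1.1 ▸ topl_le n k)] at h2
            rw [if_pos h1, if_pos (by rw [← h]; exact h1.1.2.symm), if_pos ⟨h1.2, hk⟩]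
          · rw [if_neg h1]; exact zero_le
        · rw [if_neg h]
          exact le_of_eq (Finset.sum_eq_zero fun kQ _ => if_neg fun h1 => h h1.1.1.symm)
    _ ≤ _ := by
        rw [Finset.sum_ite_eq']
        split_ifs with h1
        all_goals try rw [Finset.sum_ite_eq']
        all_goals try split_ifs
        all_goals first | exact le_rfl | exact zero_le

open Classical in
lemma sum_GQ_le (m j : ℕ) (k : Fin d → ℤ) :
    ∑ nQ ∈ Finset.range (N + 1), ∑ kQ ∈ tops (vgrad f) a L (P.η / 2) R nQ,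
      GQ P f a L nQ kQ m j k ≤
    ∑ n ∈ Finset.range (m + 1), if nearAt P.Cn (m - n) k then
      ∑ o ∈ off d j, ENNReal.ofReal
        (excess (gdir (vgrad f) a L n (anc (m - n) k)) (gint (vgrad f) a L (m + j) (sub2 j k o)))
      else 0 := by
  simp only [GQ]
  rw [Finset.sum_congr rfl fun nQ _ => Finset.sum_comm, Finset.sum_comm]
  refine Finset.sum_le_sum fun n _ => (sum_own_le (P := P) (f := f) (a := a) (L := L) (N := N)
    (R := R) (anc (m - n) k) (nearAt P.Cn (m - n) k) _).trans ?_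
  split_ifs with h1 h2 <;> first | exact le_rfl | exact zero_le | exact absurd h1.1 h2

open Classical in
lemma tsum_sum_GQ_le (m j : ℕ) :
    ∑' k : Fin d → ℤ, ∑ nQ ∈ Finset.range (N + 1),
      ∑ kQ ∈ tops (vgrad f) a L (P.η / 2) R nQ, GQ P f a L nQ kQ m j k ≤
    ∑ n ∈ Finset.range (m + 1), errAt (vgrad f) a L P.Cn n (m - n) j := by
  refine (ENNReal.tsum_le_tsum fun k => sum_GQ_le m j k).trans (le_of_eq ?_)
  rw [Summable.tsum_finsetSum fun _ _ => ENNReal.summable]
  refine Finset.sum_congr rfl fun n hn => ?_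
  rw [tsum_near, errAt]
  refine tsum_congr fun Q => Finset.sum_congr rfl fun o ho => Finset.sum_congr rfl fun o' _ => ?_
  rw [anc_sub2 (m - n) Q (Finset.filter_subset _ _ ho), sub2_assoc,
    show n + (m - n + j) = m + j by have := Finset.mem_range.1 hn; omega]

open Classical in
lemma sum_HQ_le (k : Fin d → ℤ) :
    ∑ nQ ∈ Finset.range (N + 1), ∑ kQ ∈ tops (vgrad f) a L (P.η / 2) R nQ,
      HQ P f a L N nQ kQ k ≤
    ∑ n ∈ Finset.range (N + 1),
      if nearAt P.Cn (N - n) k ∧ anc (N - n) k ∈ cells R n then 1 else 0 := by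
  simp only [HQ]
  rw [Finset.sum_congr rfl fun nQ _ => Finset.sum_comm, Finset.sum_comm]
  exact Finset.sum_le_sum fun n _ => sum_own_le (P := P) (f := f) (a := a) (L := L) (N := N)
    (R := R) (anc (N - n) k) (nearAt P.Cn (N - n) k) 1

open Classical in
lemma tsum_sum_HQ_loss_le :
    ∑' k : Fin d → ℤ, (∑ nQ ∈ Finset.range (N + 1), ∑ kQ ∈ tops (vgrad f) a L (P.η / 2) R nQ,
      HQ P f a L N nQ kQ k) * loss (vgrad f) (lev L N) (a + lev L N • iv k) ≤
    ∑ i ∈ Finset.range (N + 1), lossAt (vgrad f) a L P.Cn (N - i) i := by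
  refine (ENNReal.tsum_le_tsum fun k => mul_le_mul_left (sum_HQ_le k) _).trans ?_
  simp only [Finset.sum_mul, ite_mul, one_mul, zero_mul]
  rw [Summable.tsum_finsetSum fun _ _ => ENNReal.summable,
    ← Finset.sum_range_reflect (fun i => lossAt (vgrad f) a L P.Cn (N - i) i) (N + 1)]
  refine Finset.sum_le_sum fun n hn => ?_
  have hn' := Finset.mem_range.1 hn
  rw [show N + 1 - 1 - n = N - n by omega, show N - (N - n) = n by omega]
  refine le_trans (ENNReal.tsum_le_tsum (g := fun k => if nearAt P.Cn (N - n) k then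
    loss (vgrad f) (lev L N) (a + lev L N • iv k) else 0) fun k => ?_) (le_of_eq ?_)
  · by_cases h : nearAt P.Cn (N - n) k
    · rw [if_pos h]; split_ifs <;> first | exact le_rfl | exact zero_le
    · rw [if_neg h, if_neg fun h' => h h'.1]
  · rw [tsum_near, lossAt, show n + (N - n) = N by omega]

open Classical in
lemma tsum_sum_HQ_le (hL : 0 < L) :
    ENNReal.ofReal (lev L N ^ d) * ∑' k : Fin d → ℤ, ∑ nQ ∈ Finset.range (N + 1),
      ∑ kQ ∈ tops (vgrad f) a L (P.η / 2) R nQ, HQ P f a L N nQ kQ k ≤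
    ((4 * d * P.Cn + 1 : ℕ) : ℝ≥0∞) * 2 * ((R.card : ℝ≥0∞) * ENNReal.ofReal (L ^ d)) := by
  have hcount : ∀ n ∈ Finset.range (N + 1), ∑' k : Fin d → ℤ,
      (if nearAt P.Cn (N - n) k ∧ anc (N - n) k ∈ cells R n then (1:ℝ≥0∞) else 0) ≤
      ((R.card : ℝ≥0∞) * 2 ^ (N * d)) * (((4 * d * P.Cn + 1 : ℕ) : ℝ≥0∞) *
        ((2:ℝ≥0∞) ^ (N - n))⁻¹) := by
    intro n hn
    have hn' := Finset.mem_range.1 hn
    calc ∑' k : Fin d → ℤ,
          (if nearAt P.Cn (N - n) k ∧ anc (N - n) k ∈ cells R n then (1:ℝ≥0∞) else 0)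
        = ∑' k : Fin d → ℤ, (if nearAt P.Cn (N - n) k then
            (if anc (N - n) k ∈ cells R n then (1:ℝ≥0∞) else 0) else 0) := by
          simp only [ite_and]
      _ = ∑' Q : Fin d → ℤ, ∑ o ∈ nearOff d P.Cn (N - n),
            (if Q ∈ cells R n then (1:ℝ≥0∞) else 0) := by
          rw [tsum_near]
          refine tsum_congr fun Q => Finset.sum_congr rfl fun o ho => ?_
          rw [anc_sub2 _ Q (Finset.filter_subset _ _ ho)]
      _ = ((cells R n).card : ℝ≥0∞) * (nearOff d P.Cn (N - n)).card := by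
          simp only [Finset.sum_const, nsmul_eq_mul]
          rw [ENNReal.tsum_mul_left, mul_comm]
          congr 1
          rw [tsum_eq_sum (s := cells R n) fun Q hQ => if_neg hQ,
            Finset.sum_ite_of_true fun x hx => hx, Finset.sum_const, nsmul_eq_mul, mul_one]
      _ ≤ (R.card : ℝ≥0∞) * 2 ^ (n * d) * (nearOff d P.Cn (N - n)).card := by
          refine mul_le_mul_left ?_ _
          exact_mod_cast card_cells_le R n
      _ = (R.card : ℝ≥0∞) * 2 ^ (N * d) * ((nearOff d P.Cn (N - n)).card *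
            ((2:ℝ≥0∞) ^ ((N - n) * d))⁻¹) := by
          rw [show N * d = n * d + (N - n) * d by rw [← add_mul, Nat.add_sub_cancel' (by omega)],
            pow_add, show ∀ x y z w u : ℝ≥0∞, x * (y * z) * (w * u) = x * y * w * (z * u) from
              fun _ _ _ _ _ => by ring,
            ENNReal.mul_inv_cancel (by positivity) (ENNReal.pow_ne_top (by norm_num)), mul_one]
      _ ≤ _ := mul_le_mul_right (nearOff_weight d P.Cn (N - n)) _
  have hgeo : ∑ n ∈ Finset.range (N + 1), ((2:ℝ≥0∞) ^ (N - n))⁻¹ ≤ 2 := by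
    refine le_of_le_of_eq ?_ ENNReal.tsum_geometric_two
    rw [← Finset.sum_range_reflect]
    refine le_trans (le_of_eq (Finset.sum_congr rfl fun i hi => ?_)) (ENNReal.sum_le_tsum _)
    have := Finset.mem_range.1 hi
    rw [show N - (N + 1 - 1 - i) = i by omega, ENNReal.inv_pow]
  have hsum : ∑' k : Fin d → ℤ, ∑ nQ ∈ Finset.range (N + 1),
      ∑ kQ ∈ tops (vgrad f) a L (P.η / 2) R nQ, HQ P f a L N nQ kQ k ≤
      ((R.card : ℝ≥0∞) * 2 ^ (N * d)) * (((4 * d * P.Cn + 1 : ℕ) : ℝ≥0∞) * 2) := by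
    refine (ENNReal.tsum_le_tsum fun k => sum_HQ_le k).trans ?_
    rw [Summable.tsum_finsetSum fun _ _ => ENNReal.summable]
    refine (Finset.sum_le_sum hcount).trans ?_
    rw [← Finset.mul_sum, ← Finset.mul_sum]
    exact mul_le_mul_right (mul_le_mul_right hgeo _) _
  refine (mul_le_mul_right hsum _).trans (le_of_eq ?_)
  have e : ENNReal.ofReal (lev L N ^ d) * (2:ℝ≥0∞) ^ (N * d) = ENNReal.ofReal (L ^ d) := by
    rw [← ENNReal.ofReal_ofNat, ← ENNReal.ofReal_pow zero_le_two,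
      ← ENNReal.ofReal_mul (by have := lev_pos hL N; positivity)]
    congr 1
    unfold lev
    rw [div_pow, ← pow_mul]
    field_simp
  rw [← e]
  ring

variable (P) in
/-- The gradients of the maximal functions of all the trees. -/
theorem forest_le (hd : 1 ≤ d) :
    ∃ K : ℝ≥0∞, K ≠ ⊤ ∧ ∀ (f : X d → ℝ), RegFun f → ∀ (a : X d) (L : ℝ), 0 < L →
      ∀ (N : ℕ) (R : Finset (Fin d → ℤ)) (ω : ℝ),
      (∀ x y : X d, ‖y - x‖ ≤ lev L N → ‖vgrad f y - vgrad f x‖ ≤ ω) →
        ∑ nQ ∈ Finset.range (N + 1), ∑ kQ ∈ tops (vgrad f) a L (P.η / 2) R nQ,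
          ∫⁻ x in gcell a L nQ kQ, ‖vgrad (MQ P f a L N nQ kQ) x‖ₑ ≤
        K * ((∑ k ∈ R, ‖gint (vgrad f) a L 0 k‖ₑ) + errTot (vgrad f) a L P.q P.Cn N +
          ENNReal.ofReal ω * ((R.card : ℝ≥0∞) * ENNReal.ofReal (L ^ d))) := by
  classical
  obtain ⟨hC1a, -, hC1b⟩ := P.C1_spec
  set c1 := ENNReal.ofReal P.C1
  set c4 := ENNReal.ofReal (4 / (P.η / 2) ^ 2)
  set cb := ENNReal.ofReal ((1 + P.C1) * P.C' * (2 / P.η)) * ((dbox d 8 0).card : ℝ≥0∞)
  set ct := ENNReal.ofReal ((1 + P.C1) * (2 / P.η))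
  set cw := ENNReal.ofReal ((2 + 2 * P.C1) * (1 + P.C1)) *
    (((4 * d * P.Cn + 1 : ℕ) : ℝ≥0∞) * 2)
  refine ⟨c1 * (1 + c4 * 4) + cb + ct * 2 + cw, ?_, fun f hf a L hL N R ω hω => ?_⟩
  · have t : ∀ x : ℝ, ENNReal.ofReal x ≠ ⊤ := fun x => ENNReal.ofReal_ne_top
    exact ENNReal.add_ne_top.2 ⟨ENNReal.add_ne_top.2 ⟨ENNReal.add_ne_top.2
      ⟨ENNReal.mul_ne_top (t _) (ENNReal.add_ne_top.2 ⟨ENNReal.one_ne_top,
        ENNReal.mul_ne_top (t _) (by norm_num)⟩),
      ENNReal.mul_ne_top (t _) (ENNReal.natCast_ne_top _)⟩, ENNReal.mul_ne_top (t _) (by norm_num)⟩,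
      ENNReal.mul_ne_top (t _) (ENNReal.mul_ne_top (ENNReal.natCast_ne_top _) (by norm_num))⟩
  set v := vgrad f with hv
  have hvi : Integrable v := integrable_vgrad hf
  set E := errTot v a L P.q P.Cn N with hE
  obtain ⟨V, hV⟩ := exists_vgrad_bound hf
  have hQle : ∀ nQ ∈ Finset.range (N + 1), ∀ kQ ∈ tops v a L (P.η / 2) R nQ,
      ∫⁻ x in gcell a L nQ kQ, ‖vgrad (MQ P f a L N nQ kQ) x‖ₑ ≤
        c1 * ‖gint v a L nQ kQ‖ₑ +
          ((∑ m ∈ Finset.range (N + 1),
            cb * ∑' j : ℕ, ENNReal.ofReal (P.q ^ j) * ∑' k : Fin d → ℤ, GQ P f a L nQ kQ m j k) +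
          ∑' k : Fin d → ℤ,
            (ct * GQ P f a L nQ kQ N 0 k + ct * (HQ P f a L N nQ kQ k *
              loss v (lev L N) (a + lev L N • iv k)) +
            ENNReal.ofReal ((2 + 2 * P.C1) * (1 + P.C1) * ω) * ENNReal.ofReal (lev L N ^ d) *
              HQ P f a L N nQ kQ k)) := by
    intro nQ hnQ kQ hkQ
    have hM := lipschitzWith_rMax hf (lipschitzWith_loQ (P := P) (f := f) (a := a) (L := L)
      (N := N) (nQ := nQ) (kQ := kQ))
      (lipschitzWith_upQ (P := P) (a := a) (L := L) (nQ := nQ) (kQ := kQ)) hV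
    have hfl : LipschitzWith (V * (1 + P.θ)) f :=
      (lipschitzWith_of_vgrad_le hf.1 hV).weaken (le_mul_of_one_le_right' le_self_add)
    refine (lintegral_vgrad_le hM _ (lev_pos hL nQ).le (show 0 ≤ P.C1 by linarith)
      (norm_gdir_le v a hL nQ kQ)).trans (add_le_add (le_of_eq ?_) ?_)
    · rw [setIntegral_vgrad_eq hM hfl _ (lev_pos hL nQ).le fun x hx => ?_]
      · rfl
      · have hu : upQ P a L nQ kQ x = 0 := by
          rw [upQ, infDist_zero_of_mem (show x ∈ (gcell a L nQ kQ)ᶜ from hx), mul_zero]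
        exact rMax_eq_self (le_antisymm (hu ▸ loQ_le_upQ hd hL x) (loQ_nonneg x)) hu
    · refine (coneQ_le hd hL hf (Nat.lt_succ_iff.1 (Finset.mem_range.1 hnQ))
        (Finset.mem_filter.1 hkQ).2 hω).trans (le_of_eq (congrArg₂ (· + ·) rfl (tsum_congr fun k => ?_)))
      rw [mul_add]
  refine (Finset.sum_le_sum fun nQ hnQ => Finset.sum_le_sum fun kQ hkQ => hQle nQ hnQ kQ hkQ).trans ?_
  simp only [Finset.sum_add_distrib, ← Finset.mul_sum, ENNReal.tsum_add,
    ENNReal.tsum_mul_left]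
  -- the pieces
  have hT : ∑ nQ ∈ Finset.range (N + 1), ∑ kQ ∈ tops v a L (P.η / 2) R nQ, ‖gint v a L nQ kQ‖ₑ ≤
      (∑ k ∈ R, ‖gint v a L 0 k‖ₑ) + c4 * 4 * E := by
    refine (sum_tops_le hvi hL (by linarith [P.η_pos]) N).trans (add_le_add le_rfl ?_)
    rw [mul_assoc]
    refine mul_le_mul_right ?_ _
    have hself : ∑ n ∈ Finset.range (N + 1), ∑' k : Fin d → ℤ, selfExc v a L n k ≤ E := by
      refine le_trans ?_ (le_trans le_self_add le_self_add)
      refine le_trans (Finset.sum_le_sum fun n _ => ?_) (Finset.single_le_sum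
        (f := fun i => ∑ n ∈ Finset.range (N + 1 - i), ∑' j : ℕ, ENNReal.ofReal (P.q ^ j) *
          errAt v a L P.Cn n i j) (fun _ _ => zero_le) (Finset.mem_range.2 (Nat.succ_pos N)))
      exact (selfExc_le_errAt v a L P.Cn n).trans (le_trans (by simp) (ENNReal.le_tsum 0))
    have h1 : ∑ k ∈ R, selfExc v a L 0 k ≤ E := (ENNReal.sum_le_tsum _).trans
      ((Finset.single_le_sum (f := fun n => ∑' k : Fin d → ℤ, selfExc v a L n k)
        (fun _ _ => zero_le) (Finset.mem_range.2 (Nat.succ_pos N))).trans hself)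
    have h2 : ∑ n ∈ Finset.range N, ∑ k ∈ cells R (n + 1), selfExc v a L (n + 1) k ≤ E := by
      refine le_trans ?_ hself
      rw [Finset.sum_range_succ' _ N]
      exact le_trans (Finset.sum_le_sum fun n _ => ENNReal.sum_le_tsum _) le_self_add
    have h3 : ∑ n ∈ Finset.range N, ∑ p ∈ cells R n, drop v a L n p ≤ E :=
      (Finset.sum_le_sum fun n _ => ENNReal.sum_le_tsum _).trans le_add_self
    calc _ ≤ E + 2 * E + E := add_le_add (add_le_add h1 (mul_le_mul_right h2 _)) h3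
      _ = 4 * E := by ring
  have hG : ∀ m j, ∑ nQ ∈ Finset.range (N + 1), ∑ kQ ∈ tops v a L (P.η / 2) R nQ,
      ∑' k : Fin d → ℤ, GQ P f a L nQ kQ m j k ≤
      ∑ n ∈ Finset.range (m + 1), errAt v a L P.Cn n (m - n) j := fun m j => by
    refine le_of_eq_of_le ?_ (tsum_sum_GQ_le (P := P) (f := f) (a := a) (L := L) (N := N) (R := R) m j)
    simp only [Summable.tsum_finsetSum fun _ _ => ENNReal.summable]
    rfl
  have hEt : ∑ m ∈ Finset.range (N + 1), ∑ n ∈ Finset.range (m + 1),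
      (∑' j : ℕ, ENNReal.ofReal (P.q ^ j) * errAt v a L P.Cn n (m - n) j) ≤ E := by
    rw [sum_triangle (fun n i => ∑' j : ℕ, ENNReal.ofReal (P.q ^ j) * errAt v a L P.Cn n i j) N]
    exact le_trans le_self_add le_self_add
  have hB : ∑ nQ ∈ Finset.range (N + 1), ∑ kQ ∈ tops v a L (P.η / 2) R nQ,
      ∑ m ∈ Finset.range (N + 1), ∑' j : ℕ, ENNReal.ofReal (P.q ^ j) *
        ∑' k : Fin d → ℤ, GQ P f a L nQ kQ m j k ≤ E := by
    refine le_trans ?_ hEt
    rw [Finset.sum_congr rfl fun nQ _ => Finset.sum_comm, Finset.sum_comm]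
    refine Finset.sum_le_sum fun m _ => ?_
    simp only [← Summable.tsum_finsetSum fun _ _ => ENNReal.summable, ← Finset.mul_sum]
    refine ENNReal.tsum_le_tsum fun j => ?_
    refine mul_le_mul_right ?_ _
    simpa only [Summable.tsum_finsetSum fun _ _ => ENNReal.summable] using hG m j
  have hN0 : ∑ nQ ∈ Finset.range (N + 1), ∑ kQ ∈ tops v a L (P.η / 2) R nQ,
      ∑' k : Fin d → ℤ, GQ P f a L nQ kQ N 0 k ≤ E := by
    refine (hG N 0).trans (le_trans ?_ hEt)
    refine le_trans (Finset.sum_le_sum fun n _ => ?_) (Finset.single_le_sum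
      (f := fun m => ∑ n ∈ Finset.range (m + 1),
        ∑' j : ℕ, ENNReal.ofReal (P.q ^ j) * errAt v a L P.Cn n (m - n) j)
      (fun _ _ => zero_le) (Finset.mem_range.2 (Nat.lt_succ_self N)))
    exact le_trans (by simp) (ENNReal.le_tsum 0)
  have hLs : ∑ nQ ∈ Finset.range (N + 1), ∑ kQ ∈ tops v a L (P.η / 2) R nQ,
      ∑' k : Fin d → ℤ, HQ P f a L N nQ kQ k * loss v (lev L N) (a + lev L N • iv k) ≤ E := by
    refine le_trans (le_of_eq_of_le ?_ (tsum_sum_HQ_loss_le (P := P) (f := f) (a := a) (L := L)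
      (N := N) (R := R))) (le_trans le_add_self le_self_add)
    simp only [Finset.sum_mul, Summable.tsum_finsetSum fun _ _ => ENNReal.summable, ← hv]
  have hW : ∑ nQ ∈ Finset.range (N + 1), ∑ kQ ∈ tops v a L (P.η / 2) R nQ,
      ENNReal.ofReal ((2 + 2 * P.C1) * (1 + P.C1) * ω) * ENNReal.ofReal (lev L N ^ d) *
        ∑' k : Fin d → ℤ, HQ P f a L N nQ kQ k ≤
      cw * (ENNReal.ofReal ω * ((R.card : ℝ≥0∞) * ENNReal.ofReal (L ^ d))) := by
    simp only [← Finset.mul_sum, ← Summable.tsum_finsetSum fun _ _ => ENNReal.summable]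
    rw [ENNReal.ofReal_mul (by positivity), mul_assoc _ (ENNReal.ofReal (lev L N ^ d))]
    refine (mul_le_mul_right (tsum_sum_HQ_le (P := P) (f := f) (a := a) (N := N) (R := R) hL) _).trans
      (le_of_eq ?_)
    simp only [cw]
    ring
  simp only [← Finset.mul_sum] at hW ⊢
  have h0 : ∀ x : ℝ≥0∞, x ≤ (∑ k ∈ R, ‖gint v a L 0 k‖ₑ) + x := fun x => le_add_self
  refine (add_le_add (mul_le_mul_right hT c1) (add_le_add (mul_le_mul_right hB cb)
    (add_le_add (add_le_add (mul_le_mul_right hN0 ct) (mul_le_mul_right hLs ct)) hW))).trans ?_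
  set S := ∑ k ∈ R, ‖gint v a L 0 k‖ₑ
  set W := ENNReal.ofReal ω * ((R.card : ℝ≥0∞) * ENNReal.ofReal (L ^ d))
  calc c1 * (S + c4 * 4 * E) + (cb * E + (ct * E + ct * E + cw * W))
      ≤ c1 * (1 + c4 * 4) * S + c1 * (1 + c4 * 4) * E + (cb * E + ct * 2 * E + cw * W) := by
        rw [mul_add]
        refine add_le_add (add_le_add ?_ ?_) (le_of_eq (by ring))
        · exact mul_le_mul_left (le_mul_of_one_le_right zero_le le_self_add) _
        · rw [← mul_assoc]
          exact mul_le_mul_left (mul_le_mul_right le_add_self _) _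
    _ ≤ (c1 * (1 + c4 * 4) + cb + ct * 2 + cw) * (S + E + W) := by
        simp only [add_mul, mul_add]
        refine le_of_le_of_eq (le_self_add (b := c1 * (1 + c4 * 4) * W + cb * S + cb * W +
          ct * 2 * S + ct * 2 * W + cw * S + cw * E)) ?_
        ring

end Forest

end Vale.Agent.P137.Centred
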