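import Vale.Agent.P137.Centred.Cells

/-!
P137, centred operator, outer part: translated grids of cubes.
-/

open MeasureTheory Metric Set Filter
open scoped ENNReal Topology RealInnerProductSpace

noncomputable section

namespace Vale.Agent.P137.Centred

variable {d : ℕ}

/-- An integer vector as a point. -/
def iv (k : Fin d → ℤ) : X d := WithLp.toLp 2 fun i => (k i : ℝ)

/-- The offsets of the sub-cubes after `i` halvings. -/
def off (d i : ℕ) : Finset (Fin d → ℤ) := Fintype.piFinset fun _ => Finset.Ico (0 : ℤ) (2 ^ i)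

/-- The index of the cube of the grid with corner `a` and side `l` containing a point. -/
def gidx (a : X d) (l : ℝ) (y : X d) : Fin d → ℤ := fun i => ⌊(y i - a i) / l⌋

lemma grid_apply (a : X d) (l : ℝ) (k : Fin d → ℤ) (i : Fin d) :
    (a + l • iv k) i = a i + l * k i := by simp [iv]

lemma iv_add (k k' : Fin d → ℤ) : iv (k + k') = iv k + iv k' := by
  ext i; simp [iv]

lemma mem_grid {a y : X d} {l : ℝ} (hl : 0 < l) {k : Fin d → ℤ} :
    y ∈ cube (a + l • iv k) l ↔ gidx a l y = k := by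
  simp only [mem_cube, grid_apply, gidx, funext_iff, Int.floor_eq_iff, le_div_iff₀ hl,
    div_lt_iff₀ hl]
  exact forall_congr' fun i => ⟨fun h => ⟨by linarith [h.1], by linarith [h.2]⟩,
    fun h => ⟨by linarith [h.1], by linarith [h.2]⟩⟩

lemma mem_grid_self (a y : X d) {l : ℝ} (hl : 0 < l) : y ∈ cube (a + l • iv (gidx a l y)) l :=
  (mem_grid hl).2 rfl

lemma disjoint_grid (a : X d) {l : ℝ} (hl : 0 < l) {k k' : Fin d → ℤ} (h : k ≠ k') :
    Disjoint (cube (a + l • iv k) l) (cube (a + l • iv k') l) :=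
  Set.disjoint_left.2 fun _ hy hy' => h (((mem_grid hl).1 hy).symm.trans ((mem_grid hl).1 hy'))

lemma gidx_div (a y : X d) {l : ℝ} (hl : 0 < l) (i : ℕ) (c : Fin d) :
    gidx a (2 ^ i * l) y c = gidx a l y c / 2 ^ i := by
  unfold gidx
  rw [show (2:ℤ) ^ i = ((2 ^ i : ℕ) : ℤ) by push_cast; rfl, ← Int.floor_div_natCast]
  congr 1
  push_cast
  field_simp

lemma mem_off {i : ℕ} {o : Fin d → ℤ} : o ∈ off d i ↔ ∀ c, 0 ≤ o c ∧ o c < 2 ^ i := by
  simp [off, Fintype.mem_piFinset]

lemma card_off (d i : ℕ) : (off d i).card = 2 ^ (i * d) := by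
  simp [off, Fintype.card_piFinset, pow_mul, Int.toNat_pow_of_nonneg]

lemma cube_split (z : X d) {l : ℝ} (hl : 0 < l) (i : ℕ) :
    cube z (2 ^ i * l) = ⋃ o ∈ off d i, cube (z + l • iv o) l := by
  ext y
  simp only [mem_iUnion, mem_grid hl, exists_prop, exists_eq_right', mem_off, mem_cube, gidx,
    Int.floor_nonneg, Int.floor_lt, le_div_iff₀ hl, div_lt_iff₀ hl, zero_mul]
  push_cast
  exact forall_congr' fun c => ⟨fun h => ⟨by linarith [h.1], by linarith [h.2]⟩,
    fun h => ⟨by linarith [h.1], by linarith [h.2]⟩⟩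

lemma cube_grid_subset (z : X d) {l : ℝ} (hl : 0 < l) {i : ℕ} {o : Fin d → ℤ}
    (ho : o ∈ off d i) : cube (z + l • iv o) l ⊆ cube z (2 ^ i * l) := by
  rw [cube_split z hl i]
  exact subset_iUnion₂_of_subset o ho subset_rfl

lemma cint_split {v : X d → X d} (z : X d) {l : ℝ} (hl : 0 < l) (i : ℕ)
    (hv : IntegrableOn v (cube z (2 ^ i * l))) :
    cint v z (2 ^ i * l) = ∑ o ∈ off d i, cint v (z + l • iv o) l := by
  rw [cint, cube_split z hl i, integral_biUnion_finset _ (fun o _ => measurableSet_cube _ _)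
    (fun o _ o' _ h => disjoint_grid z hl h)
    (fun o ho => hv.mono_set (cube_grid_subset z hl ho))]
  rfl

lemma lintegral_split (z : X d) {l : ℝ} (hl : 0 < l) (i : ℕ) (F : X d → ℝ≥0∞) :
    ∫⁻ y in cube z (2 ^ i * l), F y = ∑ o ∈ off d i, ∫⁻ y in cube (z + l • iv o) l, F y := by
  rw [cube_split z hl i]
  exact lintegral_biUnion_finset (fun o _ o' _ h => disjoint_grid z hl h)
    (fun o _ => measurableSet_cube _ _) F

lemma lintegral_shift_cube (z w : X d) (s : ℝ) (F : X d → ℝ≥0∞) :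
    ∫⁻ y in cube z s, F (y + w) = ∫⁻ y in cube (z + w) s, F y := by
  have e : cube z s = (fun y => y + w) ⁻¹' cube (z + w) s := by
    ext y
    simp only [mem_preimage, mem_cube, PiLp.add_apply]
    exact forall_congr' fun c => ⟨fun h => ⟨by linarith [h.1], by linarith [h.2]⟩,
      fun h => ⟨by linarith [h.1], by linarith [h.2]⟩⟩
  rw [e]
  exact (measurePreserving_add_right volume w).setLIntegral_comp_preimage_emb
    (measurableEmbedding_addRight w) F _

lemma lintegral_grid (z : X d) {l : ℝ} (hl : 0 < l) (F : X d → ℝ≥0∞) :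
    ∑' k : Fin d → ℤ, ∫⁻ y in cube (z + l • iv k) l, F y = ∫⁻ y, F y := by
  rw [← lintegral_iUnion (fun k => measurableSet_cube _ _) (fun k k' h => disjoint_grid z hl h),
    show (⋃ k, cube (z + l • iv k) l) = univ from
      iUnion_eq_univ_iff.2 fun y => ⟨_, mem_grid_self z y hl⟩, setLIntegral_univ]

/-- The average over translations of a sum over a grid. -/
theorem avg_grid {l : ℝ} (hl : 0 < l) (n : ℕ) {F : X d → ℝ≥0∞} (hF : Measurable F) :
    ∫⁻ a in cube (0 : X d) (2 ^ n * l), ∑' k : Fin d → ℤ, F (a + l • iv k) =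
      (2:ℝ≥0∞) ^ (n * d) * ∫⁻ y, F y := by
  have hm : ∀ k : Fin d → ℤ, AEMeasurable (fun a => F (a + l • iv k))
      (volume.restrict (cube 0 (2 ^ n * l))) := fun k => by fun_prop
  rw [lintegral_tsum hm]
  simp only [lintegral_shift_cube, zero_add, lintegral_split _ hl n]
  rw [Summable.tsum_finsetSum fun o _ => ENNReal.summable]
  rw [Finset.sum_congr rfl fun o _ => ?_, Finset.sum_const, card_off, nsmul_eq_mul,
    Nat.cast_pow, Nat.cast_ofNat]
  exact lintegral_grid _ hl F

end Vale.Agent.P137.Centred
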