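import Vale.Agent.P137.Centred.Outer.Grid

/-!
P137, centred operator, outer part: the core estimate at an arbitrary scale.
-/

open MeasureTheory Metric Set Filter
open scoped ENNReal Topology RealInnerProductSpace Pointwise

noncomputable section

namespace Vale.Agent.P137.Centred

variable {d : ℕ}

/-- The affine map sending the unit cube to the cube with corner `z` and side `R`. -/
def aff (z : X d) (R : ℝ) (x : X d) : X d := z + R • x

lemma measurableEmbedding_aff (z : X d) {R : ℝ} (hR : 0 < R) : MeasurableEmbedding (aff z R) :=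
  (measurableEmbedding_addLeft z).comp (measurableEmbedding_const_smul₀ hR.ne')

lemma map_aff (z : X d) {R : ℝ} (hR : 0 < R) :
    (volume : Measure (X d)).map (aff z R) = ENNReal.ofReal ((R ^ d)⁻¹) • volume := by
  have h : aff z R = (fun y => z + y) ∘ fun x => R • x := rfl
  rw [h, ← Measure.map_map (by fun_prop) (by fun_prop), Measure.map_addHaar_smul volume hR.ne',
    Measure.map_smul, (measurePreserving_add_left volume z).map_eq, finrank_euclideanSpace_fin,
    abs_of_pos (by positivity)]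

lemma lintegral_aff (z : X d) {R : ℝ} (hR : 0 < R) (Ω : Set (X d)) (F : X d → ℝ≥0∞) :
    ∫⁻ x in aff z R ⁻¹' Ω, F (aff z R x) =
      ENNReal.ofReal ((R ^ d)⁻¹) * ∫⁻ y in Ω, F y := by
  rw [← (measurableEmbedding_aff z hR).lintegral_map, ← (measurableEmbedding_aff z hR).restrict_map,
    map_aff z hR, Measure.restrict_smul, lintegral_smul_measure, smul_eq_mul]

lemma cint_aff (v : X d → X d) (z w : X d) {R s : ℝ} (hR : 0 < R) :
    cint (fun y => v (aff z R y)) w s = (R ^ d)⁻¹ • cint v (aff z R w) (R * s) := by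
  have hpre : cube w s = aff z R ⁻¹' cube (aff z R w) (R * s) := by
    ext y
    simp only [mem_preimage, mem_cube, aff, PiLp.add_apply, PiLp.smul_apply, smul_eq_mul]
    refine forall_congr' fun i => ⟨fun h => ⟨?_, ?_⟩, fun h => ⟨?_, ?_⟩⟩
    · nlinarith [h.1]
    · nlinarith [h.2]
    · exact le_of_mul_le_mul_left (by linarith [h.1]) hR
    · exact lt_of_mul_lt_mul_left (by linarith [h.2]) hR.le
  rw [cint, cint, hpre, ← (measurableEmbedding_aff z hR).setIntegral_map, map_aff z hR,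
    Measure.restrict_smul, integral_smul_measure, ENNReal.toReal_ofReal (by positivity)]

variable {f : X d → ℝ}

/-- The rescaled input. -/
def rescale (f : X d → ℝ) (z : X d) (R : ℝ) (y : X d) : ℝ := R ^ d / R * f (aff z R y)

lemma contDiff_rescale (hf : ContDiff ℝ 1 f) (z : X d) (R : ℝ) :
    ContDiff ℝ 1 (rescale f z R) :=
  contDiff_const.mul (hf.comp (contDiff_const.add (contDiff_id.const_smul R)))

lemma vgrad_rescale (hf : ContDiff ℝ 1 f) (z : X d) {R : ℝ} (hR : 0 < R) (y : X d) :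
    vgrad (rescale f z R) y = R ^ d • vgrad f (aff z R y) := by
  have h : HasFDerivAt (rescale f z R) ((R ^ d) • fderiv ℝ f (aff z R y)) y := by
    have h1 : HasFDerivAt (aff z R) (R • ContinuousLinearMap.id ℝ (X d)) y :=
      ((hasFDerivAt_id y).const_smul R).const_add z
    have h2 := ((hf.differentiable one_ne_zero _).hasFDerivAt.comp y h1).const_mul (R ^ d / R)
    refine h2.congr_fderiv ?_
    ext v
    simp only [_root_.smul_apply, ContinuousLinearMap.comp_apply, smul_eq_mul,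
      ContinuousLinearMap.id_apply, map_smul]
    field_simp
  rw [vgrad, gradient, h.fderiv, map_smul]
  rfl

lemma gradA_rescale (hf : ContDiff ℝ 1 f) (z : X d) {R : ℝ} (hR : 0 < R) (x : X d) (r : ℝ) :
    gradA (rescale f z R) x r = R ^ d • gradA f (aff z R x) (R * r) := by
  simp only [gradA, vgrad_rescale hf z hR, integral_smul, aff, smul_add, smul_smul, add_assoc]
  rw [mul_comm]

lemma slopeA_rescale (hf : ContDiff ℝ 1 f) (z : X d) {R : ℝ} (hR : 0 < R) (x : X d) (r : ℝ) :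
    slopeA (rescale f z R) x r = R ^ d * slopeA f (aff z R x) (R * r) := by
  simp only [slopeA, vgrad_rescale hf z hR, real_inner_smul_left, integral_const_mul, aff, smul_add,
    smul_smul, add_assoc]
  ring

lemma cavg_rescale (f : X d → ℝ) (z : X d) (R : ℝ) (x : X d) (r : ℝ) :
    cavg (rescale f z R) (x, r) = R ^ d / R * cavg f (aff z R x, R * r) := by
  simp only [cavg, rescale, integral_const_mul, aff, smul_add, smul_smul, add_assoc]
  ring

lemma dint_rescale (hf : ContDiff ℝ 1 f) (z : X d) {R : ℝ} (hR : 0 < R) (j : ℕ) (k : Fin d → ℤ) :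
    dint (rescale f z R) j k = cint (vgrad f) (z + (R / 2 ^ j) • iv k) (R / 2 ^ j) := by
  have e : aff z R (dcorner j k) = z + (R / 2 ^ j) • iv k := by
    ext i
    simp [aff, dcorner, iv]
    ring
  have h : (fun y => vgrad (rescale f z R) y) = fun y => R ^ d • vgrad f (aff z R y) :=
    funext (vgrad_rescale hf z hR)
  rw [dint, show cint (vgrad (rescale f z R)) = cint (fun y => R ^ d • vgrad f (aff z R y)) by
    rw [← h], show cint (fun y => R ^ d • vgrad f (aff z R y)) (dcorner j k) ((2:ℝ) ^ j)⁻¹ =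
      R ^ d • cint (fun y => vgrad f (aff z R y)) (dcorner j k) ((2:ℝ) ^ j)⁻¹ from
      integral_smul _ _, cint_aff _ _ _ hR, smul_smul, mul_inv_cancel₀ (by positivity), one_smul, e,
    div_eq_mul_inv]

/-- The core estimate with explicit constants. -/
def CoreC (d : ℕ) (η lam q C C' : ℝ) : Prop :=
    ∀ (f : X d → ℝ), ContDiff ℝ 1 f → ∀ (e : X d), ‖e‖ ≤ 1 →
    ∀ (lo up ρ : X d → ℝ), (∀ x y, |lo x - lo y| ≤ lam * ‖x - y‖) →
      (∀ x y, |up x - up y| ≤ lam * ‖x - y‖) → Measurable ρ →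
    ∀ (Ω : Set (X d)), MeasurableSet Ω → Ω ⊆ cube 0 1 →
      (∀ x ∈ Ω, 1 ≤ ρ x ∧ ρ x ≤ 2 ∧ lo x ≤ ρ x ∧ ρ x ≤ up x ∧
        ∀ t, lo x ≤ t → t ≤ up x → cavg f (x, t) ≤ cavg f (x, ρ x)) →
      ∫⁻ x in Ω, ENNReal.ofReal (‖gradA f x (ρ x)‖ + |slopeA f x (ρ x)| -
          C * (⟪e, gradA f x (ρ x)⟫ - lam * |slopeA f x (ρ x)|)) ≤
        ENNReal.ofReal C' * ∑' j : ℕ, ENNReal.ofReal (q ^ j * badMass η e f j)

/-- The bad mass of the cubes of side `R / 2 ^ j` near the cube with corner `z` and side `R`. -/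
def badNear (η : ℝ) (e : X d) (f : X d → ℝ) (z : X d) (R : ℝ) (j : ℕ) : ℝ :=
  ∑ k ∈ dbox d 8 j, bad η e (cint (vgrad f) (z + (R / 2 ^ j) • iv k) (R / 2 ^ j))

theorem core_scaled {η lam q C C' : ℝ} (hcore : CoreC d η lam q C C') (hf : ContDiff ℝ 1 f)
    {e : X d} (he : ‖e‖ ≤ 1) (z : X d) {R : ℝ} (hR : 0 < R) {lo up ρ : X d → ℝ}
    (hlo : ∀ x y, |lo x - lo y| ≤ lam * ‖x - y‖) (hup : ∀ x y, |up x - up y| ≤ lam * ‖x - y‖)
    (hρ : Measurable ρ) {Ω : Set (X d)} (hΩ : MeasurableSet Ω) (hsub : Ω ⊆ cube z R)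
    (hmax : ∀ x ∈ Ω, R ≤ ρ x ∧ ρ x ≤ 2 * R ∧ lo x ≤ ρ x ∧ ρ x ≤ up x ∧
      ∀ t, lo x ≤ t → t ≤ up x → cavg f (x, t) ≤ cavg f (x, ρ x)) :
    ∫⁻ x in Ω, ENNReal.ofReal (‖gradA f x (ρ x)‖ + |slopeA f x (ρ x)| -
        C * (⟪e, gradA f x (ρ x)⟫ - lam * |slopeA f x (ρ x)|)) ≤
      ENNReal.ofReal C' * ∑' j : ℕ, ENNReal.ofReal (q ^ j * badNear η e f z R j) := by
  have hlip : ∀ g : X d → ℝ, (∀ x y, |g x - g y| ≤ lam * ‖x - y‖) →
      ∀ x y, |g (aff z R x) / R - g (aff z R y) / R| ≤ lam * ‖x - y‖ := fun g hg x y => by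
    rw [← sub_div, abs_div, abs_of_pos hR, div_le_iff₀ hR]
    refine (hg _ _).trans (le_of_eq ?_)
    rw [aff, aff, add_sub_add_left_eq_sub, ← smul_sub, norm_smul, Real.norm_of_nonneg hR.le]
    ring
  have h := hcore (rescale f z R) (contDiff_rescale hf z R) e he
    (fun x => lo (aff z R x) / R) (fun x => up (aff z R x) / R) (fun x => ρ (aff z R x) / R)
    (hlip lo hlo) (hlip up hup)
    ((hρ.comp (measurableEmbedding_aff z hR).measurable).div_const R) (aff z R ⁻¹' Ω)
    ((measurableEmbedding_aff z hR).measurable hΩ)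
    (fun x hx i => by
      have h1 := hsub hx i
      simp only [aff, PiLp.add_apply, PiLp.smul_apply, smul_eq_mul] at h1
      constructor
      · simpa using le_of_mul_le_mul_left (by linarith : R * 0 ≤ R * x i) hR
      · simpa using lt_of_mul_lt_mul_left (by linarith : R * x i < R * 1) hR.le)
    (fun x hx => by
      obtain ⟨h1, h2, h3, h4, h5⟩ := hmax _ hx
      refine ⟨(one_le_div hR).2 h1, (div_le_iff₀ hR).2 h2,
        (div_le_div_iff_of_pos_right hR).2 h3, (div_le_div_iff_of_pos_right hR).2 h4,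
        fun t ht ht' => ?_⟩
      rw [cavg_rescale, cavg_rescale, mul_div_cancel₀ _ hR.ne']
      exact mul_le_mul_of_nonneg_left (h5 _ ((div_le_iff₀' hR).1 ht) ((le_div_iff₀' hR).1 ht'))
        (by positivity))
  simp only [gradA_rescale hf z hR, slopeA_rescale hf z hR, mul_div_cancel₀ _ hR.ne', norm_smul,
    real_inner_smul_right, abs_mul, Real.norm_eq_abs, abs_pow, abs_of_pos hR] at h
  have e1 : ∀ y : X d, R ^ d * ‖gradA f y (ρ y)‖ + R ^ d * |slopeA f y (ρ y)| -
      C * (R ^ d * ⟪e, gradA f y (ρ y)⟫ - lam * (R ^ d * |slopeA f y (ρ y)|)) =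
      R ^ d * (‖gradA f y (ρ y)‖ + |slopeA f y (ρ y)| -
        C * (⟪e, gradA f y (ρ y)⟫ - lam * |slopeA f y (ρ y)|)) := fun y => by ring
  simp only [e1, ENNReal.ofReal_mul (pow_nonneg hR.le d)] at h
  rw [lintegral_aff z hR Ω (fun y => ENNReal.ofReal (R ^ d) *
      ENNReal.ofReal (‖gradA f y (ρ y)‖ + |slopeA f y (ρ y)| -
        C * (⟪e, gradA f y (ρ y)⟫ - lam * |slopeA f y (ρ y)|))),
    lintegral_const_mul' _ _ ENNReal.ofReal_ne_top, ← mul_assoc,
    ← ENNReal.ofReal_mul (by positivity), inv_mul_cancel₀ (by positivity), ENNReal.ofReal_one,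
    one_mul] at h
  simpa only [badMass, badNear, dint_rescale hf z hR] using h

end Vale.Agent.P137.Centred
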