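import Vale.Agent.P137.Centred.Outer.Average

/-!
P137, centred operator, outer part: the total error of all the trees, averaged.
-/

open MeasureTheory Metric Set Filter
open scoped ENNReal Topology RealInnerProductSpace

noncomputable section

namespace Vale.Agent.P137.Centred

variable {d : ℕ}

/-- The excesses of the sub-cubes of level `n + i + j`, in cubes near the boundary of a child of a
cube of level `n`, over the direction of that cube. -/
def errAt (v : X d → X d) (a : X d) (L : ℝ) (Cn n i j : ℕ) : ℝ≥0∞ :=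
  ∑' P : Fin d → ℤ, ∑ o ∈ nearOff d Cn i, ∑ o' ∈ off d j,
    ENNReal.ofReal (excess (gdir v a L n P) (gint v a L (n + (i + j)) (sub2 (i + j) P (sub2 j o o'))))

/-- The losses of mass of the cubes of level `n + i` near the boundary of a child of a cube of
level `n`. -/
def lossAt (v : X d → X d) (a : X d) (L : ℝ) (Cn n i : ℕ) : ℝ≥0∞ :=
  ∑' P : Fin d → ℤ, ∑ o ∈ nearOff d Cn i,
    loss v (lev L (n + i)) (a + lev L (n + i) • iv (sub2 i P o))

/-- The total error above level `N`. -/
def errTot (v : X d → X d) (a : X d) (L q : ℝ) (Cn N : ℕ) : ℝ≥0∞ :=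
  (∑ i ∈ Finset.range (N + 1), ∑ n ∈ Finset.range (N + 1 - i),
    ∑' j : ℕ, ENNReal.ofReal (q ^ j) * errAt v a L Cn n i j) +
  (∑ i ∈ Finset.range (N + 1), lossAt v a L Cn (N - i) i) +
  ∑ n ∈ Finset.range N, ∑' P : Fin d → ℤ, drop v a L n P

lemma sub2_mem_off {i j : ℕ} {o o' : Fin d → ℤ} (ho : o ∈ off d i) (ho' : o' ∈ off d j) :
    sub2 j o o' ∈ off d (i + j) := mem_off.2 fun c => by
  obtain ⟨h1, h2⟩ := mem_off.1 ho c
  obtain ⟨h3, h4⟩ := mem_off.1 ho' c
  have hp : (0:ℤ) < 2 ^ j := by positivity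
  simp only [sub2]
  rw [pow_add]
  constructor
  · positivity
  · nlinarith [mul_le_mul_of_nonneg_left (Int.add_one_le_iff.2 h2) hp.le]

lemma selfExc_le_errAt (v : X d → X d) (a : X d) (L : ℝ) (Cn n : ℕ) :
    ∑' k : Fin d → ℤ, selfExc v a L n k ≤ errAt v a L Cn n 0 0 := by
  refine ENNReal.tsum_le_tsum fun P => ?_
  have h0 : (fun _ : Fin d => (0 : ℤ)) ∈ off d 0 := mem_off.2 fun _ => by simp
  refine le_trans ?_ (Finset.single_le_sum (fun _ _ => zero_le)
    (show (fun _ : Fin d => (0 : ℤ)) ∈ nearOff d Cn 0 by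
      simp [nearOff, nearAt, h0]))
  refine le_trans (le_of_eq ?_) (Finset.single_le_sum (fun _ _ => zero_le) h0)
  rw [show sub2 (0 + 0) P (sub2 0 (fun _ : Fin d => (0 : ℤ)) fun _ => 0) = P from
    funext fun c => by simp [sub2]]
  simp [selfExc]

/-! ### Series -/

/-- The series `∑ (i + 1) r ^ i`. -/
def geo1 (r : ℝ) : ℝ≥0∞ := ∑' i : ℕ, ENNReal.ofReal (((i : ℝ) + 1) * r ^ i)

lemma geo1_ne_top {r : ℝ} (h0 : 0 ≤ r) (h1 : r < 1) : geo1 r ≠ ⊤ := by
  have hs : Summable fun i : ℕ => ((i : ℝ) + 1) * r ^ i := by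
    have e1 := summable_pow_mul_geometric_of_norm_lt_one 1
      (show ‖r‖ < 1 by rwa [Real.norm_of_nonneg h0])
    have e2 := summable_geometric_of_lt_one h0 h1
    simpa [add_mul] using (e1.add e2)
  rw [geo1, ← ENNReal.ofReal_tsum_of_nonneg (fun i => by positivity) hs]
  exact ENNReal.ofReal_ne_top

lemma sum_shift_le {mm : ℕ → ℝ≥0∞} (hmono : Monotone mm) {I : ℝ≥0∞} (hI : ∀ n, mm n ≤ I)
    (M p : ℕ) :
    ∑ n ∈ Finset.range M, (mm (n + p) - mm n) ≤ p * (I - mm 0) := by
  induction p with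
  | zero => simp
  | succ p ih =>
    calc ∑ n ∈ Finset.range M, (mm (n + (p + 1)) - mm n)
        ≤ ∑ n ∈ Finset.range M, ((mm (n + (p + 1)) - mm (n + p)) + (mm (n + p) - mm n)) :=
          Finset.sum_le_sum fun n _ => tsub_le_tsub_add_tsub
      _ ≤ (I - mm 0) + p * (I - mm 0) := by
          rw [Finset.sum_add_distrib]
          refine add_le_add ?_ ih
          have : ∀ M, ∑ n ∈ Finset.range M, (mm (n + (p + 1)) - mm (n + p)) = mm (M + p) - mm p := by
            intro M
            induction M with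
            | zero => simp
            | succ M ihM =>
              rw [Finset.sum_range_succ, ihM, show M + (p + 1) = M + 1 + p by omega, add_comm,
                tsub_add_tsub_cancel (hmono (by omega)) (hmono (by omega))]
          rw [this]
          exact tsub_le_tsub (hI _) (hmono (Nat.zero_le _))
      _ = ((p + 1 : ℕ) : ℝ≥0∞) * (I - mm 0) := by push_cast; ring

section Bounds

variable {v : X d → X d} {L : ℝ}

theorem lintegral_errAt (hv : Integrable v) (hL : 0 < L) (Cn n i j : ℕ) :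
    ∫⁻ a in cube (0 : X d) L, errAt v a L Cn n i j ≤
      ENNReal.ofReal (L ^ d) * ((2:ℝ≥0∞) ^ d * ((4 * d * Cn + 1 : ℕ) : ℝ≥0∞) *
        (((2:ℝ≥0∞) ^ i)⁻¹ * excMass v (lev L (n + (i + j))) (i + j + 1))) := by
  classical
  have hm : ∀ (P o : Fin d → ℤ), Measurable fun a =>
      ENNReal.ofReal (excess (gdir v a L n P) (gint v a L (n + (i + j)) o)) := fun P o =>
    measurable_ofReal_excess ((measurable_ebar hv.1 _).fun_comp (measurable_add_const _))
      ((measurable_cint hv.1 _).fun_comp (measurable_add_const _))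
  unfold errAt
  rw [lintegral_tsum fun P => (Finset.measurable_sum _ fun o _ =>
    Finset.measurable_sum _ fun o' _ => hm P _).aemeasurable]
  simp only [lintegral_finsetSum _ fun o _ => Finset.measurable_sum _ fun o' _ => hm _ _,
    lintegral_finsetSum _ fun o' _ => hm _ _]
  rw [Summable.tsum_finsetSum fun o _ => ENNReal.summable]
  simp only [Summable.tsum_finsetSum fun _ _ => ENNReal.summable]
  have h1 : ∀ o ∈ nearOff d Cn i, ∀ o' ∈ off d j,
      ∑' P : Fin d → ℤ, ∫⁻ a in cube (0 : X d) L,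
          ENNReal.ofReal (excess (gdir v a L n P)
            (gint v a L (n + (i + j)) (sub2 (i + j) P (sub2 j o o')))) ≤
        ENNReal.ofReal (L ^ d) * ((2:ℝ≥0∞) ^ d * ((2:ℝ≥0∞) ^ ((i + j) * d))⁻¹ *
          excMass v (lev L (n + (i + j))) (i + j + 1)) := fun o ho o' ho' => by
    rw [← lintegral_tsum fun P => (hm P _).aemeasurable]
    exact lintegral_level_excess hv hL n (i + j)
      (sub2_mem_off (Finset.filter_subset _ _ ho) ho')
  refine (Finset.sum_le_sum fun o ho => Finset.sum_le_sum fun o' ho' => h1 o ho o' ho').trans ?_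
  simp only [Finset.sum_const, nsmul_eq_mul, card_off, Nat.cast_pow, Nat.cast_ofNat]
  set E := excMass v (lev L (n + (i + j))) (i + j + 1)
  set V := ENNReal.ofReal (L ^ d)
  have e : ((2:ℝ≥0∞) ^ (j * d)) * ((2:ℝ≥0∞) ^ ((i + j) * d))⁻¹ = ((2:ℝ≥0∞) ^ (i * d))⁻¹ := by
    rw [add_mul, pow_add, ENNReal.mul_inv (Or.inl (by positivity))
      (Or.inl (ENNReal.pow_ne_top (by norm_num))), mul_left_comm,
      ENNReal.mul_inv_cancel (by positivity) (ENNReal.pow_ne_top (by norm_num)), mul_one]
  calc ((nearOff d Cn i).card : ℝ≥0∞) *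
        ((2:ℝ≥0∞) ^ (j * d) * (V * ((2:ℝ≥0∞) ^ d * ((2:ℝ≥0∞) ^ ((i + j) * d))⁻¹ * E)))
      = V * ((2:ℝ≥0∞) ^ d * (((nearOff d Cn i).card : ℝ≥0∞) *
          ((2:ℝ≥0∞) ^ (j * d) * ((2:ℝ≥0∞) ^ ((i + j) * d))⁻¹)) * E) := by ring
    _ ≤ V * ((2:ℝ≥0∞) ^ d * (((4 * d * Cn + 1 : ℕ) : ℝ≥0∞) * ((2:ℝ≥0∞) ^ i)⁻¹) * E) := by
        rw [e]
        exact mul_le_mul_right (mul_le_mul_left (mul_le_mul_right (nearOff_weight d Cn i) _) _) _
    _ = _ := by ring

theorem lintegral_lossAt (hv : Continuous v) (hvi : Integrable v) (hL : 0 < L) (Cn n i : ℕ) :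
    ∫⁻ a in cube (0 : X d) L, lossAt v a L Cn n i ≤
      ENNReal.ofReal (L ^ d) * (((4 * d * Cn + 1 : ℕ) : ℝ≥0∞) * ((2:ℝ≥0∞) ^ i)⁻¹ *
        ((∫⁻ y, ‖v y‖ₑ) - cmass v (lev L (n + i)))) := by
  classical
  have hl := lev_pos hL (n + i)
  set l := lev L (n + i) with hl'
  have hm : ∀ w : X d, Measurable fun z => loss v l (z + w) := fun w =>
    (measurable_loss hv l).fun_comp (measurable_add_const w)
  have e1 : ∀ (a : X d) (P o : Fin d → ℤ),
      loss v l (a + l • iv (sub2 i P o)) = loss v l (a + lev L n • iv P + l • iv o) := fun a P o => by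
    congr 1
    ext c
    simp only [grid_apply, sub2]
    rw [lev_add L n i, ← hl']
    push_cast
    ring
  unfold lossAt
  rw [lintegral_tsum fun P => (Finset.measurable_sum _ fun o _ => hm _).aemeasurable]
  simp only [lintegral_finsetSum _ fun o _ => hm _]
  rw [Summable.tsum_finsetSum fun o _ => ENNReal.summable]
  have h1 : ∀ o ∈ nearOff d Cn i, ∑' P : Fin d → ℤ,
      ∫⁻ a in cube (0 : X d) L, loss v l (a + l • iv (sub2 i P o)) =
      ENNReal.ofReal (L ^ d) * (((2:ℝ≥0∞) ^ (i * d))⁻¹ * ((∫⁻ y, ‖v y‖ₑ) - cmass v l)) := by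
    intro o _
    rw [← lintegral_tsum fun P => (hm _).aemeasurable]
    simp only [e1]
    rw [lintegral_level hL n (hm (l • iv o)),
      lintegral_add_right_eq_self (fun z => loss v l z) (l • iv o), lintegral_loss hv hvi hl,
      ← mul_assoc (ENNReal.ofReal (lev L n ^ d))⁻¹, ← ENNReal.ofReal_inv_of_pos (by
        have := lev_pos hL n; positivity), ← ENNReal.ofReal_mul (by have := lev_pos hL n; positivity)]
    congr 2
    rw [lev_add L n i, ← hl', show ((2 ^ i * l) ^ d)⁻¹ * l ^ d = ((2:ℝ) ^ (i * d))⁻¹ by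
      rw [mul_pow, ← pow_mul]; field_simp, ENNReal.ofReal_inv_of_pos (by positivity),
      ENNReal.ofReal_pow zero_le_two, ENNReal.ofReal_ofNat]
  rw [Finset.sum_congr rfl h1, Finset.sum_const, nsmul_eq_mul, mul_left_comm, ← mul_assoc
    ((nearOff d Cn i).card : ℝ≥0∞)]
  exact mul_le_mul_right (mul_le_mul_left (nearOff_weight d Cn i) _) _

theorem lintegral_errTot_le (d : ℕ) (Cn : ℕ) {q : ℝ} (hq0 : 0 < q) (hq1 : q < 1) :
    ∃ C : ℝ≥0∞, C ≠ ⊤ ∧ ∀ (v : X d → X d), Continuous v → Integrable v → ∀ (L : ℝ), 0 < L →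
      ∀ N : ℕ, ∫⁻ a in cube (0 : X d) L, errTot v a L q Cn N ≤
        ENNReal.ofReal (L ^ d) * (C * ((∫⁻ y, ‖v y‖ₑ) - cmass v (2 * L))) := by
  obtain ⟨Cw, hCw, hW⟩ := whitneyEst d
  set A : ℝ≥0∞ := (2:ℝ≥0∞) ^ d * ((4 * d * Cn + 1 : ℕ) : ℝ≥0∞) * ENNReal.ofReal Cw
  set G : ℝ≥0∞ := geo1 (1 / 2) * geo1 q * geo1 (1 / 2)
  set B : ℝ≥0∞ := ((4 * d * Cn + 1 : ℕ) : ℝ≥0∞) * geo1 (1 / 2)
  have hG : G ≠ ⊤ := by
    have := geo1_ne_top (r := 1 / 2) (by norm_num) (by norm_num)
    exact ENNReal.mul_ne_top (ENNReal.mul_ne_top this (geo1_ne_top hq0.le hq1)) this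
  have hA : A ≠ ⊤ := ENNReal.mul_ne_top (ENNReal.mul_ne_top (ENNReal.pow_ne_top (by norm_num))
    (ENNReal.natCast_ne_top _)) ENNReal.ofReal_ne_top
  have hB : B ≠ ⊤ := ENNReal.mul_ne_top (ENNReal.natCast_ne_top _)
    (geo1_ne_top (by norm_num) (by norm_num))
  refine ⟨A * G + B + 1, by simp [ENNReal.mul_ne_top hA hG, hB], ?_⟩
  intro v hv hvi L hL N
  set I := ∫⁻ y, ‖v y‖ₑ with hI'
  set mm : ℕ → ℝ≥0∞ := fun n => cmass v (lev (2 * L) n) with hmm
  set D := I - cmass v (2 * L) with hD'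
  have hlp : ∀ n, 0 < lev (2 * L) n := fun n => lev_pos (by linarith) n
  have hmono : Monotone mm := monotone_nat_of_le_succ fun n => by
    simp only [hmm]
    rw [lev_add (2 * L) n 1, pow_one]
    exact cmass_two_mul hvi (hlp _)
  have hle : ∀ n, mm n ≤ I := fun n => cmass_le hvi (hlp _)
  have hm0 : mm 0 = cmass v (2 * L) := by simp [hmm, lev]
  have hsum : ∀ M p, ∑ n ∈ Finset.range M, (mm (n + p) - mm n) ≤ (p : ℝ≥0∞) * D := fun M p => by
    rw [hD', ← hm0]; exact sum_shift_le hmono hle M p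
  have h2 : ∀ i : ℕ, ((2:ℝ≥0∞) ^ i)⁻¹ = ENNReal.ofReal ((1 / 2) ^ i) := fun i => by
    rw [div_pow, one_pow, one_div, ENNReal.ofReal_inv_of_pos (by positivity),
      ENNReal.ofReal_pow zero_le_two, ENNReal.ofReal_ofNat]
  have hexc : ∀ n i j, excMass v (lev L (n + (i + j))) (i + j + 1) ≤
      ENNReal.ofReal Cw * ∑' k : ℕ, ((2:ℝ≥0∞) ^ k)⁻¹ * (mm (n + (i + j + k + 1)) - mm n) := by
    intro n i j
    refine (hW v hv hvi _ (lev_pos hL _) _).trans (le_of_eq ?_)
    congr 1
    refine tsum_congr fun k => ?_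
    have e1 : lev L (n + (i + j)) / 2 ^ k = lev (2 * L) (n + (i + j + k + 1)) := by
      simp only [lev]; rw [show n + (i + j + k + 1) = n + (i + j) + k + 1 by omega]
      simp only [pow_succ, pow_add]; field_simp
    have e2 : lev L (n + (i + j)) * 2 ^ (i + j + 1) = lev (2 * L) n := by
      simp only [lev, pow_succ, pow_add]; field_simp
    simp only [hmm, e1, e2]
  have hmE : ∀ n i j, Measurable fun a => errAt v a L Cn n i j := fun n i j =>
    Measurable.tsum fun P => Finset.measurable_sum _ fun o _ =>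
      Finset.measurable_sum _ fun o' _ =>
        measurable_ofReal_excess ((measurable_ebar hvi.1 _).fun_comp (measurable_add_const _))
          ((measurable_cint hvi.1 _).fun_comp (measurable_add_const _))
  have hmL : ∀ n i, Measurable fun a => lossAt v a L Cn n i := fun n i =>
    Measurable.tsum fun P => Finset.measurable_sum _ fun o _ =>
      (measurable_loss hv _).fun_comp (measurable_add_const _)
  have hmD : ∀ n, Measurable fun a => ∑' P : Fin d → ℤ, drop v a L n P := fun n =>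
    Measurable.tsum fun P => (Finset.measurable_sum _ fun c _ =>
      ((measurable_cint hvi.1 _).fun_comp (measurable_add_const _)).enorm).sub
      ((measurable_cint hvi.1 _).fun_comp (measurable_add_const _)).enorm
  set V := ENNReal.ofReal (L ^ d)
  have h1 : ∑ i ∈ Finset.range (N + 1), ∑ n ∈ Finset.range (N + 1 - i),
      ∫⁻ a in cube (0 : X d) L, ∑' j : ℕ, ENNReal.ofReal (q ^ j) * errAt v a L Cn n i j ≤
      V * (A * G * D) := by
    calc ∑ i ∈ Finset.range (N + 1), ∑ n ∈ Finset.range (N + 1 - i),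
          ∫⁻ a in cube (0 : X d) L, ∑' j : ℕ, ENNReal.ofReal (q ^ j) * errAt v a L Cn n i j
        ≤ ∑ i ∈ Finset.range (N + 1), ∑ n ∈ Finset.range (N + 1 - i), ∑' j : ℕ, ∑' k : ℕ,
            V * A * (ENNReal.ofReal ((1 / 2) ^ i) * ENNReal.ofReal (q ^ j) *
              ENNReal.ofReal ((1 / 2) ^ k) * (mm (n + (i + j + k + 1)) - mm n)) := by
          refine Finset.sum_le_sum fun i _ => Finset.sum_le_sum fun n _ => ?_
          rw [lintegral_tsum fun j => ((hmE n i j).const_mul _).aemeasurable]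
          refine ENNReal.tsum_le_tsum fun j => ?_
          rw [lintegral_const_mul' _ _ ENNReal.ofReal_ne_top]
          refine (mul_le_mul_right ((lintegral_errAt hvi hL Cn n i j).trans
            (mul_le_mul_right (mul_le_mul_right (mul_le_mul_right (hexc n i j) _) _) _)) _).trans
            (le_of_eq ?_)
          simp only [← ENNReal.tsum_mul_left, h2]
          exact tsum_congr fun k => by simp only [A]; ring
      _ = ∑ i ∈ Finset.range (N + 1), ∑' j : ℕ, ∑' k : ℕ,
            V * A * (ENNReal.ofReal ((1 / 2) ^ i) * ENNReal.ofReal (q ^ j) *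
              ENNReal.ofReal ((1 / 2) ^ k) *
              ∑ n ∈ Finset.range (N + 1 - i), (mm (n + (i + j + k + 1)) - mm n)) := by
          refine Finset.sum_congr rfl fun i _ => ?_
          rw [← Summable.tsum_finsetSum fun n _ => ENNReal.summable]
          refine tsum_congr fun j => ?_
          rw [← Summable.tsum_finsetSum fun n _ => ENNReal.summable]
          simp only [Finset.mul_sum]
      _ ≤ ∑' i : ℕ, ∑' j : ℕ, ∑' k : ℕ, V * A * (ENNReal.ofReal (((i : ℝ) + 1) * (1 / 2) ^ i) *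
            ENNReal.ofReal (((j : ℝ) + 1) * q ^ j) *
            ENNReal.ofReal (((k : ℝ) + 1) * (1 / 2) ^ k) * D) := by
          refine le_trans (Finset.sum_le_sum fun i _ => ENNReal.tsum_le_tsum fun j =>
            ENNReal.tsum_le_tsum fun k => ?_) (ENNReal.sum_le_tsum _)
          refine mul_le_mul_right ((mul_le_mul_right (hsum _ _) _).trans ?_) _
          rw [← mul_assoc]
          refine mul_le_mul_left ?_ _
          rw [← ENNReal.ofReal_natCast, ← ENNReal.ofReal_mul (by positivity),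
            ← ENNReal.ofReal_mul (by positivity), ← ENNReal.ofReal_mul (by positivity),
            ← ENNReal.ofReal_mul (by positivity), ← ENNReal.ofReal_mul (by positivity)]
          refine ENNReal.ofReal_le_ofReal ?_
          have hx : ((i + j + k + 1 : ℕ) : ℝ) ≤ ((i:ℝ) + 1) * ((j:ℝ) + 1) * ((k:ℝ) + 1) := by
            have hN : i + j + k + 1 ≤ (i + 1) * (j + 1) * (k + 1) := by ring_nf; omega
            exact_mod_cast hN
          calc (1 / 2 : ℝ) ^ i * q ^ j * (1 / 2) ^ k * ((i + j + k + 1 : ℕ) : ℝ)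
              ≤ (1 / 2 : ℝ) ^ i * q ^ j * (1 / 2) ^ k *
                  (((i:ℝ) + 1) * ((j:ℝ) + 1) * ((k:ℝ) + 1)) :=
                mul_le_mul_of_nonneg_left hx (by positivity)
            _ = _ := by ring
      _ = V * (A * G * D) := by
          simp only [mul_assoc, ENNReal.tsum_mul_left, G, geo1]
          simp only [← mul_assoc, ENNReal.tsum_mul_right]
  have h3 : ∑ i ∈ Finset.range (N + 1), ∫⁻ a in cube (0 : X d) L, lossAt v a L Cn (N - i) i ≤
      V * (B * D) := by
    calc ∑ i ∈ Finset.range (N + 1), ∫⁻ a in cube (0 : X d) L, lossAt v a L Cn (N - i) i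
        ≤ ∑ i ∈ Finset.range (N + 1), V * (((4 * d * Cn + 1 : ℕ) : ℝ≥0∞) *
            ENNReal.ofReal (((i : ℝ) + 1) * (1 / 2) ^ i) * D) := by
          refine Finset.sum_le_sum fun i hi => (lintegral_lossAt hv hvi hL Cn _ i).trans ?_
          rw [h2]
          refine mul_le_mul_right (mul_le_mul (mul_le_mul_right (ENNReal.ofReal_le_ofReal
            (le_mul_of_one_le_left (by positivity) (by simp))) _) ?_ zero_le zero_le) _
          rw [hD', ← hm0, show N - i + i = N by have := Finset.mem_range.1 hi; omega,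
            show lev L N = lev (2 * L) (N + 1) by simp only [lev, pow_succ]; field_simp]
          exact tsub_le_tsub le_rfl (hmono (Nat.zero_le _))
      _ ≤ V * (B * D) := by
          rw [← Finset.mul_sum, ← Finset.sum_mul, ← Finset.mul_sum]
          exact mul_le_mul_right (mul_le_mul_left (mul_le_mul_right (ENNReal.sum_le_tsum _) _) _) _
  have h4 : ∑ n ∈ Finset.range N, ∫⁻ a in cube (0 : X d) L, ∑' P : Fin d → ℤ, drop v a L n P ≤
      V * (1 * D) := by
    simp only [lintegral_drop hvi hL, ← Finset.mul_sum]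
    refine mul_le_mul_right ?_ _
    have e : ∀ n, lev L n = lev (2 * L) (n + 1) := fun n => by
      simp only [lev, pow_succ]; field_simp
    simp only [e]
    rw [hD', ← hm0, one_mul]
    refine le_trans ?_ (tsub_le_tsub (hle (N + 1)) (hmono (Nat.zero_le 1)))
    refine le_of_eq ?_
    have htel : ∀ M, ∑ n ∈ Finset.range M, (mm (n + 1 + 1) - mm (n + 1)) = mm (M + 1) - mm 1 := by
      intro M
      induction M with
      | zero => simp
      | succ M ih =>
        rw [Finset.sum_range_succ, ih, add_comm]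
        exact tsub_add_tsub_cancel (hmono (Nat.le_succ _)) (hmono (by omega))
    exact htel N
  unfold errTot
  rw [lintegral_add_left ((Finset.measurable_sum _ fun i _ => Finset.measurable_sum _ fun n _ =>
      Measurable.tsum fun j => (hmE n i j).const_mul _).fun_add
      (Finset.measurable_sum _ fun i _ => hmL _ _)),
    lintegral_add_left (Finset.measurable_sum _ fun i _ => Finset.measurable_sum _ fun n _ =>
      Measurable.tsum fun j => (hmE n i j).const_mul _),
    lintegral_finsetSum _ fun i _ => Finset.measurable_sum _ fun n _ =>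
      Measurable.tsum fun j => (hmE n i j).const_mul _,
    lintegral_finsetSum _ fun i _ => hmL _ _, lintegral_finsetSum _ fun n _ => hmD n]
  simp only [lintegral_finsetSum _ fun n _ => Measurable.tsum fun j =>
    (hmE n _ j).const_mul (ENNReal.ofReal (q ^ j))]
  refine (add_le_add (add_le_add h1 h3) h4).trans (le_of_eq ?_)
  ring

end Bounds

end Vale.Agent.P137.Centred
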