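import Vale.Agent.P137.Centred.Outer.MaxFn
import Vale.Agent.P137.Centred.Outer.Scaled
import Vale.Agent.P137.Centred.Outer.Sum

/-!
P137, centred operator, outer part: the error of the maximal function of one tree.
-/

open MeasureTheory Metric Set Filter
open scoped ENNReal Topology RealInnerProductSpace NNReal

noncomputable section

namespace Vale.Agent.P137.Centred

variable {d : ℕ}

/-- The constants of the outer part, given those of the core estimate. -/
structure Par (d : ℕ) where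
  η : ℝ
  lam : ℝ
  q : ℝ
  C : ℝ
  C' : ℝ
  η_pos : 0 < η
  η_lt : η < 1
  lam_pos : 0 < lam
  q_pos : 0 < q
  q_lt : q < 1
  C_one : 1 ≤ C
  C'_nonneg : 0 ≤ C'
  core : CoreC d η lam q C C'

namespace Par

variable (P : Par d)

/-- The slope of the upper edge. -/
def θ : ℝ≥0 := Real.toNNReal (min P.lam (1 / (32 * ((d:ℝ) + 1))))

/-- The slope of the lower edge. -/
def θ' : ℝ≥0 := P.θ / Real.toNNReal (8 * ((d:ℝ) + 1) ^ 2)

/-- The reach of the boundary layers. -/
def Cn : ℕ := ⌈16 * ((d:ℝ) + 1) + 2 / (P.θ' : ℝ)⌉₊ + 1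

/-- The constant of the cone. -/
def C1 : ℝ := max P.C (1 / (1 - P.η))

lemma θ_pos : 0 < (P.θ : ℝ) := by
  simp only [θ, Real.coe_toNNReal']
  exact lt_max_of_lt_left (lt_min P.lam_pos (by positivity))

lemma θ_le : (P.θ : ℝ) ≤ P.lam ∧ (P.θ : ℝ) ≤ 1 / (32 * ((d:ℝ) + 1)) ∧ (P.θ : ℝ) < 1 := by
  have h : (P.θ : ℝ) = min P.lam (1 / (32 * ((d:ℝ) + 1))) := by
    simp only [θ, Real.coe_toNNReal']
    exact max_eq_left (le_min P.lam_pos.le (by positivity))
  rw [h]
  refine ⟨min_le_left _ _, min_le_right _ _, lt_of_le_of_lt (min_le_right _ _) ?_⟩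
  rw [div_lt_one (by positivity)]
  linarith [Nat.cast_nonneg (α := ℝ) d]

lemma θ'_eq : (P.θ' : ℝ) = (P.θ : ℝ) / (8 * ((d:ℝ) + 1) ^ 2) := by
  rw [θ', NNReal.coe_div, Real.coe_toNNReal _ (by positivity)]

lemma θ'_pos : 0 < (P.θ' : ℝ) := by rw [θ'_eq]; exact div_pos P.θ_pos (by positivity)

lemma θ'_le : P.θ' ≤ P.θ := by
  rw [← NNReal.coe_le_coe, θ'_eq]
  exact div_le_self P.θ.2 (by nlinarith [Nat.cast_nonneg (α := ℝ) d])

lemma lt_Cn : 16 * ((d:ℝ) + 1) + 2 / (P.θ' : ℝ) < P.Cn := by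
  have h := Nat.le_ceil (16 * ((d:ℝ) + 1) + 2 / (P.θ' : ℝ))
  simp only [Cn, Nat.cast_add, Nat.cast_one]
  linarith

lemma C1_spec : 1 ≤ P.C1 * (1 - P.η) ∧ P.C ≤ P.C1 ∧ 1 ≤ P.C1 := by
  have h : 0 < 1 - P.η := sub_pos.2 P.η_lt
  refine ⟨?_, le_max_left _ _, P.C_one.trans (le_max_left _ _)⟩
  have := mul_le_mul_of_nonneg_right (le_max_right P.C (1 / (1 - P.η))) h.le
  rwa [div_mul_cancel₀ _ h.ne'] at this

end Par

/-! ### The edges of a tree -/

section Tree

variable (P : Par d) (f : X d → ℝ) (a : X d) (L : ℝ) (N : ℕ) (nQ : ℕ) (kQ : Fin d → ℤ)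

/-- The tree of the cube `kQ` of level `nQ` owns the cube `k` of level `n`. -/
def Own (n : ℕ) (k : Fin d → ℤ) : Prop :=
  topl (vgrad f) a L (P.η / 2) n k = nQ ∧ anc (n - nQ) k = kQ

open Classical in
/-- The stops of level `n + 1` of a tree. -/
def stopsAt (n : ℕ) : Finset (Fin d → ℤ) :=
  (cells {kQ} (n + 1 - nQ)).filter fun c =>
    topl (vgrad f) a L (P.η / 2) n (anc 1 c) = nQ ∧
      topl (vgrad f) a L (P.η / 2) (n + 1) c = n + 1

/-- The largest distance to the complement of a stop. -/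
def stopDist (x : X d) : ℝ≥0 :=
  (Finset.range N).sup fun n => (stopsAt P f a L nQ kQ n).sup fun c =>
    Real.toNNReal (infDist x (gcell a L (n + 1) c)ᶜ)

/-- The lower edge. -/
def loQ (x : X d) : ℝ := P.θ' * stopDist P f a L N nQ kQ x

/-- The upper edge. -/
def upQ (x : X d) : ℝ := P.θ * infDist x (gcell a L nQ kQ)ᶜ

/-- The maximal function of a tree. -/
def MQ (x : X d) : ℝ := rMax f (loQ P f a L N nQ kQ) (upQ P a L nQ kQ) x

/-- The maximising radius of a tree. -/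
def rQ (x : X d) : ℝ :=
  rad (loQ P f a L N nQ kQ) (upQ P a L nQ kQ) x
    (tstar f (loQ P f a L N nQ kQ) (upQ P a L nQ kQ) x)

open Classical in
/-- The excesses, over the directions of the cubes of the tree, of the level `m + j` sub-cubes of
a cube of level `m`. -/
def GQ (m j : ℕ) (k : Fin d → ℤ) : ℝ≥0∞ :=
  ∑ n ∈ Finset.range (m + 1),
    if Own P f a L nQ kQ n (anc (m - n) k) ∧ nearAt P.Cn (m - n) k then
      ∑ o ∈ off d j, ENNReal.ofReal
        (excess (gdir (vgrad f) a L n (anc (m - n) k)) (gint (vgrad f) a L (m + j) (sub2 j k o)))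
    else 0

open Classical in
/-- The number of cubes of the tree whose boundary layer contains the cube `k` of level `N`. -/
def HQ (k : Fin d → ℤ) : ℝ≥0∞ :=
  ∑ n ∈ Finset.range (N + 1),
    if Own P f a L nQ kQ n (anc (N - n) k) ∧ nearAt P.Cn (N - n) k then 1 else 0

variable {P f a L N nQ kQ}

lemma compl_gcell_nonempty (hd : 1 ≤ d) (_hL : 0 < L) (n : ℕ) (k : Fin d → ℤ) :
    (gcell a L n k)ᶜ.Nonempty :=
  ⟨a + lev L n • iv k + lev L n • iv (fun _ => 1), fun h => by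
    have := (h ⟨0, hd⟩).2
    simp [iv] at this⟩

lemma infDist_compl_le (hd : 1 ≤ d) (hL : 0 < L) (n : ℕ) (k : Fin d → ℤ) (x : X d) :
    infDist x (gcell a L n k)ᶜ ≤ lev L n := by
  by_cases hx : x ∈ gcell a L n k
  · set w : X d := EuclideanSpace.single ⟨0, hd⟩ (lev L n) with hw
    refine le_trans (infDist_le_dist_of_mem (y := x + w) fun h => ?_) ?_
    · have h1 := (h ⟨0, hd⟩).2
      have h2 := (hx ⟨0, hd⟩).1
      simp [hw, iv] at h1
      simp [iv] at h2
      linarith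
    · simp [hw, dist_eq_norm, abs_of_pos (lev_pos hL n)]
  · rw [infDist_zero_of_mem hx]; exact (lev_pos hL n).le

lemma gcell_stop_subset (hL : 0 < L) {n : ℕ} {c : Fin d → ℤ}
    (hc : c ∈ stopsAt P f a L nQ kQ n) : gcell a L (n + 1) c ⊆ gcell a L nQ kQ := by
  classical
  simp only [stopsAt, Finset.mem_filter, mem_cells, Finset.mem_singleton] at hc
  have hn : nQ ≤ n := hc.2.1 ▸ topl_le n (anc 1 c)
  rw [← hc.1]
  exact gcell_subset a hL (by omega) c

lemma stopDist_le (hd : 1 ≤ d) (hL : 0 < L) (x : X d) :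
    (stopDist P f a L N nQ kQ x : ℝ) ≤ infDist x (gcell a L nQ kQ)ᶜ := by
  rw [← Real.coe_toNNReal (infDist x _) infDist_nonneg, NNReal.coe_le_coe]
  exact Finset.sup_le fun n _ => Finset.sup_le fun c hc => Real.toNNReal_le_toNNReal
    (infDist_le_infDist_of_subset (compl_subset_compl.2 (gcell_stop_subset hL hc))
      (compl_gcell_nonempty hd hL _ _))

lemma le_stopDist {n : ℕ} (hn : n < N) {c : Fin d → ℤ} (hc : c ∈ stopsAt P f a L nQ kQ n)
    (x : X d) : infDist x (gcell a L (n + 1) c)ᶜ ≤ stopDist P f a L N nQ kQ x := by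
  rw [← Real.coe_toNNReal (infDist x _) infDist_nonneg, NNReal.coe_le_coe]
  exact le_trans (Finset.le_sup (f := fun c => Real.toNNReal (infDist x (gcell a L (n + 1) c)ᶜ)) hc)
    (Finset.le_sup (f := fun n => (stopsAt P f a L nQ kQ n).sup fun c =>
      Real.toNNReal (infDist x (gcell a L (n + 1) c)ᶜ)) (Finset.mem_range.2 hn))

lemma lipschitzWith_loQ : LipschitzWith P.θ (loQ P f a L N nQ kQ) := by
  refine LipschitzWith.weaken (LipschitzWith.of_le_add_mul _ fun x y => ?_) P.θ'_le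
  have key : stopDist P f a L N nQ kQ x ≤ stopDist P f a L N nQ kQ y + nndist x y := by
    refine Finset.sup_le fun n hn => Finset.sup_le fun c hc => ?_
    rw [← NNReal.coe_le_coe, Real.coe_toNNReal _ infDist_nonneg, NNReal.coe_add, coe_nndist]
    exact infDist_le_infDist_add_dist.trans
      (add_le_add (le_stopDist (Finset.mem_range.1 hn) hc y) le_rfl)
  have : (stopDist P f a L N nQ kQ x : ℝ) ≤ stopDist P f a L N nQ kQ y + dist x y := by
    exact_mod_cast key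
  unfold loQ
  exact (mul_le_mul_of_nonneg_left this P.θ'.2).trans_eq (mul_add _ _ _)

lemma lipschitzWith_upQ : LipschitzWith P.θ (upQ P a L nQ kQ) := by
  refine LipschitzWith.of_le_add_mul _ fun x y => ?_
  unfold upQ
  rw [← mul_add]
  exact mul_le_mul_of_nonneg_left infDist_le_infDist_add_dist P.θ.2

lemma loQ_nonneg (x : X d) : 0 ≤ loQ P f a L N nQ kQ x := mul_nonneg P.θ'.2 (NNReal.coe_nonneg _)

lemma loQ_le_upQ (hd : 1 ≤ d) (hL : 0 < L) (x : X d) :
    loQ P f a L N nQ kQ x ≤ upQ P a L nQ kQ x :=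
  mul_le_mul (NNReal.coe_le_coe.2 P.θ'_le) (stopDist_le hd hL x) (NNReal.coe_nonneg _) P.θ.2

lemma rQ_mem (hd : 1 ≤ d) (hL : 0 < L) (hf : RegFun f) (x : X d) :
    loQ P f a L N nQ kQ x ≤ rQ P f a L N nQ kQ x ∧ rQ P f a L N nQ kQ x ≤ upQ P a L nQ kQ x := by
  obtain ⟨⟨h0, h1⟩, -⟩ := tstar_spec hf (lipschitzWith_loQ (P := P) (f := f) (a := a) (L := L)
    (N := N) (nQ := nQ) (kQ := kQ)) lipschitzWith_upQ x
  have h := loQ_le_upQ (P := P) (f := f) (a := a) (N := N) (nQ := nQ) (kQ := kQ) hd hL x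
  unfold rQ rad
  constructor <;> nlinarith

/-- Near a point with a small maximising radius, every cube lies in the tree or in the boundary
layer of a stop. -/
lemma exists_own_near (hd : 1 ≤ d) (hL : 0 < L) {m : ℕ} (hm : nQ ≤ m) (hmN : m ≤ N)
    (hQ : topl (vgrad f) a L (P.η / 2) nQ kQ = nQ) {k : Fin d → ℤ} (hk : anc (m - nQ) k = kQ)
    {x y : X d} (hy : y ∈ gcell a L m k) (hxy : ‖y - x‖ ≤ 16 * ((d:ℝ) + 1) * lev L m)
    (hlo : loQ P f a L N nQ kQ x ≤ 2 * lev L m) :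
    ∃ n ∈ Finset.range (m + 1),
      Own P f a L nQ kQ n (anc (m - n) k) ∧ nearAt P.Cn (m - n) k := by
  by_cases h : topl (vgrad f) a L (P.η / 2) m k = nQ
  · refine ⟨m, Finset.mem_range.2 (Nat.lt_succ_self m), ?_, Or.inl (Nat.sub_self m)⟩
    rw [Nat.sub_self, anc_zero]
    exact ⟨h, hk⟩
  obtain ⟨n, h1, h2, h3, h4⟩ := exists_first_stop m k hm (by rw [hk]; exact hQ) h
  refine ⟨n, Finset.mem_range.2 (by omega), ⟨h3, ?_⟩, ?_⟩
  · rw [anc_anc, show n - nQ + (m - n) = m - nQ by omega, hk]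
  have hc : anc (m - n - 1) k ∈ stopsAt P f a L nQ kQ n := by
    classical
    simp only [stopsAt, Finset.mem_filter, mem_cells, Finset.mem_singleton, anc_anc]
    refine ⟨?_, ?_, h4⟩
    · rw [show n + 1 - nQ + (m - n - 1) = m - nQ by omega, hk]
    · rw [show 1 + (m - n - 1) = m - n by omega, h3]
  refine nearAt_of_infDist hd a hL h2 hy (lt_of_le_of_lt (infDist_le_infDist_add_dist (y := x)) ?_)
  have hs := (le_stopDist (show n < N by omega) hc x)
  have hl : (stopDist P f a L N nQ kQ x : ℝ) ≤ 2 * lev L m / P.θ' := by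
    rw [le_div_iff₀ P.θ'_pos, mul_comm]; exact hlo
  have hd' : dist y x ≤ 16 * ((d:ℝ) + 1) * lev L m := by rw [dist_eq_norm]; exact hxy
  have := mul_lt_mul_of_pos_right P.lt_Cn (lev_pos hL m)
  have e : (16 * ((d:ℝ) + 1) + 2 / (P.θ' : ℝ)) * lev L m =
      16 * ((d:ℝ) + 1) * lev L m + 2 * lev L m / P.θ' := by ring
  rw [dist_comm] at hd' ⊢
  linarith

lemma norm_sub_gdir_le {n : ℕ} {k : Fin d → ℤ} (h : Own P f a L nQ kQ n k) :
    ‖gdir (vgrad f) a L nQ kQ - gdir (vgrad f) a L n k‖ ≤ P.η / 2 := by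
  have h2 := norm_gdir_sub_tdir_le (v := vgrad f) (a := a) (L := L) (thr := P.η / 2)
    (by linarith [P.η_pos]) n k
  rw [tdir, h.1, h.2, norm_sub_rev] at h2
  exact h2

/-- The cubes of level `m + j` near a cube of level `m`. -/
lemma dbox_split (j : ℕ) (F : (Fin d → ℤ) → ℝ≥0∞) :
    ∑ k ∈ dbox d 8 j, F k = ∑ δ ∈ dbox d 8 0, ∑ o ∈ off d j, F (sub2 j δ o) := by
  rw [← Finset.sum_product']
  have h2 : (0:ℤ) < 2 ^ j := by positivity
  refine Finset.sum_nbij' (fun k => (anc j k, fun c => k c % 2 ^ j)) (fun p => sub2 j p.1 p.2)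
    ?_ ?_ ?_ ?_ ?_
  · intro k hk
    simp only [dbox, Fintype.mem_piFinset, Finset.mem_Ico, Finset.mem_product] at hk ⊢
    refine ⟨fun c => ?_, emod_mem_off j k⟩
    obtain ⟨h1, h3⟩ := hk c
    push_cast at h1 h3 ⊢
    simp only [anc]
    constructor
    · rw [Int.le_ediv_iff_mul_le h2]; linarith
    · rw [Int.ediv_lt_iff_lt_mul h2]; linarith
  · rintro ⟨δ, o⟩ hp
    simp only [dbox, Fintype.mem_piFinset, Finset.mem_Ico, Finset.mem_product] at hp ⊢
    intro c
    obtain ⟨h1, h3⟩ := hp.1 c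
    obtain ⟨h4, h5⟩ := mem_off.1 hp.2 c
    push_cast at h1 h3 ⊢
    simp only [sub2]
    constructor
    · nlinarith
    · nlinarith [mul_le_mul_of_nonneg_left (Int.add_one_le_iff.2 h3) h2.le]
  · intro k _; exact sub2_anc j k
  · rintro ⟨δ, o⟩ hp
    simp only [Finset.mem_product] at hp
    refine Prod.ext (anc_sub2 j δ hp.2) (funext fun c => ?_)
    simp only [sub2]
    rw [Int.add_comm, Int.add_mul_emod_self_left,
      Int.emod_eq_of_lt (mem_off.1 hp.2 c).1 (mem_off.1 hp.2 c).2]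
  · intro k _; simp only [sub2_anc]

lemma cone_ae (hf : RegFun f) : ∀ᵐ x : X d,
    ENNReal.ofReal (‖vgrad (MQ P f a L N nQ kQ) x‖ -
        P.C1 * ⟪gdir (vgrad f) a L nQ kQ, vgrad (MQ P f a L N nQ kQ) x⟫) ≤
      ENNReal.ofReal (1 + P.C1) * ENNReal.ofReal
        (‖gradA f x (rQ P f a L N nQ kQ x)‖ + |slopeA f x (rQ P f a L N nQ kQ x)| -
          P.C * (⟪gdir (vgrad f) a L nQ kQ, gradA f x (rQ P f a L N nQ kQ x)⟫ -
            P.lam * |slopeA f x (rQ P f a L N nQ kQ x)|)) ∨ L ≤ 0 := by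
  obtain ⟨V, hV⟩ := exists_vgrad_bound hf
  by_cases hL : L ≤ 0
  · exact Eventually.of_forall fun _ => Or.inr hL
  push Not at hL
  have he := norm_gdir_le (vgrad f) a hL nQ kQ
  filter_upwards [(lipschitzWith_rMax hf (lipschitzWith_loQ (P := P) (f := f) (a := a) (L := L)
    (N := N) (nQ := nQ) (kQ := kQ)) lipschitzWith_upQ hV).ae_differentiableAt,
    (lipschitzWith_loQ (P := P) (f := f) (a := a) (L := L) (N := N) (nQ := nQ)
      (kQ := kQ)).ae_differentiableAt,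
    (lipschitzWith_upQ (P := P) (a := a) (L := L) (nQ := nQ) (kQ := kQ)).ae_differentiableAt]
    with x h1 h2 h3
  refine Or.inl ?_
  obtain ⟨w, hw, e⟩ := vgrad_rMax hf lipschitzWith_loQ lipschitzWith_upQ h1 h2 h3
  have hc := ofReal_cone_le (C := P.C) (lam := P.lam) (θ := P.θ) (by linarith [P.C_one]) P.θ_le.1
    P.θ_le.2.2.le (e := gdir (vgrad f) a L nQ kQ)
    (A := gradA f x (rQ P f a L N nQ kQ x)) (s := slopeA f x (rQ P f a L N nQ kQ x)) he hw
  set G := vgrad (MQ P f a L N nQ kQ) x with hG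
  have e' : G = gradA f x (rQ P f a L N nQ kQ x) + slopeA f x (rQ P f a L N nQ kQ x) • w := e
  rw [← e'] at hc
  refine le_trans ?_ (mul_le_mul_right hc _)
  have hC1 := P.C1_spec
  rw [← ENNReal.ofReal_mul (by linarith [hC1.2.2])]
  rw [ENNReal.ofReal_le_ofReal_iff']
  by_cases hi : 0 ≤ ⟪gdir (vgrad f) a L nQ kQ, G⟫
  · rcases le_or_gt (‖G‖ - P.C1 * ⟪gdir (vgrad f) a L nQ kQ, G⟫) 0 with hp | hp
    · exact Or.inr hp
    · left
      have h5 := mul_le_mul_of_nonneg_right hC1.2.1 hi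
      have h6 : ‖G‖ - P.C * ⟪gdir (vgrad f) a L nQ kQ, G⟫ ≤
          (1 + P.C1) * (‖G‖ - P.C * ⟪gdir (vgrad f) a L nQ kQ, G⟫) :=
        le_mul_of_one_le_left (by linarith) (by linarith [hC1.2.2])
      linarith
  · left
    push Not at hi
    have h5 := (abs_le.1 (abs_inner_le he G)).1
    have h7 := mul_le_mul_of_nonneg_left h5 (show 0 ≤ P.C1 by linarith [hC1.2.2])
    have h8 := mul_nonpos_of_nonneg_of_nonpos (show 0 ≤ P.C by linarith [P.C_one]) hi.le
    have h9 := mul_le_mul_of_nonneg_left (show ‖G‖ ≤ ‖G‖ - P.C * ⟪gdir (vgrad f) a L nQ kQ, G⟫ by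
      linarith) (show 0 ≤ 1 + P.C1 by linarith [hC1.2.2])
    nlinarith [norm_nonneg G]

end Tree

end Vale.Agent.P137.Centred
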