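import Vale.Agent.P137.Centred.Outer.Cover

/-!
P137, centred operator, outer part: the main estimate from the core estimate.
-/

open MeasureTheory Metric Set Filter
open scoped ENNReal Topology RealInnerProductSpace NNReal

noncomputable section

namespace Vale.Agent.P137.Centred

variable {d : ℕ}

/-- The points with a maximising radius of the size of the cubes of level `m`. -/
def radSet (P : Par d) (f : X d → ℝ) (L : ℝ) (m : ℕ) : Set (X d) :=
  {x | ∃ r ∈ Icc (lev L m / (2 * P.Kr)) (lev L m / P.Kr), cavg f (x, r) = cMax f x}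

lemma isClosed_radSet (hd : 1 ≤ d) (P : Par d) {f : X d → ℝ} (hf : RegFun f) (L : ℝ) (m : ℕ) :
    IsClosed (radSet P f L m) := by
  obtain ⟨V, hV⟩ := exists_vgrad_bound hf
  set I := Icc (lev L m / (2 * P.Kr)) (lev L m / P.Kr)
  have h : radSet P f L m = Prod.fst '' {p : X d × I | cavg f (p.1, p.2) = cMax f p.1} := by
    ext x
    constructor
    · rintro ⟨r, hr, he⟩; exact ⟨(x, ⟨r, hr⟩), he, rfl⟩
    · rintro ⟨⟨y, r, hr⟩, he, rfl⟩; exact ⟨r, hr, he⟩
  rw [h]
  exact isClosedMap_fst_of_compactSpace _ (isClosed_eq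
    ((continuous_cavg hf.1).comp (continuous_fst.prodMk (continuous_subtype_val.comp continuous_snd)))
    ((lipschitzWith_cMax hd hf hV).continuous.comp continuous_fst))

/-- The roots meeting a bounded set. -/
lemma exists_roots (a : X d) {L : ℝ} (hL : 0 < L) {O : Set (X d)} (hO : Bornology.IsBounded O) :
    ∃ R : Finset (Fin d → ℤ), (∀ x ∈ O, gidx a (lev L 0) x ∈ R) ∧
      (⋃ k ∈ R, gcell a L 0 k) ⊆ thickening (((d:ℝ) + 2) * L) O := by
  classical
  obtain ⟨ρ, hρ⟩ := hO.subset_closedBall (0 : X d)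
  have hl : 0 < lev L 0 := lev_pos hL 0
  have hbox : ∀ x ∈ O, ∀ i, gidx a (lev L 0) x i ∈
      Finset.Icc ⌊(-ρ - a i) / lev L 0⌋ ⌊(ρ - a i) / lev L 0⌋ := fun x hx i => by
    have h := (PiLp.norm_apply_le x i).trans (mem_closedBall_zero_iff.1 (hρ hx))
    rw [Real.norm_eq_abs, abs_le] at h
    rw [Finset.mem_Icc]
    exact ⟨Int.floor_le_floor (div_le_div_of_nonneg_right (by linarith [h.1]) hl.le),
      Int.floor_le_floor (div_le_div_of_nonneg_right (by linarith [h.2]) hl.le)⟩
  refine ⟨(Fintype.piFinset fun i => Finset.Icc ⌊(-ρ - a i) / lev L 0⌋ ⌊(ρ - a i) / lev L 0⌋).filter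
    fun k => ∃ x ∈ O, gidx a (lev L 0) x = k, fun x hx => ?_, ?_⟩
  · exact Finset.mem_filter.2 ⟨Fintype.mem_piFinset.2 (hbox x hx), x, hx, rfl⟩
  · refine iUnion₂_subset fun k hk y hy => ?_
    obtain ⟨x, hx, rfl⟩ := (Finset.mem_filter.1 hk).2
    refine mem_thickening_iff.2 ⟨x, hx, ?_⟩
    rw [dist_eq_norm]
    have hxc : x ∈ gcell a L 0 (gidx a (lev L 0) x) := mem_grid_self a x hl
    have e : lev L 0 = L := by simp [lev]
    refine lt_of_le_of_lt (dist_cube_le hl.le hy hxc) ?_
    rw [e]
    linarith [mul_pos (show (0:ℝ) < 1 by norm_num) hL]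

section Main

variable (P : Par d) (hd : 1 ≤ d) {f : X d → ℝ} (hf : RegFun f) {L : ℝ} (hL : 0 < L)
include hd hf hL

open Classical in
/-- For one translation, the gradient at the deep points is controlled by the trees. -/
theorem deep_le (a : X d) {O : Set (X d)} (N : ℕ) {R : Finset (Fin d → ℤ)}
    (hR : ∀ x ∈ O, gidx a (lev L 0) x ∈ R) :
    ∫⁻ x, ∑ m ∈ Finset.range (N + 1), deepAt L m a x *
        (O ∩ disjointed (radSet P f L) m).indicator (fun x => ‖vgrad (cMax f) x‖ₑ) x ≤
      ∑ nQ ∈ Finset.range (N + 1), ∑ kQ ∈ tops (vgrad f) a L (P.η / 2) R nQ,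
        ∫⁻ x in gcell a L nQ kQ, ‖vgrad (MQ P f a L N nQ kQ) x‖ₑ := by
  obtain ⟨V, hV⟩ := exists_vgrad_bound hf
  set v := vgrad f with hv
  have hae : ∀ᵐ x : X d, DifferentiableAt ℝ (cMax f) x ∧ ∀ nQ ∈ Finset.range (N + 1),
      ∀ kQ ∈ tops v a L (P.η / 2) R nQ, DifferentiableAt ℝ (MQ P f a L N nQ kQ) x := by
    refine (lipschitzWith_cMax hd hf hV).ae_differentiableAt.and ?_
    refine (eventually_all_finset _).2 fun nQ _ => (eventually_all_finset _).2 fun kQ _ => ?_
    exact (lipschitzWith_rMax hf (lipschitzWith_loQ (P := P) (f := f) (a := a) (L := L) (N := N)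
      (nQ := nQ) (kQ := kQ)) (lipschitzWith_upQ (P := P) (a := a) (L := L) (nQ := nQ) (kQ := kQ))
      hV).ae_differentiableAt
  have hmm : ∀ nQ kQ, Measurable ((gcell a L nQ kQ).indicator
      fun x => ‖vgrad (MQ P f a L N nQ kQ) x‖ₑ) := fun nQ kQ =>
    (measurable_vgrad _).enorm.indicator (measurableSet_cube _ _)
  calc ∫⁻ x, ∑ m ∈ Finset.range (N + 1), deepAt L m a x *
        (O ∩ disjointed (radSet P f L) m).indicator (fun x => ‖vgrad (cMax f) x‖ₑ) x
      ≤ ∫⁻ x, ∑ nQ ∈ Finset.range (N + 1), ∑ kQ ∈ tops v a L (P.η / 2) R nQ,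
          (gcell a L nQ kQ).indicator (fun x => ‖vgrad (MQ P f a L N nQ kQ) x‖ₑ) x := by
        refine lintegral_mono_ae ?_
        filter_upwards [hae] with x hx
        by_cases hex : ∃ m ∈ Finset.range (N + 1), x ∈ O ∩ disjointed (radSet P f L) m
        swap
        · push Not at hex
          rw [Finset.sum_eq_zero fun m hm => by rw [indicator_of_notMem (hex m hm), mul_zero]]
          exact zero_le
        obtain ⟨m, hm, hxO, hxD⟩ := hex
        rw [Finset.sum_eq_single m (fun b _ hb => by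
            rw [indicator_of_notMem (fun h => disjoint_left.1 (disjoint_disjointed _ hb) h.2 hxD),
              mul_zero]) (fun h => absurd hm h)]
        rcases deepAt_cases hd hL m a x with h0 | ⟨h1, hin⟩
        · rw [h0, zero_mul]; exact zero_le
        rw [h1, one_mul, indicator_of_mem (show x ∈ O ∩ disjointed (radSet P f L) m from ⟨hxO, hxD⟩)]
        obtain ⟨r, ⟨hr1, hr2⟩, hre⟩ := disjointed_subset _ m hxD
        have hmN : m ≤ N := Nat.lt_succ_iff.1 (Finset.mem_range.1 hm)
        set k := gidx a (lev L m) x with hk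
        set nQ := topl v a L (P.η / 2) m k with hnQ
        set kQ := anc (m - nQ) k with hkQ
        have hle : nQ ≤ m := topl_le m k
        obtain ⟨hxQ, hlo, hup⟩ := deep_admissible (P := P) (f := f) (N := N) hd hL hin hr1 hr2
          nQ kQ rfl rfl
        have hmemn : nQ ∈ Finset.range (N + 1) := Finset.mem_range.2 (by omega)
        have hmemk : kQ ∈ tops v a L (P.η / 2) R nQ := by
          refine Finset.mem_filter.2 ⟨mem_cells.2 ?_, topl_top m k⟩
          rw [hkQ, anc_anc, Nat.add_sub_cancel' hle, hk, show anc m (gidx a (lev L m) x) =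
            gidx a (lev L 0) x from gidx_anc a x hL (Nat.zero_le m)]
          exact hR x hxO
        refine le_trans ?_ (le_trans (Finset.single_le_sum (f := fun kQ =>
          (gcell a L nQ kQ).indicator (fun x => ‖vgrad (MQ P f a L N nQ kQ) x‖ₑ) x)
          (fun _ _ => zero_le) hmemk) (Finset.single_le_sum (f := fun nQ =>
            ∑ kQ ∈ tops v a L (P.η / 2) R nQ,
              (gcell a L nQ kQ).indicator (fun x => ‖vgrad (MQ P f a L N nQ kQ) x‖ₑ) x)
            (fun _ _ => zero_le) hmemn))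
        rw [indicator_of_mem hxQ]
        refine le_of_eq (congrArg _ ?_)
        have hle' : ∀ y, MQ P f a L N nQ kQ y ≤ cMax f y := fun y =>
          rMax_le_cMax hf lipschitzWith_loQ lipschitzWith_upQ loQ_nonneg (loQ_le_upQ hd hL) y
        have heq : MQ P f a L N nQ kQ x = cMax f x :=
          le_antisymm (hle' x) (hre ▸ cavg_le_rMax_of_mem hf lipschitzWith_loQ lipschitzWith_upQ x
            hlo hup)
        have hmin : IsLocalMin (fun y => cMax f y - MQ P f a L N nQ kQ y) x :=
          Eventually.of_forall fun y => by simp only [heq, sub_self]; linarith [hle' y]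
        have h0 := hmin.hasFDerivAt_eq_zero
          (hx.1.hasFDerivAt.sub (hx.2 nQ hmemn kQ hmemk).hasFDerivAt)
        rw [sub_eq_zero] at h0
        simp only [vgrad, gradient, h0]
    _ = _ := by
        rw [lintegral_finsetSum _ fun nQ _ => Finset.measurable_sum _ fun kQ _ => hmm nQ kQ]
        refine Finset.sum_congr rfl fun nQ _ => ?_
        rw [lintegral_finsetSum _ fun kQ _ => hmm nQ kQ]
        exact Finset.sum_congr rfl fun kQ _ => lintegral_indicator (measurableSet_cube _ _) _

end Main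

/-- Averaging over the translations keeps three quarters of the mass. -/
theorem deep_avg (P : Par d) (hd : 1 ≤ d) {f : X d → ℝ} (hf : RegFun f) {L : ℝ} (hL : 0 < L)
    {O : Set (X d)} (hOm : MeasurableSet O) (N : ℕ) {h : X d → ℝ≥0∞} (hhm : Measurable h)
    (hfin : ∀ x, h x ≠ ⊤) :
    ENNReal.ofReal (3 / 4) * ENNReal.ofReal (L ^ d) *
        ∫⁻ x in O ∩ ⋃ m ∈ Finset.range (N + 1), radSet P f L m, h x ≤
      ∫⁻ a in cube (0 : X d) L, ∫⁻ x, ∑ m ∈ Finset.range (N + 1), deepAt L m a x *
        (O ∩ disjointed (radSet P f L) m).indicator h x := by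
  classical
  have hDm : ∀ m, MeasurableSet (O ∩ disjointed (radSet P f L) m) := fun m =>
    hOm.inter (MeasurableSet.disjointed (fun n => (isClosed_radSet hd P hf L n).measurableSet) m)
  have hterm : ∀ m, Measurable fun p : X d × X d => deepAt L m p.1 p.2 *
      (O ∩ disjointed (radSet P f L) m).indicator h p.2 := fun m =>
    (measurable_deepAt L m).mul ((hhm.indicator (hDm m)).fun_comp measurable_snd)
  have hGm : Measurable fun p : X d × X d => ∑ m ∈ Finset.range (N + 1), deepAt L m p.1 p.2 *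
      (O ∩ disjointed (radSet P f L) m).indicator h p.2 :=
    Finset.measurable_sum _ fun m _ => hterm m
  rw [lintegral_lintegral_swap hGm.aemeasurable,
    ← lintegral_indicator (hOm.inter (Finset.measurableSet_biUnion _ fun m _ =>
      (isClosed_radSet hd P hf L m).measurableSet)),
    ← lintegral_const_mul' _ _ (ENNReal.mul_ne_top ENNReal.ofReal_ne_top ENNReal.ofReal_ne_top)]
  refine lintegral_mono fun x => ?_
  by_cases hx : x ∈ O ∩ ⋃ m ∈ Finset.range (N + 1), radSet P f L m
  swap
  · rw [indicator_of_notMem hx, mul_zero]; exact zero_le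
  rw [indicator_of_mem hx]
  obtain ⟨hxO, hxU⟩ := hx
  obtain ⟨m0, hm0, hxm⟩ := mem_iUnion₂.1 hxU
  have hex : ∃ m, x ∈ radSet P f L m := ⟨m0, hxm⟩
  have hxD : x ∈ disjointed (radSet P f L) (Nat.find hex) := by
    rw [disjointed_eq_inter_compl]
    exact ⟨Nat.find_spec hex, mem_iInter₂.2 fun j hj => Nat.find_min hex hj⟩
  have hfm : Nat.find hex ∈ Finset.range (N + 1) :=
    Finset.mem_range.2 ((Nat.find_min' hex hxm).trans_lt (Finset.mem_range.1 hm0))
  have hdm : ∀ m, Measurable fun a : X d => deepAt L m a x *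
      (O ∩ disjointed (radSet P f L) m).indicator h x := fun m =>
    ((measurable_deepAt L m).fun_comp (measurable_id.prodMk measurable_const)).mul_const _
  rw [lintegral_finsetSum _ fun m _ => hdm m]
  refine le_trans ?_ (Finset.single_le_sum (fun _ _ => zero_le) hfm)
  rw [indicator_of_mem (show x ∈ O ∩ disjointed (radSet P f L) (Nat.find hex) from ⟨hxO, hxD⟩),
    lintegral_mul_const' _ _ (hfin x)]
  exact mul_le_mul_left (lintegral_deepAt hd hL _ x) _

/-- The estimate at one truncation. -/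
theorem mid_le (P : Par d) (hd : 1 ≤ d) :
    ∃ K : ℝ≥0∞, K ≠ ⊤ ∧ ∀ (f : X d → ℝ), RegFun f → ∀ (L : ℝ), 0 < L →
      ∀ (O : Set (X d)), MeasurableSet O → Bornology.IsBounded O → ∀ (N : ℕ) (ω : ℝ),
      (∀ x y : X d, ‖y - x‖ ≤ lev L N → ‖vgrad f y - vgrad f x‖ ≤ ω) →
        ∫⁻ x in O ∩ ⋃ m ∈ Finset.range (N + 1), radSet P f L m, ‖vgrad (cMax f) x‖ₑ ≤
        K * ((∫⁻ y in thickening (((d:ℝ) + 2) * L) O, ‖vgrad f y‖ₑ) +
          ((∫⁻ y, ‖vgrad f y‖ₑ) - cmass (vgrad f) (2 * L)) +
          ENNReal.ofReal ω * volume (thickening (((d:ℝ) + 2) * L) O)) := by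
  classical
  obtain ⟨K, hK, hforest⟩ := forest_le P hd
  obtain ⟨Ct, hCt, htot⟩ := lintegral_errTot_le d P.Cn P.q_pos (show P.q < 1 from P.q_lt)
  set c34 : ℝ≥0∞ := (ENNReal.ofReal (3 / 4))⁻¹
  have hc34 : c34 ≠ ⊤ := ENNReal.inv_ne_top.2 (ne_of_gt (ENNReal.ofReal_pos.2 (by norm_num)))
  refine ⟨c34 * (K * (1 + Ct)), ENNReal.mul_ne_top hc34
    (ENNReal.mul_ne_top hK (ENNReal.add_ne_top.2 ⟨ENNReal.one_ne_top, hCt⟩)), ?_⟩
  intro f hf L hL O hOm hOb N ω hω
  set v := vgrad f with hv
  have hvc : Continuous v := continuous_vgrad hf.1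
  have hvi : Integrable v := integrable_vgrad hf
  set T := thickening (((d:ℝ) + 2) * L) O with hT
  set h : X d → ℝ≥0∞ := fun x => ‖vgrad (cMax f) x‖ₑ with hh
  have hhm : Measurable h := (measurable_vgrad _).enorm
  have hDm : ∀ m, MeasurableSet (O ∩ disjointed (radSet P f L) m) := fun m =>
    hOm.inter (MeasurableSet.disjointed (fun n => (isClosed_radSet hd P hf L n).measurableSet) m)
  -- deterministic bounds for the roots
  have hroot : ∀ a, ∫⁻ x, ∑ m ∈ Finset.range (N + 1), deepAt L m a x *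
      (O ∩ disjointed (radSet P f L) m).indicator h x ≤
      K * ((∫⁻ y in T, ‖v y‖ₑ) + ENNReal.ofReal ω * volume T + errTot v a L P.q P.Cn N) := by
    intro a
    obtain ⟨R, hR, hRT⟩ := exists_roots a hL hOb
    refine (deep_le P hd hf hL a N hR).trans ((hforest f hf a L hL N R ω hω).trans ?_)
    rw [add_right_comm]
    refine mul_le_mul_right (add_le_add (add_le_add ?_ ?_) le_rfl) K
    · calc ∑ k ∈ R, ‖gint v a L 0 k‖ₑ ≤ ∑ k ∈ R, ∫⁻ y in gcell a L 0 k, ‖v y‖ₑ :=
            Finset.sum_le_sum fun k _ => enorm_cint_le v _ _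
        _ = ∫⁻ y in ⋃ k ∈ R, gcell a L 0 k, ‖v y‖ₑ := (lintegral_biUnion_finset
            (fun k _ k' _ hkk => disjoint_grid a (lev_pos hL 0) hkk)
            (fun k _ => measurableSet_cube _ _) _).symm
        _ ≤ _ := lintegral_mono_set hRT
    · refine mul_le_mul_right (le_of_eq_of_le ?_ (measure_mono hRT)) _
      unfold gcell
      rw [measure_biUnion_finset (fun k _ k' _ hkk => disjoint_grid a (lev_pos hL 0) hkk)
        (fun k _ => measurableSet_cube _ _)]
      simp only [volume_cube _ (lev_pos hL 0).le, Finset.sum_const, nsmul_eq_mul]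
      simp [lev]
  set V := ENNReal.ofReal (L ^ d) with hV
  have hV0 : V ≠ 0 := ne_of_gt (ENNReal.ofReal_pos.2 (by positivity))
  have hVt : V ≠ ⊤ := ENNReal.ofReal_ne_top
  have hup : ∫⁻ a in cube (0 : X d) L, ∫⁻ x, ∑ m ∈ Finset.range (N + 1), deepAt L m a x *
      (O ∩ disjointed (radSet P f L) m).indicator h x ≤
      V * (K * ((∫⁻ y in T, ‖v y‖ₑ) + ENNReal.ofReal ω * volume T +
        Ct * ((∫⁻ y, ‖v y‖ₑ) - cmass v (2 * L)))) := by
    refine (lintegral_mono fun a => hroot a).trans ?_
    rw [lintegral_const_mul' _ _ hK, lintegral_add_left measurable_const, setLIntegral_const,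
      volume_cube _ hL.le, mul_left_comm V K, mul_add V, mul_comm _ V]
    exact mul_le_mul_right (add_le_add le_rfl (htot v hvc hvi L hL N)) K
  have hlow := deep_avg P hd hf hL hOm N hhm (h := h) fun x => enorm_ne_top
  have hfin := hlow.trans hup
  rw [mul_comm (ENNReal.ofReal (3 / 4)) V, mul_assoc, ENNReal.mul_le_mul_iff_right hV0 hVt] at hfin
  calc ∫⁻ x in O ∩ ⋃ m ∈ Finset.range (N + 1), radSet P f L m, h x
      = c34 * (ENNReal.ofReal (3 / 4) *
          ∫⁻ x in O ∩ ⋃ m ∈ Finset.range (N + 1), radSet P f L m, h x) := by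
        rw [← mul_assoc, ENNReal.inv_mul_cancel (ne_of_gt (ENNReal.ofReal_pos.2 (by norm_num)))
          ENNReal.ofReal_ne_top, one_mul]
    _ ≤ c34 * (K * ((∫⁻ y in T, ‖v y‖ₑ) + ENNReal.ofReal ω * volume T +
          Ct * ((∫⁻ y, ‖v y‖ₑ) - cmass v (2 * L)))) := mul_le_mul_right hfin _
    _ ≤ _ := by
        set A := ∫⁻ y in T, ‖v y‖ₑ
        set D := (∫⁻ y, ‖v y‖ₑ) - cmass v (2 * L)
        set W := ENNReal.ofReal ω * volume T
        rw [mul_assoc c34, mul_assoc K]
        refine mul_le_mul_right (mul_le_mul_right ?_ _) _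
        calc A + W + Ct * D ≤ A + W + Ct * D + (Ct * A + Ct * W + D) := le_self_add
          _ = (1 + Ct) * (A + D + W) := by ring

/-- The main estimate follows from the core estimate. -/
theorem mainEst_of (hd : 1 ≤ d) (hcore : CoreEst d) : MainEst d := by
  obtain ⟨η, lam, q, Cc, C', h1, h2, h3, -, h5, h6, h7, h8, hc⟩ := hcore
  set P : Par d := ⟨η, lam, q, Cc, C', h1, h2, h3, h5, h6, h7, h8, hc⟩
  obtain ⟨K, hK, hmid⟩ := mid_le P hd
  obtain ⟨hKr, -, -⟩ := P.Kr_spec
  set Cl := (2 * P.Kr) ^ d / (volume (ball (0 : X d) 1)).toReal with hCl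
  obtain ⟨p, hp⟩ := pow_unbounded_of_one_lt (Cl + K.toReal + 1 + ((d:ℝ) + 2)) one_lt_two
  have hv0 := vol_unit_pos (d := d)
  have hClp : 0 ≤ Cl := div_nonneg (pow_nonneg (by linarith) d) hv0.le
  set C : ℝ := 2 ^ (p + 1) with hC
  have hCp : Cl + K.toReal + 1 + ((d:ℝ) + 2) ≤ C := by
    refine hp.le.trans ?_
    rw [hC, pow_succ]
    linarith [pow_pos (show (0:ℝ) < 2 by norm_num) p]
  have hKn := ENNReal.toReal_nonneg (a := K)
  have hd0 : (0:ℝ) ≤ d := Nat.cast_nonneg d
  refine ⟨C, by positivity, fun f hf L hL O hO => ?_⟩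
  simp only [← enorm_vgrad]
  set v := vgrad f with hv
  have hvi : Integrable v := integrable_vgrad hf
  set T := thickening (C * L) O with hT
  set I := ∫⁻ y, ‖v y‖ₑ with hI
  set U := ⋃ m, radSet P f L m with hU
  obtain ⟨V, hV⟩ := exists_vgrad_bound hf
  have hUm : MeasurableSet U :=
    MeasurableSet.iUnion fun m => (isClosed_radSet hd P hf L m).measurableSet
  rw [← lintegral_inter_add_sdiff (fun x => ‖vgrad (cMax f) x‖ₑ) O hUm]
  -- radii outside the levels
  have hout : ∫⁻ x in O \ U, ‖vgrad (cMax f) x‖ₑ ≤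
      ENNReal.ofReal Cl * ((ENNReal.ofReal (L ^ d))⁻¹ * I * volume O) + ∫⁻ y in T, ‖v y‖ₑ := by
    have hpt : ∀ᵐ x ∂volume.restrict (O \ U), ‖vgrad (cMax f) x‖ₑ ≤
        ‖v x‖ₑ + ENNReal.ofReal Cl * ((ENNReal.ofReal (L ^ d))⁻¹ * I) := by
      filter_upwards [ae_restrict_mem (hO.diff hUm),
        ae_restrict_of_ae (lipschitzWith_cMax hd hf hV).ae_differentiableAt] with x hx hdiff
      obtain ⟨r, hr, he⟩ := exists_maximiser hd hf x
      rw [vgrad_cMax hf hdiff hr he]
      rcases hr.eq_or_lt with rfl | hr0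
      · have e : gradA f x 0 = v x := by
          have := gradA_small hf.1 x le_rfl (ω := 0) (r := 0) fun y hy => by
            rw [sub_eq_zero.1 (norm_le_zero_iff.1 hy), sub_self, norm_zero]
          exact sub_eq_zero.1 (norm_le_zero_iff.1 this.1)
        rw [e]; exact le_self_add
      · have hbig : L ≤ 2 * P.Kr * r := by
          by_contra hlt
          push Not at hlt
          have hl : Tendsto (fun n => lev L n) atTop (𝓝 0) := by
            simpa [lev, div_eq_mul_inv] using ((tendsto_inv_atTop_zero.comp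
              (tendsto_pow_atTop_atTop_of_one_lt one_lt_two)).const_mul L)
          obtain ⟨N, hN⟩ := (hl.eventually_lt_const
            (show 0 < 2 * P.Kr * r by positivity)).exists
          obtain ⟨m, -, g1, g2⟩ := exists_band hL hN.le hlt
          refine hx.2 (mem_iUnion.2 ⟨m, r, ⟨?_, ?_⟩, he⟩)
          · rw [div_le_iff₀ (by positivity)]; linarith
          · rw [le_div_iff₀ hKr]; linarith
        refine le_add_of_nonneg_of_le zero_le ?_
        have h9 : ‖gradA f x r‖ ≤ Cl / L ^ d * ∫ y, ‖v y‖ := by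
          refine (norm_gradA_le hf x hr0).trans (mul_le_mul_of_nonneg_right ?_
            (integral_nonneg fun _ => norm_nonneg _))
          have h10 : L ^ d ≤ (2 * P.Kr) ^ d * r ^ d := by
            rw [← mul_pow]; exact pow_le_pow_left₀ hL.le hbig d
          have hr' : 0 < r ^ d := pow_pos hr0 d
          rw [hCl, div_div, inv_eq_one_div,
            div_le_div_iff₀ (mul_pos hr' hv0) (mul_pos hv0 (pow_pos hL d))]
          linarith [mul_le_mul_of_nonneg_left h10 hv0.le]
        rw [← ofReal_norm, hI, ← ofReal_integral_norm_eq_lintegral_enorm hvi,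
          ← ENNReal.ofReal_inv_of_pos (by positivity), ← ENNReal.ofReal_mul (by positivity),
          ← ENNReal.ofReal_mul hClp]
        refine ENNReal.ofReal_le_ofReal (h9.trans (le_of_eq ?_))
        ring
    refine (lintegral_mono_ae hpt).trans ?_
    rw [lintegral_add_right _ measurable_const, setLIntegral_const, add_comm]
    refine add_le_add ?_ (lintegral_mono_set ((sdiff_subset).trans
      (self_subset_thickening (by positivity) _)))
    calc ENNReal.ofReal Cl * ((ENNReal.ofReal (L ^ d))⁻¹ * I) * volume (O \ U)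
        ≤ ENNReal.ofReal Cl * ((ENNReal.ofReal (L ^ d))⁻¹ * I) * volume O :=
          mul_le_mul_right (measure_mono sdiff_subset) _
      _ = _ := by ring
  -- radii of the levels
  have hin : ∫⁻ x in O ∩ U, ‖vgrad (cMax f) x‖ₑ ≤
      K * ((∫⁻ y in T, ‖v y‖ₑ) + (I - cmass v (C * L))) := by
    set S : ℕ → Set (X d) := fun n =>
      O ∩ ball 0 n ∩ ⋃ m ∈ Finset.range (n + 1), radSet P f L m with hS
    have hmono : Monotone S := fun i j hij => inter_subset_inter
      (inter_subset_inter_right _ (ball_subset_ball (by exact_mod_cast hij)))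
      (biUnion_subset_biUnion_left fun m hm => by
        simp only [Finset.coe_range, mem_Iio] at hm ⊢
        omega)
    have hun : O ∩ U = ⋃ n, S n := by
      ext x
      simp only [hS, hU, mem_inter_iff, mem_iUnion, Finset.mem_range, mem_ball, exists_prop]
      constructor
      · rintro ⟨hxO, m, hm⟩
        obtain ⟨n, hn⟩ := exists_nat_gt (max (dist x 0) m)
        have hmn : m < n + 1 := by
          have : (m:ℝ) < n := lt_of_le_of_lt (le_max_right _ _) hn
          have : m < n := by exact_mod_cast this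
          omega
        exact ⟨n, ⟨hxO, lt_of_le_of_lt (le_max_left _ _) hn⟩, m, hmn, hm⟩
      · rintro ⟨n, ⟨hxO, -⟩, m, -, hm⟩
        exact ⟨hxO, m, hm⟩
    rw [hun, setLIntegral_iUnion_of_directed _ (Monotone.directed_le hmono)]
    refine iSup_le fun n => ?_
    set On := O ∩ ball 0 n
    set Tn := thickening (((d:ℝ) + 2) * L) On
    have hTfin : volume Tn ≠ ⊤ :=
      ((isBounded_ball.subset inter_subset_right).thickening).measure_lt_top.ne
    refine ENNReal.le_of_forall_pos_le_add fun ε hε _ => ?_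
    set M : ℝ≥0∞ := K * volume Tn
    have hM : M ≠ ⊤ := ENNReal.mul_ne_top hK hTfin
    set ω : ℝ := (ε : ℝ) / (M.toReal + 1) with hω
    have hωp : 0 < ω := div_pos (by exact_mod_cast hε) (by positivity)
    have huc : UniformContinuous v :=
      (continuous_vgrad hf.1).uniformContinuous_of_tendsto_cocompact
        (hasCompactSupport_vgrad hf.2.1).is_zero_at_infty
    obtain ⟨δ, hδ, hδ'⟩ := Metric.uniformContinuous_iff.1 huc ω hωp
    have hl : Tendsto (fun n => lev L n) atTop (𝓝 0) := by
      simpa [lev, div_eq_mul_inv] using ((tendsto_inv_atTop_zero.comp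
        (tendsto_pow_atTop_atTop_of_one_lt one_lt_two)).const_mul L)
    obtain ⟨N, hN, hNn⟩ := ((hl.eventually_lt_const hδ).and (eventually_ge_atTop n)).exists
    have h := hmid f hf L hL On (hO.inter measurableSet_ball)
      (isBounded_ball.subset inter_subset_right) N ω fun x y hxy => by
        have := hδ' (show dist y x < δ by rw [dist_eq_norm]; exact hxy.trans_lt hN)
        rw [dist_eq_norm] at this
        exact this.le
    refine (lintegral_mono_set (inter_subset_inter_right _ (biUnion_subset_biUnion_left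
      fun m hm => by simp only [Finset.coe_range, mem_Iio] at hm ⊢; omega))).trans (h.trans ?_)
    rw [mul_add]
    refine add_le_add (mul_le_mul_right (add_le_add ?_ ?_) _) ?_
    · exact lintegral_mono_set ((thickening_subset_of_subset _ inter_subset_left).trans
        (thickening_mono (mul_le_mul_of_nonneg_right (by linarith) hL.le) _))
    · refine tsub_le_tsub le_rfl ?_
      rw [hC, pow_succ, mul_assoc]
      exact cmass_pow_le hvi (by positivity) p
    · calc K * (ENNReal.ofReal ω * volume Tn) = ENNReal.ofReal ω * M := by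
            simp only [M]; ring
        _ = ENNReal.ofReal (ω * M.toReal) := by
            rw [ENNReal.ofReal_mul hωp.le, ENNReal.ofReal_toReal hM]
        _ ≤ ENNReal.ofReal (ε : ℝ) := by
            refine ENNReal.ofReal_le_ofReal ?_
            rw [hω, div_mul_eq_mul_div, div_le_iff₀ (by positivity)]
            exact mul_le_mul_of_nonneg_left (by linarith) ε.2
        _ = (ε : ℝ≥0∞) := ENNReal.ofReal_coe_nnreal
  refine (add_le_add hin hout).trans ?_
  set A := (ENNReal.ofReal (L ^ d))⁻¹ * I * volume O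
  set B := ∫⁻ y in T, ‖v y‖ₑ
  set D := I - cmass v (C * L)
  have e1 : ENNReal.ofReal Cl ≤ ENNReal.ofReal C := ENNReal.ofReal_le_ofReal (by linarith)
  have e2 : K + 1 ≤ ENNReal.ofReal C := by
    refine le_trans ?_ (ENNReal.ofReal_le_ofReal (show K.toReal + 1 ≤ C by linarith))
    rw [ENNReal.ofReal_add hKn zero_le_one, ENNReal.ofReal_toReal hK, ENNReal.ofReal_one]
  calc K * (B + D) + (ENNReal.ofReal Cl * A + B)
      = ENNReal.ofReal Cl * A + (K + 1) * B + K * D := by ring
    _ ≤ ENNReal.ofReal C * A + ENNReal.ofReal C * B + ENNReal.ofReal C * D :=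
        add_le_add (add_le_add (mul_le_mul_left e1 _) (mul_le_mul_left e2 _))
          (mul_le_mul_left (le_trans le_self_add e2) _)
    _ = _ := by ring

end Vale.Agent.P137.Centred
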