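import Vale.Agent.P137.Centred.Outer.Whitney

/-!
P137, centred operator, outer part: maximal functions over variable ranges of radii.
-/

open MeasureTheory Metric Set Filter
open scoped ENNReal Topology RealInnerProductSpace NNReal

noncomputable section

namespace Vale.Agent.P137.Centred

variable {d : ℕ} {f : X d → ℝ}

lemma inner_vgrad (f : X d → ℝ) (y w : X d) : ⟪vgrad f y, w⟫ = fderiv ℝ f y w := by
  rw [vgrad, gradient, InnerProductSpace.toDual_symm_apply]

lemma norm_vgrad (f : X d → ℝ) (y : X d) : ‖vgrad f y‖ = ‖fderiv ℝ f y‖ :=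
  LinearIsometryEquiv.norm_map _ _

lemma enorm_vgrad (f : X d → ℝ) (y : X d) : ‖vgrad f y‖ₑ = ‖fderiv ℝ f y‖ₑ := by
  rw [← ofReal_norm, ← ofReal_norm, norm_vgrad]

lemma measurable_vgrad (f : X d → ℝ) : Measurable (vgrad f) :=
  (InnerProductSpace.toDual ℝ (X d)).symm.continuous.measurable.comp (measurable_fderiv ℝ f)

lemma continuous_vgrad (hf : ContDiff ℝ 1 f) : Continuous (vgrad f) :=
  (InnerProductSpace.toDual ℝ (X d)).symm.continuous.comp (hf.continuous_fderiv one_ne_zero)

lemma hasCompactSupport_vgrad (hs : HasCompactSupport f) : HasCompactSupport (vgrad f) :=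
  (hs.fderiv ℝ).comp_left (g := (InnerProductSpace.toDual ℝ (X d)).symm) (map_zero _)

lemma integrable_vgrad (hf : RegFun f) : Integrable (vgrad f) :=
  (continuous_vgrad hf.1).integrable_of_hasCompactSupport (hasCompactSupport_vgrad hf.2.1)

lemma exists_vgrad_bound (hf : RegFun f) : ∃ V : ℝ≥0, ∀ y, ‖vgrad f y‖ ≤ V := by
  obtain ⟨C, hC⟩ := (continuous_vgrad hf.1).bounded_above_of_compact_support
    (hasCompactSupport_vgrad hf.2.1)
  exact ⟨C.toNNReal, fun y => (hC y).trans (Real.le_coe_toNNReal C)⟩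

lemma lipschitzWith_of_vgrad_le (hf : ContDiff ℝ 1 f) {V : ℝ≥0} (hV : ∀ y, ‖vgrad f y‖ ≤ V) :
    LipschitzWith V f :=
  lipschitzWith_of_nnnorm_fderiv_le (hf.differentiable one_ne_zero) fun y => by
    rw [← NNReal.coe_le_coe, coe_nnnorm, ← norm_vgrad]; exact hV y

/-! ### Averages -/

lemma integrableOn_slice (hf : Continuous f) (x : X d) (r : ℝ) :
    IntegrableOn (fun u => f (x + r • u)) (ball (0 : X d) 1) := by
  have hc : Continuous fun u : X d => f (x + r • u) := hf.comp (by fun_prop)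
  exact (hc.continuousOn.integrableOn_compact (isCompact_closedBall (0 : X d) 1)).mono_set
    ball_subset_closedBall

lemma abs_cavg_sub_le (hf : ContDiff ℝ 1 f) {V : ℝ≥0} (hV : ∀ y, ‖vgrad f y‖ ≤ V)
    (x x' : X d) (r r' : ℝ) :
    |cavg f (x, r) - cavg f (x', r')| ≤ V * (‖x - x'‖ + |r - r'|) := by
  have hv := vol_unit_pos (d := d)
  simp only [cavg, ← mul_sub]
  rw [← integral_sub (integrableOn_slice hf.continuous x r) (integrableOn_slice hf.continuous x' r'),
    abs_mul, abs_inv, abs_of_pos hv, inv_mul_le_iff₀ hv, mul_comm _ ((V : ℝ) * _)]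
  refine (Real.norm_eq_abs _).symm.trans_le
    (norm_setIntegral_le_of_norm_le_const measure_ball_lt_top fun u hu => ?_)
  refine ((lipschitzWith_of_vgrad_le hf hV).norm_sub_le _ _).trans
    (mul_le_mul_of_nonneg_left ?_ V.2)
  rw [show x + r • u - (x' + r' • u) = (x - x') + (r - r') • u by rw [sub_smul]; abel]
  refine (norm_add_le _ _).trans (add_le_add le_rfl ?_)
  rw [norm_smul, Real.norm_eq_abs]
  exact mul_le_of_le_one_right (abs_nonneg _) (mem_ball_zero_iff.1 hu).le

lemma cavg_nonneg (hf : ∀ x, 0 ≤ f x) (p : X d × ℝ) : 0 ≤ cavg f p :=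
  mul_nonneg (inv_nonneg.2 ENNReal.toReal_nonneg) (integral_nonneg fun _ => hf _)

lemma cavg_le_of_pos (hd : 1 ≤ d) (hf : RegFun f) (x : X d) {r : ℝ} (hr : 0 < r) :
    cavg f (x, r) ≤ (r ^ d * (volume (ball (0 : X d) 1)).toReal)⁻¹ * ∫ y, f y := by
  have : Nonempty (Fin d) := ⟨⟨0, hd⟩⟩
  rw [cavg_eq_avg f x hr, avg, Measure.addHaar_ball_of_pos volume x hr, ENNReal.toReal_mul,
    ENNReal.toReal_ofReal (by positivity), finrank_euclideanSpace_fin]
  exact mul_le_mul_of_nonneg_left (setIntegral_le_integral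
    (hf.1.continuous.integrable_of_hasCompactSupport hf.2.1) (Eventually.of_forall hf.2.2))
    (inv_nonneg.2 (mul_nonneg (pow_nonneg hr.le d) ENNReal.toReal_nonneg))

lemma cavg_le_bound (hf : ContDiff ℝ 1 f) {B : ℝ} (hB : ∀ y, f y ≤ B) (p : X d × ℝ) :
    cavg f p ≤ B := by
  have hv := vol_unit_pos (d := d)
  rw [cavg, inv_mul_le_iff₀ hv]
  refine (setIntegral_mono (integrableOn_slice hf.continuous p.1 p.2)
    (integrableOn_const measure_ball_lt_top.ne) fun u => hB _).trans (le_of_eq ?_)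
  rw [setIntegral_const, smul_eq_mul, measureReal_def]

lemma bddAbove_cavg (hf : RegFun f) (x : X d) (S : Set ℝ) :
    BddAbove ((fun r => cavg f (x, r)) '' S) := by
  obtain ⟨B, hB⟩ := hf.1.continuous.bounded_above_of_compact_support hf.2.1
  exact ⟨B, forall_mem_image.2 fun r _ =>
    cavg_le_bound hf.1 (fun y => (le_abs_self _).trans (hB y)) _⟩

lemma cavg_le_cMax (hf : RegFun f) (x : X d) {r : ℝ} (hr : 0 ≤ r) : cavg f (x, r) ≤ cMax f x :=
  le_csSup (bddAbove_cavg hf x _) (mem_image_of_mem _ (mem_Ici.2 hr))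

/-- A maximising radius exists. -/
lemma exists_maximiser (hd : 1 ≤ d) (hf : RegFun f) (x : X d) :
    ∃ r, 0 ≤ r ∧ cavg f (x, r) = cMax f x := by
  have hv := vol_unit_pos (d := d)
  have hne : ((fun r => cavg f (x, r)) '' Ici 0).Nonempty := nonempty_Ici.image _
  rcases (cavg_nonneg hf.2.2 (x, 0)).trans (cavg_le_cMax hf x le_rfl) |>.eq_or_lt with h | h
  · exact ⟨0, le_rfl, le_antisymm (cavg_le_cMax hf x le_rfl) (h ▸ cavg_nonneg hf.2.2 _)⟩
  have hlim : Tendsto (fun r : ℝ => (r ^ d * (volume (ball (0 : X d) 1)).toReal)⁻¹ * ∫ y, f y)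
      atTop (𝓝 0) := by
    simpa using ((((tendsto_pow_atTop (by omega : d ≠ 0)).atTop_mul_const hv)).inv_tendsto_atTop
      |>.mul_const (∫ y, f y))
  obtain ⟨T, hT⟩ := eventually_atTop.1 (hlim.eventually_lt_const (half_pos h))
  obtain ⟨r, hr, hmax⟩ := (isCompact_Icc (a := (0:ℝ)) (b := max T 1)).exists_isMaxOn
    (nonempty_Icc.2 (zero_le_one.trans (le_max_right T 1)))
    ((continuous_cavg hf.1).comp (continuous_const.prodMk continuous_id)).continuousOn
  refine ⟨r, hr.1, le_antisymm (cavg_le_cMax hf x hr.1) ?_⟩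
  have key : ∀ t ∈ Ici (0:ℝ), cavg f (x, t) ≤ max (cavg f (x, r)) (cMax f x / 2) := fun t ht => by
    rcases le_total t (max T 1) with h1 | h1
    · exact le_max_of_le_left (hmax ⟨ht, h1⟩)
    · exact le_max_of_le_right ((cavg_le_of_pos hd hf x (zero_lt_one.trans_le
        ((le_max_right T 1).trans h1))).trans (hT t ((le_max_left T 1).trans h1)).le)
  have := csSup_le hne (forall_mem_image.2 key)
  change cMax f x ≤ _ at this
  rcases le_max_iff.1 this with h1 | h1
  · exact h1
  · linarith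

lemma lipschitzWith_cMax (hd : 1 ≤ d) (hf : RegFun f) {V : ℝ≥0} (hV : ∀ y, ‖vgrad f y‖ ≤ V) :
    LipschitzWith V (cMax f) := by
  refine LipschitzWith.of_le_add_mul V fun x y => ?_
  obtain ⟨r, hr, e⟩ := exists_maximiser hd hf x
  rw [← e, dist_eq_norm]
  have := abs_le.1 (abs_cavg_sub_le hf.1 hV x y r r)
  simp only [sub_self, abs_zero, add_zero] at this
  linarith [cavg_le_cMax hf y hr]

/-- Where a function touches an average with a variable radius from above. -/
lemma fderiv_touch (hf : ContDiff ℝ 1 f) {M g : X d → ℝ} {x : X d}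
    (hM : DifferentiableAt ℝ M x) (hg : DifferentiableAt ℝ g x)
    (hle : ∀ y, cavg f (y, g y) ≤ M y) (heq : cavg f (x, g x) = M x) :
    vgrad M x = gradA f x (g x) + slopeA f x (g x) • vgrad g x := by
  have hpair : HasFDerivAt (fun y => (y, g y))
      ((ContinuousLinearMap.id ℝ (X d)).prod (fderiv ℝ g x)) x :=
    (hasFDerivAt_id x).prodMk hg.hasFDerivAt
  have hc := (hasFDerivAt_cavg hf (x, g x)).comp x hpair
  have hmin : IsLocalMin (fun y => M y - cavg f (y, g y)) x :=
    Eventually.of_forall fun y => by simp only [heq, sub_self]; linarith [hle y]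
  have h0 := hmin.hasFDerivAt_eq_zero (hM.hasFDerivAt.sub hc)
  rw [sub_eq_zero] at h0
  refine ext_inner_right ℝ fun w => ?_
  rw [inner_vgrad, h0, inner_add_left, real_inner_smul_left, inner_vgrad]
  simp only [ContinuousLinearMap.comp_apply, ContinuousLinearMap.prod_apply,
    ContinuousLinearMap.id_apply]
  rw [cavgDeriv_apply hf, gradA, slopeA, real_inner_smul_left]
  have i1 : IntegrableOn (fun u => vgrad f (x + g x • u)) (ball (0 : X d) 1) :=
    ((((continuous_vgrad hf).comp (by fun_prop)).continuousOn).integrableOn_compact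
      (isCompact_closedBall (0 : X d) 1)).mono_set ball_subset_closedBall
  have i2 : IntegrableOn (fun u => ⟪vgrad f (x + g x • u), u⟫) (ball (0 : X d) 1) :=
    ((Continuous.inner ((continuous_vgrad hf).comp (by fun_prop))
      continuous_id).continuousOn.integrableOn_compact
      (isCompact_closedBall (0 : X d) 1)).mono_set ball_subset_closedBall
  rw [real_inner_comm, ← integral_inner i1, mul_assoc, ← integral_mul_const,
    ← mul_add, ← integral_add (i1.const_inner w) (i2.mul_const _)]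
  congr 1
  refine integral_congr_ae (Eventually.of_forall fun u => ?_)
  simp only [← inner_vgrad, inner_add_right, inner_smul_right, real_inner_comm _ w]
  ring

lemma vgrad_cMax (hf : RegFun f) {x : X d} (hx : DifferentiableAt ℝ (cMax f) x) {r : ℝ}
    (hr : 0 ≤ r) (he : cavg f (x, r) = cMax f x) : vgrad (cMax f) x = gradA f x r := by
  rw [fderiv_touch hf.1 (g := fun _ => r) hx (differentiableAt_const r)
    (fun y => cavg_le_cMax hf y hr) he]
  simp [vgrad, gradient]

lemma norm_gradA_le (hf : RegFun f) (x : X d) {r : ℝ} (hr : 0 < r) :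
    ‖gradA f x r‖ ≤ (r ^ d * (volume (ball (0 : X d) 1)).toReal)⁻¹ * ∫ y, ‖vgrad f y‖ := by
  have hv := vol_unit_pos (d := d)
  rw [gradA, norm_smul, norm_inv, Real.norm_of_nonneg hv.le, mul_inv_rev, mul_assoc]
  refine mul_le_mul_of_nonneg_left ((norm_integral_le_integral_norm _).trans ?_)
    (inv_nonneg.2 hv.le)
  have hpos : ∫ u in ball (0 : X d) 1, ‖vgrad f (x + r • u)‖ ≤
      ∫ u, ‖vgrad f (x + r • u)‖ :=
    setIntegral_le_integral (((continuous_vgrad hf.1).norm.comp (by fun_prop)).integrable_of_hasCompactSupport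
      ((hasCompactSupport_vgrad hf.2.1).norm.comp_homeomorph
        ((Homeomorph.smulOfNeZero r hr.ne').trans (Homeomorph.addLeft x))))
      (Eventually.of_forall fun _ => norm_nonneg _)
  refine hpos.trans (le_of_eq ?_)
  rw [Measure.integral_comp_smul (μ := volume) (fun u => ‖vgrad f (x + u)‖) r,
    integral_add_left_eq_self (fun u => ‖vgrad f u‖) x, finrank_euclideanSpace_fin,
    abs_of_pos (by positivity), smul_eq_mul]

lemma integral_ball_id : ∫ u in ball (0 : X d) 1, u = 0 := by
  have h := (Measure.measurePreserving_neg (volume : Measure (X d))).setIntegral_preimage_emb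
    (MeasurableEquiv.neg (X d)).measurableEmbedding (fun u => u) (ball (0 : X d) 1)
  simp only [neg_preimage, neg_ball, neg_zero] at h
  have h2 : (2:ℝ) • ∫ u in ball (0 : X d) 1, u = 0 := by
    rw [two_smul]; nth_rw 1 [← h]; rw [integral_neg, neg_add_cancel]
  exact (smul_eq_zero.1 h2).resolve_left two_ne_zero

lemma gradA_small (hf : ContDiff ℝ 1 f) (x : X d) {r ω : ℝ} (hr : 0 ≤ r)
    (hω : ∀ y, ‖y - x‖ ≤ r → ‖vgrad f y - vgrad f x‖ ≤ ω) :
    ‖gradA f x r - vgrad f x‖ ≤ ω ∧ |slopeA f x r| ≤ ω := by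
  have hv := vol_unit_pos (d := d)
  have hfin : volume (ball (0 : X d) 1) ≠ ⊤ := measure_ball_lt_top.ne
  have hi : IntegrableOn (fun u => vgrad f (x + r • u)) (ball (0 : X d) 1) :=
    ((((continuous_vgrad hf).comp (by fun_prop)).continuousOn).integrableOn_compact
      (isCompact_closedBall (0 : X d) 1)).mono_set ball_subset_closedBall
  have hb : ∀ u ∈ ball (0 : X d) 1, ‖vgrad f (x + r • u) - vgrad f x‖ ≤ ω := fun u hu =>
    hω _ (by
      rw [add_sub_cancel_left, norm_smul, Real.norm_of_nonneg hr]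
      exact mul_le_of_le_one_right hr (mem_ball_zero_iff.1 hu).le)
  constructor
  · have e : gradA f x r - vgrad f x = (volume (ball (0 : X d) 1)).toReal⁻¹ •
        ∫ u in ball (0 : X d) 1, (vgrad f (x + r • u) - vgrad f x) := by
      rw [integral_sub hi (integrableOn_const hfin), setIntegral_const, smul_sub, measureReal_def,
        inv_smul_smul₀ hv.ne']
      rfl
    rw [e, norm_smul, norm_inv, Real.norm_of_nonneg hv.le, inv_mul_le_iff₀ hv, mul_comm _ ω]
    exact norm_setIntegral_le_of_norm_le_const hfin.lt_top hb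
  · have i2 : IntegrableOn (fun u => ⟪vgrad f (x + r • u), u⟫) (ball (0 : X d) 1) :=
      ((Continuous.inner ((continuous_vgrad hf).comp (by fun_prop))
        continuous_id).continuousOn.integrableOn_compact
        (isCompact_closedBall (0 : X d) 1)).mono_set ball_subset_closedBall
    have i3 : IntegrableOn (fun u : X d => u) (ball (0 : X d) 1) :=
      (continuous_id.continuousOn.integrableOn_compact
        (isCompact_closedBall (0 : X d) 1)).mono_set ball_subset_closedBall
    have e : slopeA f x r = (volume (ball (0 : X d) 1)).toReal⁻¹ *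
        ∫ u in ball (0 : X d) 1, ⟪vgrad f (x + r • u) - vgrad f x, u⟫ := by
      simp only [inner_sub_left]
      rw [integral_sub i2 (i3.const_inner _), integral_inner i3, integral_ball_id, inner_zero_right,
        sub_zero]
      rfl
    rw [e, abs_mul, abs_inv, abs_of_pos hv, inv_mul_le_iff₀ hv, mul_comm _ ω]
    rw [← Real.norm_eq_abs]
    refine norm_setIntegral_le_of_norm_le_const hfin.lt_top fun u hu => ?_
    exact (abs_real_inner_le_norm _ _).trans ((mul_le_of_le_one_right (norm_nonneg _)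
      (mem_ball_zero_iff.1 hu).le).trans (hb u hu))

/-! ### Variable ranges -/

/-- A radius between two edges. -/
def rad (lo up : X d → ℝ) (x : X d) (t : ℝ) : ℝ := lo x + t * (up x - lo x)

/-- The maximal average over the radii between two edges. -/
def rMax (f : X d → ℝ) (lo up : X d → ℝ) (x : X d) : ℝ :=
  sSup ((fun t => cavg f (x, rad lo up x t)) '' Icc 0 1)

/-- The largest maximising parameter. -/
def tstar (f : X d → ℝ) (lo up : X d → ℝ) (x : X d) : ℝ :=
  sSup {t ∈ Icc (0:ℝ) 1 | cavg f (x, rad lo up x t) = rMax f lo up x}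

section Range

variable {lo up : X d → ℝ} {θ : ℝ≥0}

lemma continuous_rad (hlo : LipschitzWith θ lo) (hup : LipschitzWith θ up) :
    Continuous fun p : X d × ℝ => rad lo up p.1 p.2 :=
  (hlo.continuous.comp continuous_fst).add
    (continuous_snd.mul ((hup.continuous.comp continuous_fst).sub (hlo.continuous.comp continuous_fst)))

lemma continuous_objective (hf : ContDiff ℝ 1 f) (hlo : LipschitzWith θ lo)
    (hup : LipschitzWith θ up) :
    Continuous fun p : X d × ℝ => cavg f (p.1, rad lo up p.1 p.2) :=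
  (continuous_cavg hf).comp (continuous_fst.prodMk (continuous_rad hlo hup))

lemma lipschitzWith_rad (hlo : LipschitzWith θ lo) (hup : LipschitzWith θ up) {t : ℝ}
    (ht : t ∈ Icc (0:ℝ) 1) : LipschitzWith θ fun x => rad lo up x t := by
  refine LipschitzWith.of_le_add_mul θ fun x y => ?_
  have h1 := mul_le_mul_of_nonneg_left (hlo.le_add_mul x y) (sub_nonneg.2 ht.2)
  have h2 := mul_le_mul_of_nonneg_left (hup.le_add_mul x y) ht.1
  unfold rad
  linarith

variable (hf : RegFun f) (hlo : LipschitzWith θ lo) (hup : LipschitzWith θ up)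
include hf hlo hup

lemma cavg_le_rMax (x : X d) {t : ℝ} (ht : t ∈ Icc (0:ℝ) 1) :
    cavg f (x, rad lo up x t) ≤ rMax f lo up x :=
  le_csSup ((isCompact_Icc.image ((continuous_objective hf.1 hlo hup).comp
    (continuous_const.prodMk continuous_id))).bddAbove) (mem_image_of_mem _ ht)

lemma exists_rMax (x : X d) :
    ∃ t ∈ Icc (0:ℝ) 1, cavg f (x, rad lo up x t) = rMax f lo up x :=
  (mem_image _ _ _).1 ((isCompact_Icc.image ((continuous_objective hf.1 hlo hup).comp
    (continuous_const.prodMk continuous_id))).sSup_mem (nonempty_Icc.2 zero_le_one |>.image _))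

lemma lipschitzWith_rMax {V : ℝ≥0} (hV : ∀ y, ‖vgrad f y‖ ≤ V) :
    LipschitzWith (V * (1 + θ)) (rMax f lo up) := by
  refine LipschitzWith.of_le_add_mul _ fun x y => ?_
  obtain ⟨t, ht, e⟩ := exists_rMax hf hlo hup x
  rw [← e]
  have h1 := abs_le.1 (abs_cavg_sub_le hf.1 hV x y (rad lo up x t) (rad lo up y t))
  have h2 := (lipschitzWith_rad hlo hup ht).dist_le_mul x y
  rw [Real.dist_eq] at h2
  have h3 := cavg_le_rMax hf hlo hup y ht
  have h4 : (V : ℝ) * (‖x - y‖ + |rad lo up x t - rad lo up y t|) ≤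
      ((V * (1 + θ) : ℝ≥0) : ℝ) * dist x y := by
    rw [NNReal.coe_mul, NNReal.coe_add, NNReal.coe_one, mul_assoc]
    refine mul_le_mul_of_nonneg_left ?_ V.2
    rw [← dist_eq_norm]; linarith
  linarith

lemma tstar_spec (x : X d) : tstar f lo up x ∈ Icc (0:ℝ) 1 ∧
    cavg f (x, rad lo up x (tstar f lo up x)) = rMax f lo up x := by
  have hc : IsClosed {t ∈ Icc (0:ℝ) 1 | cavg f (x, rad lo up x t) = rMax f lo up x} :=
    isClosed_Icc.inter (isClosed_eq ((continuous_objective hf.1 hlo hup).comp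
      (continuous_const.prodMk continuous_id)) continuous_const)
  obtain ⟨t, ht, e⟩ := exists_rMax hf hlo hup x
  exact hc.csSup_mem ⟨t, ht, e⟩ ⟨1, fun s hs => hs.1.2⟩

lemma measurable_tstar : Measurable (tstar f lo up) := by
  obtain ⟨V, hV⟩ := exists_vgrad_bound hf
  refine measurable_of_Ici fun c => ?_
  have hS : tstar f lo up ⁻¹' Ici c =
      Prod.fst '' {p : X d × Icc (max c 0) 1 | cavg f (p.1, rad lo up p.1 p.2) = rMax f lo up p.1} := by
    ext x
    constructor
    · intro hx
      obtain ⟨⟨h0, h1⟩, he⟩ := tstar_spec hf hlo hup x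
      exact ⟨(x, ⟨_, max_le hx h0, h1⟩), he, rfl⟩
    · rintro ⟨⟨y, t, ht0, ht1⟩, he, rfl⟩
      exact le_trans ((le_max_left c 0).trans ht0)
        (le_csSup ⟨1, fun s hs => hs.1.2⟩ ⟨⟨(le_max_right c 0).trans ht0, ht1⟩, he⟩)
  rw [hS]
  exact (isClosedMap_fst_of_compactSpace _ (isClosed_eq
    ((continuous_objective hf.1 hlo hup).comp
      (continuous_fst.prodMk (continuous_subtype_val.comp continuous_snd)))
    ((lipschitzWith_rMax hf hlo hup hV).continuous.comp continuous_fst))).measurableSet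

lemma measurable_radStar : Measurable fun x => rad lo up x (tstar f lo up x) :=
  (continuous_rad hlo hup).measurable.comp
    (measurable_id.prodMk (measurable_tstar hf hlo hup))

lemma vgrad_rMax {x : X d} (hM : DifferentiableAt ℝ (rMax f lo up) x)
    (hl : DifferentiableAt ℝ lo x) (hu : DifferentiableAt ℝ up x) :
    ∃ w : X d, ‖w‖ ≤ θ ∧ vgrad (rMax f lo up) x =
      gradA f x (rad lo up x (tstar f lo up x)) +
        slopeA f x (rad lo up x (tstar f lo up x)) • w := by
  obtain ⟨ht, he⟩ := tstar_spec hf hlo hup x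
  set t := tstar f lo up x with htd
  refine ⟨vgrad (fun y => rad lo up y t) x, ?_, fderiv_touch hf.1 (g := fun y => rad lo up y t) hM
    (hl.add ((hu.sub hl).const_mul t)) (fun y => cavg_le_rMax hf hlo hup y ht) he⟩
  rw [norm_vgrad]
  exact norm_fderiv_le_of_lipschitz ℝ (lipschitzWith_rad hlo hup ht)

lemma rMax_le_cMax (h0 : ∀ x, 0 ≤ lo x) (hle : ∀ x, lo x ≤ up x) (x : X d) :
    rMax f lo up x ≤ cMax f x := by
  obtain ⟨t, ht, e⟩ := exists_rMax hf hlo hup x
  rw [← e]
  exact cavg_le_cMax hf x (by unfold rad; nlinarith [h0 x, hle x, ht.1])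

lemma cavg_le_rMax_of_mem (x : X d) {r : ℝ} (h1 : lo x ≤ r) (h2 : r ≤ up x) :
    cavg f (x, r) ≤ rMax f lo up x := by
  rcases (h1.trans h2).eq_or_lt with h | h
  · obtain rfl : r = lo x := le_antisymm (h ▸ h2) h1
    simpa [rad] using cavg_le_rMax hf hlo hup x (t := 0) ⟨le_rfl, zero_le_one⟩
  · have e : rad lo up x ((r - lo x) / (up x - lo x)) = r := by
      unfold rad; field_simp [(sub_pos.2 h).ne']; ring
    rw [← e]
    exact cavg_le_rMax hf hlo hup x ⟨div_nonneg (by linarith) (by linarith),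
      (div_le_one (sub_pos.2 h)).2 (by linarith)⟩

omit hf hlo hup in
lemma rMax_eq_self {x : X d} (hl : lo x = 0) (hu : up x = 0) : rMax f lo up x = f x := by
  simp [rMax, rad, hl, hu, cavg_zero, nonempty_Icc.2 (zero_le_one : (0:ℝ) ≤ 1)]

end Range

/-! ### The flux -/

lemma integral_fderiv_eq_zero {G : X d → ℝ} {V : ℝ≥0} (hG : LipschitzWith V G)
    (hs : HasCompactSupport G) (w : X d) : ∫ x, fderiv ℝ G x w = 0 := by
  have h := LipschitzWith.integral_lineDeriv_mul_eq (μ := volume)
    (LipschitzWith.const (1 : ℝ) : LipschitzWith 0 fun _ : X d => (1 : ℝ)) hG hs (-w)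
  have h0 : ∀ x : X d, lineDeriv ℝ (fun _ : X d => (1 : ℝ)) x (-w) = 0 := fun x => by simp [lineDeriv]
  simp only [h0, neg_neg, mul_one, zero_mul, integral_zero] at h
  refine Eq.trans ?_ h.symm
  refine integral_congr_ae ?_
  filter_upwards [hG.ae_differentiableAt] with x hx
  exact hx.lineDeriv_eq_fderiv.symm

lemma setIntegral_vgrad_eq {M g : X d → ℝ} {V : ℝ≥0} (hM : LipschitzWith V M)
    (hg : LipschitzWith V g) (z : X d) {s : ℝ} (hs : 0 ≤ s) (h : ∀ x ∉ cube z s, M x = g x) :
    ∫ x in cube z s, vgrad M x = ∫ x in cube z s, vgrad g x := by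
  have hG := hM.sub hg
  have hcs : HasCompactSupport fun x => M x - g x :=
    HasCompactSupport.intro (isCompact_closedBall z (((d:ℝ) + 1) * s)) fun x hx => by
      refine sub_eq_zero.2 (h x fun hxc => hx ?_)
      rw [mem_closedBall, dist_eq_norm]
      refine (norm_le_sqrt_mul hs fun i => ?_).trans (mul_le_mul_of_nonneg_right ?_ hs)
      · have := hxc i
        rw [PiLp.sub_apply, abs_le]; constructor <;> linarith
      · rw [Real.sqrt_le_iff]; constructor <;> nlinarith [Nat.cast_nonneg (α := ℝ) d]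
  have hbd : ∀ {φ : X d → ℝ}, LipschitzWith V φ → IntegrableOn (vgrad φ) (cube z s) := fun hφ =>
    Measure.integrableOn_of_bounded (M := V) (volume_cube_lt_top z hs).ne
      (measurable_vgrad _).aestronglyMeasurable
      (Eventually.of_forall fun x => (norm_vgrad _ x).trans_le (norm_fderiv_le_of_lipschitz ℝ hφ))
  rw [← sub_eq_zero, ← integral_sub (hbd hM) (hbd hg)]
  refine ext_inner_right ℝ fun w => ?_
  rw [inner_zero_left, real_inner_comm, ← integral_inner (f := fun x => vgrad M x - vgrad g x) ((hbd hM).sub (hbd hg))]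
  rw [← integral_fderiv_eq_zero hG hcs w, ← integral_indicator (measurableSet_cube z s)]
  refine integral_congr_ae ?_
  filter_upwards [hM.ae_differentiableAt, hg.ae_differentiableAt,
    ae_all_iff.2 fun i => ae_coord_ne i (z i), ae_all_iff.2 fun i => ae_coord_ne i (z i + s)]
    with x hxM hxg hx1 hx2
  rw [fderiv_fun_sub hxM hxg]
  by_cases hx : x ∈ cube z s
  · simp [indicator_of_mem hx, real_inner_comm _ w, inner_sub_left, inner_vgrad]
  · rw [indicator_of_notMem hx]
    obtain ⟨i, hi⟩ := not_forall.1 hx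
    have hev : (fun y => M y - g y) =ᶠ[𝓝 x] fun _ => 0 := by
      have hco : Continuous fun y : X d => y i := by fun_prop
      rcases (not_and_or.1 hi) with h1 | h1
      · filter_upwards [(isOpen_lt hco continuous_const).mem_nhds (not_le.1 h1)] with y hy
        exact sub_eq_zero.2 (h y fun hc => absurd (hc i).1 (not_le.2 hy))
      · have : z i + s < x i := lt_of_le_of_ne (not_lt.1 h1) (Ne.symm (hx2 i))
        filter_upwards [(isOpen_lt continuous_const hco).mem_nhds this] with y hy
        exact sub_eq_zero.2 (h y fun hc => absurd (hc i).2 (not_lt.2 (le_of_lt hy)))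
    rw [← fderiv_fun_sub hxM hxg]
    change (0:ℝ) = fderiv ℝ (fun y => M y - g y) x w
    simp [hev.fderiv_eq]

lemma lintegral_vgrad_le {M : X d → ℝ} {V : ℝ≥0} (hM : LipschitzWith V M) (z : X d) {s : ℝ}
    (hs : 0 ≤ s) {C : ℝ} (hC : 0 ≤ C) {e : X d} (he : ‖e‖ ≤ 1) :
    ∫⁻ x in cube z s, ‖vgrad M x‖ₑ ≤ ENNReal.ofReal C * ‖∫ x in cube z s, vgrad M x‖ₑ +
      ∫⁻ x in cube z s, ENNReal.ofReal (‖vgrad M x‖ - C * ⟪e, vgrad M x⟫) := by
  have hi : IntegrableOn (vgrad M) (cube z s) :=
    Measure.integrableOn_of_bounded (M := V) (volume_cube_lt_top z hs).ne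
      (measurable_vgrad _).aestronglyMeasurable
      (Eventually.of_forall fun x => (norm_vgrad _ x).trans_le (norm_fderiv_le_of_lipschitz ℝ hM))
  set g : X d → ℝ := fun x => max (‖vgrad M x‖ - C * ⟪e, vgrad M x⟫) 0 with hg
  have hgi : IntegrableOn g (cube z s) :=
    Integrable.sup (hi.norm.sub ((hi.const_inner e).const_mul C)) (integrable_zero _ _ _)
  have key : ∫ x in cube z s, ‖vgrad M x‖ ≤
      C * ‖∫ x in cube z s, vgrad M x‖ + ∫ x in cube z s, g x := by
    have h1 : ∫ x in cube z s, ‖vgrad M x‖ ≤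
        ∫ x in cube z s, (C * ⟪e, vgrad M x⟫ + g x) := by
      refine setIntegral_mono hi.norm (((hi.const_inner e).const_mul C).add hgi) fun x => ?_
      have : ‖vgrad M x‖ - C * ⟪e, vgrad M x⟫ ≤ g x := le_max_left _ _
      linarith
    rw [integral_add ((hi.const_inner e).const_mul C) hgi, integral_const_mul,
      integral_inner hi] at h1
    have h2 := mul_le_mul_of_nonneg_left (abs_le.1 (abs_inner_le he
      (∫ x in cube z s, vgrad M x))).2 hC
    linarith
  have e1 : ∫⁻ x in cube z s, ‖vgrad M x‖ₑ = ENNReal.ofReal (∫ x in cube z s, ‖vgrad M x‖) :=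
    (ofReal_integral_norm_eq_lintegral_enorm hi).symm
  have e2 : ENNReal.ofReal (∫ x in cube z s, g x) =
      ∫⁻ x in cube z s, ENNReal.ofReal (‖vgrad M x‖ - C * ⟪e, vgrad M x⟫) := by
    rw [ofReal_integral_eq_lintegral_ofReal hgi (Eventually.of_forall fun x => le_max_right _ _)]
    refine lintegral_congr fun x => ?_
    rw [hg, ENNReal.ofReal_max, ENNReal.ofReal_zero, max_eq_left zero_le]
  rw [e1, ← e2, ← ofReal_norm (E := X d) (∫ x in cube z s, vgrad M x), ← ENNReal.ofReal_mul hC]
  exact (ENNReal.ofReal_le_ofReal key).trans ENNReal.ofReal_add_le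

lemma ofReal_cone_le {C lam θ : ℝ} (hC : 0 ≤ C) (hθ : θ ≤ lam) (hθ1 : θ ≤ 1) {e A w : X d}
    (he : ‖e‖ ≤ 1) {s : ℝ} (hw : ‖w‖ ≤ θ) :
    ENNReal.ofReal (‖A + s • w‖ - C * ⟪e, A + s • w⟫) ≤
      ENNReal.ofReal (‖A‖ + |s| - C * (⟪e, A⟫ - lam * |s|)) := by
  have h0 : ‖s • w‖ ≤ |s| * θ := by
    rw [norm_smul, Real.norm_eq_abs]; exact mul_le_mul_of_nonneg_left hw (abs_nonneg s)
  have h1 := (norm_add_le A (s • w)).trans (add_le_add le_rfl h0)
  have h2 := (abs_le.1 (abs_inner_le he (s • w))).1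
  have h3 := mul_le_mul_of_nonneg_left hθ1 (abs_nonneg s)
  have h4 := mul_le_mul_of_nonneg_left hθ (abs_nonneg s)
  refine ENNReal.ofReal_le_ofReal ?_
  rw [inner_add_right]
  have h5 := mul_le_mul_of_nonneg_left (show -⟪e, s • w⟫ ≤ |s| * lam by linarith) hC
  linarith

end Vale.Agent.P137.Centred
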