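import Vale.Agent.P137.Centred.Outer.Trees

/-!
P137, centred operator, outer part: cubes near the boundary of an ancestor are geometrically rare.
-/

open MeasureTheory Metric Set Filter
open scoped ENNReal Topology RealInnerProductSpace

noncomputable section

namespace Vale.Agent.P137.Centred

variable {d : ℕ}

/-- The index `2 ^ i * P + o`. -/
def sub2 (i : ℕ) (P o : Fin d → ℤ) : Fin d → ℤ := fun c => 2 ^ i * P c + o c

lemma anc_sub2 (i : ℕ) (P : Fin d → ℤ) {o : Fin d → ℤ} (ho : o ∈ off d i) :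
    anc i (sub2 i P o) = P := funext fun c => by
  have h2 : (0:ℤ) < 2 ^ i := by positivity
  simp [anc, sub2, Int.add_comm (2 ^ i * P c), Int.add_mul_ediv_left _ _ h2.ne',
    Int.ediv_eq_zero_of_lt (mem_off.1 ho c).1 (mem_off.1 ho c).2]

lemma emod_mem_off (i : ℕ) (k : Fin d → ℤ) : (fun c => k c % 2 ^ i) ∈ off d i :=
  mem_off.2 fun c => ⟨Int.emod_nonneg _ (by positivity), Int.emod_lt_of_pos _ (by positivity)⟩

lemma sub2_anc (i : ℕ) (k : Fin d → ℤ) : sub2 i (anc i k) (fun c => k c % 2 ^ i) = k :=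
  funext fun _ => Int.mul_ediv_add_emod _ _

/-- Indices split into ancestors and offsets. -/
def splitEquiv (d i : ℕ) : (Fin d → ℤ) ≃ (Fin d → ℤ) × {o // o ∈ off d i} where
  toFun k := (anc i k, ⟨_, emod_mem_off i k⟩)
  invFun p := sub2 i p.1 p.2.1
  left_inv k := sub2_anc i k
  right_inv := by
    rintro ⟨P, o, ho⟩
    have h := anc_sub2 i P ho
    refine Prod.ext h (Subtype.ext (funext fun c => ?_))
    simp only [sub2]
    rw [Int.add_comm, Int.add_mul_emod_self_left,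
      Int.emod_eq_of_lt (mem_off.1 ho c).1 (mem_off.1 ho c).2]

lemma tsum_split (i : ℕ) (F : (Fin d → ℤ) → ℝ≥0∞) :
    ∑' k, F k = ∑' P, ∑ o ∈ off d i, F (sub2 i P o) := by
  rw [← (splitEquiv d i).symm.tsum_eq, ENNReal.tsum_prod']
  exact tsum_congr fun P => Finset.tsum_subtype (off d i) fun o => F (sub2 i P o)

lemma kids_eq (p : Fin d → ℤ) : ∀ c, c ∈ kids p ↔ ∃ o ∈ off d 1, sub2 1 p o = c := fun c => by
  rw [mem_kids]
  exact ⟨fun h => ⟨_, emod_mem_off 1 c, by rw [← h, sub2_anc]⟩,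
    fun ⟨o, ho, h⟩ => h ▸ anc_sub2 1 p ho⟩

/-- The cube of index `k`, `i` levels below a cube, lies near the boundary of a child of it. -/
def nearAt (Cn i : ℕ) (k : Fin d → ℤ) : Prop :=
  i = 0 ∨ ∃ c, k c % 2 ^ (i - 1) < (Cn : ℤ) ∨ 2 ^ (i - 1) ≤ k c % 2 ^ (i - 1) + (Cn : ℤ)

lemma nearAt_sub2 (Cn i : ℕ) (P o : Fin d → ℤ) : nearAt Cn i (sub2 i P o) ↔ nearAt Cn i o := by
  rcases i with _ | p
  · simp [nearAt]
  · simp only [nearAt, sub2, Nat.add_sub_cancel, pow_succ]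
    have e : ∀ c, (2 ^ p * 2 * P c + o c) % 2 ^ p = o c % 2 ^ p := fun c => by
      rw [Int.add_comm, mul_assoc, Int.add_mul_emod_self_left]
    simp only [e]

/-- A point close to the complement of a child cube lies in a cube near its boundary. -/
lemma nearAt_of_infDist (hd : 1 ≤ d) (a : X d) {L : ℝ} (hL : 0 < L) {n m Cn : ℕ} (hnm : n < m)
    {k : Fin d → ℤ} {y : X d} (hy : y ∈ gcell a L m k)
    (h : infDist y (gcell a L (n + 1) (anc (m - n - 1) k))ᶜ < Cn * lev L m) :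
    nearAt Cn (m - n) k := by
  by_contra hne
  unfold nearAt at hne
  push Not at hne
  obtain ⟨-, hne⟩ := hne
  set p := m - n - 1 with hp
  have hl := lev_pos hL m
  have hlp : lev L (n + 1) = 2 ^ p * lev L m := by
    rw [lev_add L (n + 1) p]; congr 2; omega
  refine absurd h (not_lt.2 ((le_infDist ?_).2 fun z hz => ?_))
  · refine ⟨a + lev L (n + 1) • iv (anc p k) + lev L (n + 1) • iv (fun _ => 1), fun hmem => ?_⟩
    have := (hmem ⟨0, hd⟩).2
    simp [iv] at this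
  · by_contra hlt
    push Not at hlt
    refine hz fun c => ?_
    obtain ⟨h1, h2⟩ := hne c
    have e : k c = 2 ^ p * anc p k c + k c % 2 ^ p := (Int.mul_ediv_add_emod _ _).symm
    have hr1 : (Cn : ℝ) ≤ ((k c % 2 ^ p : ℤ) : ℝ) := by exact_mod_cast h1
    have hr2 : ((k c % 2 ^ p : ℤ) : ℝ) + Cn + 1 ≤ 2 ^ p := by
      have : k c % 2 ^ p + (Cn : ℤ) + 1 ≤ 2 ^ p := by omega
      exact_mod_cast this
    have e' : (k c : ℝ) = 2 ^ p * (anc p k c : ℝ) + ((k c % 2 ^ p : ℤ) : ℝ) := by exact_mod_cast e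
    have hy' := hy c
    have hd' : |y c - z c| < Cn * lev L m := by
      refine lt_of_le_of_lt ?_ (dist_eq_norm y z ▸ hlt)
      simpa using PiLp.norm_apply_le (y - z) c
    obtain ⟨hd1, hd2⟩ := abs_lt.1 hd'
    rw [grid_apply] at hy' ⊢
    rw [hlp]
    rw [e'] at hy'
    have m1 := mul_le_mul_of_nonneg_left hr1 hl.le
    have m2 := mul_le_mul_of_nonneg_left hr2 hl.le
    constructor <;> nlinarith [hy'.1, hy'.2, m1, m2]

open Classical in
/-- The offsets near the boundary. -/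
def nearOff (d Cn i : ℕ) : Finset (Fin d → ℤ) := (off d i).filter (nearAt Cn i)

lemma card_nearOff (d Cn i : ℕ) :
    (nearOff d Cn i).card * 2 ^ i ≤ (4 * d * Cn + 1) * 2 ^ (i * d) := by
  classical
  rcases i with _ | p
  · simpa [nearOff] using (Finset.card_filter_le (off d 0) (nearAt Cn 0)).trans
      (show (off d 0).card ≤ 4 * d * Cn + 1 by rw [card_off]; simp)
  set i := p + 1 with hi
  set B : Finset ℤ := Finset.Ico 0 (Cn : ℤ) ∪ Finset.Ico (2 ^ p - (Cn : ℤ)) (2 ^ p) ∪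
    Finset.Ico (2 ^ p) (2 ^ p + (Cn : ℤ)) ∪ Finset.Ico (2 ^ i - (Cn : ℤ)) (2 ^ i) with hB
  have hBc : B.card ≤ 4 * Cn := by
    refine (Finset.card_union_le _ _).trans ?_
    refine (add_le_add ((Finset.card_union_le _ _).trans
      (add_le_add (Finset.card_union_le _ _) le_rfl)) le_rfl).trans ?_
    simp only [Int.card_Ico]
    omega
  set F : Fin d → Finset (Fin d → ℤ) := fun c =>
    Fintype.piFinset (Function.update (fun _ => Finset.Ico (0 : ℤ) (2 ^ i)) c B) with hF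
  have hsub : nearOff d Cn i ⊆ Finset.univ.biUnion F := by
    intro o ho
    simp only [nearOff, Finset.mem_filter, nearAt, hi, Nat.add_sub_cancel] at ho
    obtain ⟨ho1, ho2⟩ := ho
    obtain ⟨c, hc⟩ := ho2.resolve_left (by omega)
    refine Finset.mem_biUnion.2 ⟨c, Finset.mem_univ _, Fintype.mem_piFinset.2 fun c' => ?_⟩
    have h0 := mem_off.1 ho1
    by_cases hcc : c' = c
    · subst hcc
      rw [Function.update_self]
      simp only [hB, hi, Finset.mem_union, Finset.mem_Ico, pow_succ]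
      have := h0 c'
      rw [pow_succ] at this
      rcases Int.lt_or_le (o c') (2 ^ p) with h | h
      · rw [Int.emod_eq_of_lt this.1 h] at hc
        omega
      · rw [← Int.sub_emod_right (o c') (2 ^ p), Int.emod_eq_of_lt (by omega) (by omega)] at hc
        omega
    · rw [Function.update_of_ne hcc, Finset.mem_Ico]
      exact h0 c'
  have hFc : ∀ c, (F c).card * 2 ^ i ≤ 4 * Cn * 2 ^ (i * d) := fun c => by
    rw [hF, Fintype.card_piFinset, ← Finset.mul_prod_erase _ _ (Finset.mem_univ c),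
      Function.update_self, Finset.prod_congr rfl fun c' hc' => by
        rw [Function.update_of_ne (Finset.ne_of_mem_erase hc')], Finset.prod_const,
      Finset.card_erase_of_mem (Finset.mem_univ c), Finset.card_univ, Fintype.card_fin,
      Int.card_Ico, sub_zero, Int.toNat_pow_of_nonneg (by norm_num), mul_assoc]
    refine Nat.mul_le_mul hBc (le_of_eq ?_)
    rw [show Int.toNat 2 = 2 from rfl, ← pow_succ, ← pow_mul]
    congr 2
    have := Fin.pos c
    omega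
  calc (nearOff d Cn i).card * 2 ^ i ≤ (∑ c, (F c).card) * 2 ^ i :=
        Nat.mul_le_mul_right _ ((Finset.card_le_card hsub).trans Finset.card_biUnion_le)
    _ = ∑ c, (F c).card * 2 ^ i := Finset.sum_mul _ _ _
    _ ≤ ∑ _c : Fin d, 4 * Cn * 2 ^ (i * d) := Finset.sum_le_sum fun c _ => hFc c
    _ = 4 * d * Cn * 2 ^ (i * d) := by simp; ring
    _ ≤ _ := Nat.mul_le_mul_right _ (Nat.le_add_right _ _)

lemma nearOff_weight (d Cn i : ℕ) :
    ((nearOff d Cn i).card : ℝ≥0∞) * ((2:ℝ≥0∞) ^ (i * d))⁻¹ ≤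
      ((4 * d * Cn + 1 : ℕ) : ℝ≥0∞) * ((2:ℝ≥0∞) ^ i)⁻¹ := by
  have h := card_nearOff d Cn i
  have h' : ((nearOff d Cn i).card : ℝ≥0∞) * 2 ^ i ≤
      ((4 * d * Cn + 1 : ℕ) : ℝ≥0∞) * 2 ^ (i * d) := by exact_mod_cast h
  have h0 : ((2:ℝ≥0∞) ^ (i * d)) ≠ 0 := by positivity
  have h1 : ((2:ℝ≥0∞) ^ (i * d)) ≠ ⊤ := ENNReal.pow_ne_top (by norm_num)
  have g0 : ((2:ℝ≥0∞) ^ i) ≠ 0 := by positivity
  have g1 : ((2:ℝ≥0∞) ^ i) ≠ ⊤ := ENNReal.pow_ne_top (by norm_num)
  calc ((nearOff d Cn i).card : ℝ≥0∞) * ((2:ℝ≥0∞) ^ (i * d))⁻¹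
      = (((nearOff d Cn i).card : ℝ≥0∞) * 2 ^ i) * ((2:ℝ≥0∞) ^ (i * d))⁻¹ * ((2:ℝ≥0∞) ^ i)⁻¹ := by
        rw [mul_right_comm _ ((2:ℝ≥0∞) ^ i) _, mul_assoc _ ((2:ℝ≥0∞) ^ i),
          ENNReal.mul_inv_cancel g0 g1, mul_one]
    _ ≤ ((4 * d * Cn + 1 : ℕ) : ℝ≥0∞) * 2 ^ (i * d) * ((2:ℝ≥0∞) ^ (i * d))⁻¹ *
          ((2:ℝ≥0∞) ^ i)⁻¹ := mul_le_mul_left (mul_le_mul_left h' _) _
    _ = _ := by rw [mul_assoc _ ((2:ℝ≥0∞) ^ (i * d)), ENNReal.mul_inv_cancel h0 h1, mul_one]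

end Vale.Agent.P137.Centred
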