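import Vale.Agent.P137.Centred.Outer.Excess

/-!
P137, centred operator, outer part: the trees of cubes with nearly constant direction in a
truncated dyadic grid, and the sum of the masses of their tops.
-/

open MeasureTheory Metric Set Filter
open scoped ENNReal Topology RealInnerProductSpace

noncomputable section

namespace Vale.Agent.P137.Centred

variable {d : ℕ}

/-- The side of the cubes of level `n`. -/
def lev (L : ℝ) (n : ℕ) : ℝ := L / 2 ^ n

/-- The cube of level `n` and index `k`. -/
def gcell (a : X d) (L : ℝ) (n : ℕ) (k : Fin d → ℤ) : Set (X d) :=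
  cube (a + lev L n • iv k) (lev L n)

/-- The index of the ancestor `i` levels up. -/
def anc (i : ℕ) (k : Fin d → ℤ) : Fin d → ℤ := fun c => k c / 2 ^ i

/-- The integral of a field over a cube of a grid. -/
def gint (v : X d → X d) (a : X d) (L : ℝ) (n : ℕ) (k : Fin d → ℤ) : X d :=
  cint v (a + lev L n • iv k) (lev L n)

/-- The direction of a cube of a grid. -/
def gdir (v : X d → X d) (a : X d) (L : ℝ) (n : ℕ) (k : Fin d → ℤ) : X d :=
  ebar v (a + lev L n • iv k) (lev L n)

lemma lev_pos {L : ℝ} (hL : 0 < L) (n : ℕ) : 0 < lev L n := by unfold lev; positivity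

lemma lev_add (L : ℝ) (n i : ℕ) : lev L n = 2 ^ i * lev L (n + i) := by
  unfold lev; rw [pow_add]; field_simp

lemma anc_zero (k : Fin d → ℤ) : anc 0 k = k := funext fun c => by simp [anc]

lemma anc_anc (i j : ℕ) (k : Fin d → ℤ) : anc i (anc j k) = anc (i + j) k := funext fun c => by
  simp only [anc]
  rw [Int.ediv_ediv_of_nonneg (by positivity), ← pow_add, add_comm]

lemma gidx_anc (a y : X d) {L : ℝ} (hL : 0 < L) {n m : ℕ} (h : n ≤ m) :
    anc (m - n) (gidx a (lev L m) y) = gidx a (lev L n) y := by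
  funext c
  rw [lev_add L n (m - n), Nat.add_sub_cancel' h, gidx_div a y (lev_pos hL m)]
  rfl

lemma gcell_subset (a : X d) {L : ℝ} (hL : 0 < L) {n m : ℕ} (h : n ≤ m) (k : Fin d → ℤ) :
    gcell a L m k ⊆ gcell a L n (anc (m - n) k) := fun y hy => by
  rw [gcell, mem_grid (lev_pos hL _)] at hy ⊢
  rw [← gidx_anc a y hL h, hy]

/-! ### Index sets -/

open Classical in
/-- The cubes of level `n` under a set of roots. -/
def cells (R : Finset (Fin d → ℤ)) (n : ℕ) : Finset (Fin d → ℤ) :=
  R.biUnion fun r => (off d n).image fun o c => 2 ^ n * r c + o c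

lemma mem_cells {R : Finset (Fin d → ℤ)} {n : ℕ} {k : Fin d → ℤ} :
    k ∈ cells R n ↔ anc n k ∈ R := by
  classical
  have h2 : (0:ℤ) < 2 ^ n := by positivity
  simp only [cells, Finset.mem_biUnion, Finset.mem_image, mem_off]
  constructor
  · rintro ⟨r, hr, o, ho, rfl⟩
    convert hr using 1
    funext c
    simp [anc, Int.add_comm (2 ^ n * r c), Int.add_mul_ediv_left _ _ h2.ne',
      Int.ediv_eq_zero_of_lt (ho c).1 (ho c).2]
  · exact fun h => ⟨anc n k, h, fun c => k c % 2 ^ n,
      fun c => ⟨Int.emod_nonneg _ h2.ne', Int.emod_lt_of_pos _ h2⟩,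
      funext fun c => Int.mul_ediv_add_emod _ _⟩

lemma anc_mem_cells {R : Finset (Fin d → ℤ)} {n m : ℕ} (h : n ≤ m) {k : Fin d → ℤ}
    (hk : k ∈ cells R m) : anc (m - n) k ∈ cells R n := by
  rw [mem_cells] at hk ⊢
  rwa [anc_anc, Nat.add_sub_cancel' h]

open Classical in
/-- The children of a cube. -/
def kids (k : Fin d → ℤ) : Finset (Fin d → ℤ) := cells {k} 1

lemma mem_kids {k c : Fin d → ℤ} : c ∈ kids k ↔ anc 1 c = k := by
  classical
  simp [kids, mem_cells]

lemma sum_cells_succ {M : Type*} [AddCommMonoid M] (R : Finset (Fin d → ℤ)) (n : ℕ)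
    (F : (Fin d → ℤ) → M) :
    ∑ k ∈ cells R (n + 1), F k = ∑ p ∈ cells R n, ∑ c ∈ kids p, F c := by
  classical
  rw [← Finset.sum_fiberwise_of_maps_to (fun k hk => (anc_mem_cells (Nat.le_add_right n 1) hk))]
  refine Finset.sum_congr rfl fun p hp => Finset.sum_congr ?_ fun _ _ => rfl
  ext c
  simp only [Finset.mem_filter, mem_kids, Nat.add_sub_cancel_left]
  refine ⟨fun h => h.2, fun h => ⟨?_, h⟩⟩
  rw [mem_cells] at hp ⊢
  rw [← h, anc_anc] at hp
  exact hp

lemma cells_zero (R : Finset (Fin d → ℤ)) : cells R 0 = R := by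
  ext k; rw [mem_cells, anc_zero]

lemma gint_children {v : X d → X d} (hv : Integrable v) (a : X d) {L : ℝ} (hL : 0 < L) (n : ℕ)
    (p : Fin d → ℤ) : gint v a L n p = ∑ c ∈ kids p, gint v a L (n + 1) c := by
  classical
  rw [gint, lev_add L n 1, cint_split _ (lev_pos hL _) 1 hv.integrableOn, kids, cells,
    Finset.singleton_biUnion, Finset.sum_image]
  · refine Finset.sum_congr rfl fun o _ => ?_
    unfold gint
    congr 1
    ext c
    simp only [grid_apply]
    push_cast
    ring
  · intro o _ o' _ h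
    funext c
    exact add_left_cancel (congrFun h c)

/-! ### The trees -/

section Tree

variable (v : X d → X d) (a : X d) (L thr : ℝ)

/-- The level of the top of the tree of a cube. -/
def topl : ℕ → (Fin d → ℤ) → ℕ
  | 0, _ => 0
  | n + 1, k =>
      if thr < ‖gdir v a L (n + 1) k - gdir v a L (topl n (anc 1 k))
          (anc (n + 1 - topl n (anc 1 k)) k)‖ then n + 1
      else topl n (anc 1 k)

/-- The direction of the tree of a cube. -/
def tdir (n : ℕ) (k : Fin d → ℤ) : X d :=
  gdir v a L (topl v a L thr n k) (anc (n - topl v a L thr n k) k)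

variable {v a L thr}

lemma topl_le : ∀ (n : ℕ) (k : Fin d → ℤ), topl v a L thr n k ≤ n
  | 0, _ => le_rfl
  | n + 1, k => by
    simp only [topl]
    split_ifs
    · exact le_rfl
    · exact (topl_le n _).trans (Nat.le_succ n)

lemma topl_succ (n : ℕ) (k : Fin d → ℤ) :
    (topl v a L thr (n + 1) k = n + 1 ∧
        thr < ‖gdir v a L (n + 1) k - tdir v a L thr n (anc 1 k)‖) ∨
      (topl v a L thr (n + 1) k = topl v a L thr n (anc 1 k) ∧
        ‖gdir v a L (n + 1) k - tdir v a L thr n (anc 1 k)‖ ≤ thr) := by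
  have h : n + 1 - topl v a L thr n (anc 1 k) = n - topl v a L thr n (anc 1 k) + 1 := by
    have := topl_le (v := v) (a := a) (L := L) (thr := thr) n (anc 1 k); omega
  simp only [tdir, anc_anc, topl, ← h]
  split_ifs with hh
  · exact Or.inl ⟨rfl, hh⟩
  · exact Or.inr ⟨rfl, not_lt.1 hh⟩

lemma tdir_succ_of_eq {n : ℕ} {k : Fin d → ℤ}
    (h : topl v a L thr (n + 1) k = topl v a L thr n (anc 1 k)) :
    tdir v a L thr (n + 1) k = tdir v a L thr n (anc 1 k) := by
  have := topl_le (v := v) (a := a) (L := L) (thr := thr) n (anc 1 k)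
  unfold tdir
  rw [h, anc_anc]
  congr 2
  omega

lemma tdir_of_top {n : ℕ} {k : Fin d → ℤ} (h : topl v a L thr n k = n) :
    tdir v a L thr n k = gdir v a L n k := by
  rw [tdir, h, Nat.sub_self, anc_zero]

lemma norm_gdir_sub_tdir_le (hthr : 0 ≤ thr) :
    ∀ (n : ℕ) (k : Fin d → ℤ), ‖gdir v a L n k - tdir v a L thr n k‖ ≤ thr
  | 0, k => by rw [tdir_of_top rfl, sub_self, norm_zero]; exact hthr
  | n + 1, k => by
    rcases topl_succ (v := v) (a := a) (L := L) (thr := thr) n k with ⟨h, -⟩ | ⟨h, h'⟩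
    · rw [tdir_of_top h, sub_self, norm_zero]; exact hthr
    · rwa [tdir_succ_of_eq h]

lemma topl_top : ∀ (n : ℕ) (k : Fin d → ℤ),
    topl v a L thr (topl v a L thr n k) (anc (n - topl v a L thr n k) k) = topl v a L thr n k
  | 0, k => rfl
  | n + 1, k => by
    rcases topl_succ (v := v) (a := a) (L := L) (thr := thr) n k with ⟨h, -⟩ | ⟨h, -⟩
    · rw [h, Nat.sub_self, anc_zero, h]
    · have := topl_le (v := v) (a := a) (L := L) (thr := thr) n (anc 1 k)
      rw [h, show n + 1 - topl v a L thr n (anc 1 k) = n - topl v a L thr n (anc 1 k) + 1 by omega,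
        ← anc_anc]
      exact topl_top n (anc 1 k)

/-- Below a top, the first cube out of its tree is a top with parent in the tree. -/
lemma exists_first_stop {nQ : ℕ} : ∀ (m : ℕ) (k : Fin d → ℤ), nQ ≤ m →
    topl v a L thr nQ (anc (m - nQ) k) = nQ → topl v a L thr m k ≠ nQ →
    ∃ n, nQ ≤ n ∧ n < m ∧ topl v a L thr n (anc (m - n) k) = nQ ∧
      topl v a L thr (n + 1) (anc (m - n - 1) k) = n + 1
  | 0, k, h, hQ, hne => by
    obtain rfl : nQ = 0 := by omega
    simp [topl] at hne
  | m + 1, k, h, hQ, hne => by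
    rcases Nat.lt_or_ge m nQ with hlt | hge
    · obtain rfl : nQ = m + 1 := by omega
      rw [Nat.sub_self, anc_zero] at hQ
      exact absurd hQ hne
    · by_cases hp : topl v a L thr m (anc 1 k) = nQ
      · rcases topl_succ (v := v) (a := a) (L := L) (thr := thr) m k with ⟨h1, -⟩ | ⟨h1, -⟩
        · exact ⟨m, hge, Nat.lt_succ_self m, by rw [show m + 1 - m = 1 by omega]; exact hp,
            by rw [show m + 1 - m - 1 = 0 by omega, anc_zero]; exact h1⟩
        · exact absurd (h1.trans hp) hne
      · obtain ⟨n, h1, h2, h3, h4⟩ := exists_first_stop m (anc 1 k) hge (by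
          rw [anc_anc, show m - nQ + 1 = m + 1 - nQ by omega]; exact hQ) hp
        refine ⟨n, h1, h2.trans (Nat.lt_succ_self m), ?_, ?_⟩
        · rw [show m + 1 - n = m - n + 1 by omega, ← anc_anc]; exact h3
        · rw [show m + 1 - n - 1 = m - n - 1 + 1 by omega, ← anc_anc]; exact h4

end Tree

/-! ### The masses of the tops -/

section Sums

open Classical

variable (v : X d → X d) (a : X d) (L thr : ℝ) (R : Finset (Fin d → ℤ))

/-- The tops of level `n`. -/
def tops (n : ℕ) : Finset (Fin d → ℤ) :=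
  (cells R n).filter fun k => topl v a L thr n k = n

/-- The excess of a cube over its own direction. -/
def selfExc (n : ℕ) (k : Fin d → ℤ) : ℝ≥0∞ :=
  ENNReal.ofReal (excess (gdir v a L n k) (gint v a L n k))

/-- The loss of mass from a cube to its children. -/
def drop (n : ℕ) (p : Fin d → ℤ) : ℝ≥0∞ :=
  (∑ c ∈ kids p, ‖gint v a L (n + 1) c‖ₑ) - ‖gint v a L n p‖ₑ

variable {v a L thr R}

lemma norm_tdir_le (hL : 0 < L) (n : ℕ) (k : Fin d → ℤ) : ‖tdir v a L thr n k‖ ≤ 1 :=
  norm_ebar_le _ _ (lev_pos hL _)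

lemma norm_gdir_le (v : X d → X d) (a : X d) {L : ℝ} (hL : 0 < L) (n : ℕ) (k : Fin d → ℤ) :
    ‖gdir v a L n k‖ ≤ 1 := norm_ebar_le _ _ (lev_pos hL _)

lemma excess_children (hv : Integrable v) (hL : 0 < L) {e : X d} (he : ‖e‖ ≤ 1) (n : ℕ)
    (p : Fin d → ℤ) :
    ∑ c ∈ kids p, ENNReal.ofReal (excess e (gint v a L (n + 1) c)) =
      ENNReal.ofReal (excess e (gint v a L n p)) + drop v a L n p := by
  have hs := gint_children hv a hL n p
  have hle : ‖gint v a L n p‖ ≤ ∑ c ∈ kids p, ‖gint v a L (n + 1) c‖ := by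
    rw [hs]; exact norm_sum_le _ _
  have hd : drop v a L n p =
      ENNReal.ofReal ((∑ c ∈ kids p, ‖gint v a L (n + 1) c‖) - ‖gint v a L n p‖) := by
    rw [drop, ENNReal.ofReal_sub _ (norm_nonneg _),
      ENNReal.ofReal_sum_of_nonneg fun c _ => norm_nonneg _]
    simp only [ofReal_norm]
  rw [← ENNReal.ofReal_sum_of_nonneg fun c _ => excess_nonneg he _, hd,
    ← ENNReal.ofReal_add (excess_nonneg he _) (sub_nonneg.2 hle)]
  congr 1
  simp only [excess, Finset.sum_sub_distrib, ← inner_sum, ← hs]
  ring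

/-- The masses of the tops are controlled by the roots, the excesses and the losses of mass. -/
theorem sum_tops_le (hv : Integrable v) (hL : 0 < L) (hthr : 0 < thr) (N : ℕ) :
    ∑ n ∈ Finset.range (N + 1), ∑ k ∈ tops v a L thr R n, ‖gint v a L n k‖ₑ ≤
      (∑ k ∈ R, ‖gint v a L 0 k‖ₑ) + ENNReal.ofReal (4 / thr ^ 2) *
        ((∑ k ∈ R, selfExc v a L 0 k) +
          2 * (∑ n ∈ Finset.range N, ∑ k ∈ cells R (n + 1), selfExc v a L (n + 1) k) +
          ∑ n ∈ Finset.range N, ∑ p ∈ cells R n, drop v a L n p) := by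
  set c4 := ENNReal.ofReal (4 / thr ^ 2)
  set P : ℕ → ℝ≥0∞ := fun n => ∑ k ∈ cells R n,
    ENNReal.ofReal (excess (tdir v a L thr n k) (gint v a L n k)) with hP
  have key : ∀ M, (∑ n ∈ Finset.range (M + 1), ∑ k ∈ tops v a L thr R n, ‖gint v a L n k‖ₑ) +
      c4 * P M ≤ (∑ k ∈ R, ‖gint v a L 0 k‖ₑ) + c4 * ((∑ k ∈ R, selfExc v a L 0 k) +
          2 * (∑ n ∈ Finset.range M, ∑ k ∈ cells R (n + 1), selfExc v a L (n + 1) k) +
          ∑ n ∈ Finset.range M, ∑ p ∈ cells R n, drop v a L n p) := by
    intro M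
    induction M with
    | zero =>
      simp [tops, hP, cells_zero, topl, selfExc,
        fun x => tdir_of_top (v := v) (a := a) (L := L) (thr := thr) (n := 0) (k := x) rfl]
    | succ M ih =>
      have hstep : (∑ k ∈ tops v a L thr R (M + 1), ‖gint v a L (M + 1) k‖ₑ) + c4 * P (M + 1) ≤
          c4 * P M + c4 * (2 * (∑ k ∈ cells R (M + 1), selfExc v a L (M + 1) k) +
            ∑ p ∈ cells R M, drop v a L M p) := by
        have h1 : ∀ k, (if topl v a L thr (M + 1) k = M + 1 then ‖gint v a L (M + 1) k‖ₑ else 0) +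
            c4 * ENNReal.ofReal (excess (tdir v a L thr (M + 1) k) (gint v a L (M + 1) k)) ≤
            c4 * ENNReal.ofReal (excess (tdir v a L thr M (anc 1 k)) (gint v a L (M + 1) k)) +
              c4 * (2 * selfExc v a L (M + 1) k) := by
          intro k
          rcases topl_succ (v := v) (a := a) (L := L) (thr := thr) M k with ⟨h, hlt⟩ | ⟨h, -⟩
          · rw [if_pos h, tdir_of_top h, two_mul, mul_add, ← add_assoc]
            refine add_le_add ?_ le_rfl
            rw [← mul_add, ← ofReal_norm, selfExc,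
              ← ENNReal.ofReal_add (excess_nonneg (norm_tdir_le hL _ _) _)
                (excess_nonneg (norm_gdir_le v a hL _ _) _),
              ← ENNReal.ofReal_mul (by positivity)]
            exact ENNReal.ofReal_le_ofReal (norm_le_excess hthr (norm_tdir_le hL _ _)
              (norm_gdir_le v a hL _ _) (by rw [norm_sub_rev]; exact hlt.le) _)
          · rw [if_neg (by have := topl_le (v := v) (a := a) (L := L) (thr := thr) M (anc 1 k); omega),
              tdir_succ_of_eq h, zero_add]
            exact le_self_add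
        have h2 : ∑ k ∈ cells R (M + 1),
            ENNReal.ofReal (excess (tdir v a L thr M (anc 1 k)) (gint v a L (M + 1) k)) =
            P M + ∑ p ∈ cells R M, drop v a L M p := by
          rw [sum_cells_succ, hP, ← Finset.sum_add_distrib]
          refine Finset.sum_congr rfl fun p _ => ?_
          rw [← excess_children hv hL (norm_tdir_le hL M p) M p]
          exact Finset.sum_congr rfl fun c hc => by rw [mem_kids.1 hc]
        have h3 := Finset.sum_le_sum fun k (_ : k ∈ cells R (M + 1)) => h1 k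
        rw [Finset.sum_add_distrib, Finset.sum_add_distrib, ← Finset.mul_sum, ← Finset.mul_sum,
          ← Finset.mul_sum, ← Finset.mul_sum, h2, ← Finset.sum_filter] at h3
        refine h3.trans (le_of_eq ?_)
        ring
      rw [Finset.sum_range_succ _ (M + 1)]
      simp only [Finset.sum_range_succ (fun n => ∑ k ∈ cells R (n + 1), selfExc v a L (n + 1) k) M,
        Finset.sum_range_succ (fun n => ∑ p ∈ cells R n, drop v a L n p) M]
      rw [add_assoc]
      refine (add_le_add le_rfl hstep).trans ?_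
      rw [← add_assoc]
      refine (add_le_add ih le_rfl).trans (le_of_eq ?_)
      ring
  exact le_self_add.trans (key N)

end Sums

end Vale.Agent.P137.Centred
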